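import Vale.Agent.P180.H568.XA
import Vale.Agent.P180.H19.AtwoC

/-!
P180: isometry towers: the relation `T X' T = c X E'` in both cases.
-/

set_option linter.all false

namespace Vale.Agent.P180.H568.XT

open Vale.Agent.P180 Vale.Agent.P180.H768.Gd Vale.Agent.P180.R2.H799 Vale.Agent.P180.R2.H799.BN
open Vale.Agent.P180.H19.Atwo

universe u

section Grp

variable {F A : Type} [Field F] [AddCommGroup A] [Module F A] {G : Type} [Group G]

/-- The group theory of two neighbouring hyperbolic blocks: `γ` the linear group of the sum of the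
two isotropic spaces (the first factor is the outer one), `U` the outer radical, `U0` the inner
radical, `t` exchanges the inner isotropic space and its dual. -/
structure PD (γ : ((A × A) ≃ₗ[F] (A × A)) →* G) (U U0 : Subgroup G) (t : G) : Prop where
  up_mem : ∀ x, γ (up x) ∈ U
  d1 : ∀ g, γ (D1 g) ∈ Nm U
  d2 : ∀ g, γ (D2 g) ∈ Nm U
  U0_le : U0 ≤ conjS (γ sw) U
  U0_Nm : U0 ≤ Nm U
  U0_d1 : ∀ v ∈ U0, ∀ g, v * γ (D1 g) = γ (D1 g) * v
  d2_U0 : ∀ g, γ (D2 g) ∈ Nm U0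
  t_Nm : t ∈ Nm U
  t_d1 : ∀ g, t * γ (D1 g) = γ (D1 g) * t
  /-- the elements `t⁻¹ up(x) t` belong to the conjugate radical and commute with the inner one -/
  x_mem : ∀ x, t⁻¹ * γ (up x) * t ∈ conjS (γ sw) U
  x_U0 : ∀ x, ∀ v ∈ U0, (t⁻¹ * γ (up x) * t) * v = v * (t⁻¹ * γ (up x) * t)
  x_d2 : ∀ g x, ∃ x', γ (D2 g) * (t⁻¹ * γ (up x) * t) * (γ (D2 g))⁻¹ = t⁻¹ * γ (up x') * t
  fac : ∀ u ∈ conjS (γ sw) U, ∃ y, ∃ v ∈ U0, ∃ x, u = γ (lo y) * v * (t⁻¹ * γ (up x) * t)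
  t_up : ∀ y, γ sw * (t * γ (up y) * t⁻¹) * (γ sw)⁻¹ ∈ U
  t_lo : ∀ y, ∃ y', γ sw * (t * γ (lo y) * t⁻¹) * (γ sw)⁻¹ = t⁻¹ * γ (lo y') * t

theorem sw_sq (γ : ((A × A) ≃ₗ[F] (A × A)) →* G) : γ sw * γ sw = 1 := by
  rw [← map_mul, sw_mul_sw, map_one]

theorem sw_inv (γ : ((A × A) ≃ₗ[F] (A × A)) →* G) : (γ sw)⁻¹ = γ sw :=
  inv_eq_of_mul_eq_one_left (sw_sq γ)

theorem up_mul (x x' : A →ₗ[F] A) : up x * up x' = up (x + x') := by
  apply LinearEquiv.ext
  intro v
  refine Prod.ext ?_ rfl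
  change v.1 + x' v.2 + x v.2 = v.1 + (x v.2 + x' v.2)
  abel

theorem up_zero : up (0 : A →ₗ[F] A) = 1 := by
  apply LinearEquiv.ext
  intro v
  refine Prod.ext ?_ rfl
  change v.1 + 0 = v.1
  rw [add_zero]

theorem lo_mul (y y' : A →ₗ[F] A) : lo y * lo y' = lo (y + y') := by
  apply LinearEquiv.ext
  intro v
  refine Prod.ext rfl ?_
  change v.2 + y' v.1 + y v.1 = v.2 + (y v.1 + y' v.1)
  abel

/-- the subgroup `{c γ(up x) c⁻¹}` -/
def UpS (γ : ((A × A) ≃ₗ[F] (A × A)) →* G) (c : G) : Subgroup G where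
  carrier := {g | ∃ x, g = c * γ (up x) * c⁻¹}
  one_mem' := ⟨0, by rw [up_zero, map_one]; group⟩
  mul_mem' := by
    rintro _ _ ⟨x, rfl⟩ ⟨x', rfl⟩
    exact ⟨x + x', by rw [← up_mul, map_mul]; group⟩
  inv_mem' := by
    rintro _ ⟨x, rfl⟩
    refine ⟨-x, ?_⟩
    have h : γ (up (-x)) = (γ (up x))⁻¹ := by
      rw [eq_inv_iff_mul_eq_one, ← map_mul, up_mul, neg_add_cancel, up_zero, map_one]
    rw [h]; group

/-- the subgroup `{c γ(lo y) c⁻¹}` -/
def LoS (γ : ((A × A) ≃ₗ[F] (A × A)) →* G) (c : G) : Subgroup G where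
  carrier := {g | ∃ x, g = c * γ (lo x) * c⁻¹}
  one_mem' := ⟨0, by rw [lo_zero, map_one]; group⟩
  mul_mem' := by
    rintro _ _ ⟨x, rfl⟩ ⟨x', rfl⟩
    exact ⟨x + x', by rw [← lo_mul, map_mul]; group⟩
  inv_mem' := by
    rintro _ ⟨x, rfl⟩
    refine ⟨-x, ?_⟩
    have h : γ (lo (-x)) = (γ (lo x))⁻¹ := by
      rw [eq_inv_iff_mul_eq_one, ← map_mul, lo_mul, neg_add_cancel, lo_zero, map_one]
    rw [h]; group

theorem mem_UpS {γ : ((A × A) ≃ₗ[F] (A × A)) →* G} {c g : G} :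
    g ∈ UpS γ c ↔ ∃ x, g = c * γ (up x) * c⁻¹ := Iff.rfl

theorem mem_LoS {γ : ((A × A) ≃ₗ[F] (A × A)) →* G} {c g : G} :
    g ∈ LoS γ c ↔ ∃ x, g = c * γ (lo x) * c⁻¹ := Iff.rfl

end Grp

section Sd

variable {F A : Type} [Field F] [Finite F] [AddCommGroup A] [Module F A] [Finite A] [Nontrivial A]
  [Finite (A ≃ₗ[F] A)] [Fintype (A ≃ₗ[F] A)] [Fintype (A →ₗ[F] A)]
  {k : Type u} [Field k] [CharZero k] {G : Type} [Group G] [Finite G]
  {γ : ((A × A) ≃ₗ[F] (A × A)) →* G} {ε : MonoidAlgebra k (A ≃ₗ[F] A)}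
  {U U0 : Subgroup G} {t : G}

/-- The common facts. -/
structure CF (γ : ((A × A) ≃ₗ[F] (A × A)) →* G) (ε : MonoidAlgebra k (A ≃ₗ[F] A))
    (U U0 : Subgroup G) (t : G) (E E0 EB s i2e : MonoidAlgebra k G) : Prop where
  ss : s * s = 1
  EE : E * E = E
  E0E0 : E0 * E0 = E0
  EE0 : E * E0 = E0 * E
  EB_def : EB = s * E * s
  EB1 : EB = av k (conjS (γ sw) U) * i2e
  EB2 : EB = i2e * av k (conjS (γ sw) U)
  E01 : E0 = av k U0 * i2e
  ii : i2e * i2e = i2e
  i2E : i2e * E = E * i2e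
  hA : E * (s * E0 * s) = E
  hA' : (s * E0 * s) * E = E
  El : ∀ u ∈ U, o k u * E = E
  Er : ∀ u ∈ U, E * o k u = E

theorem exists_cf (hεi : ε * ε = ε) (hD : PD γ U U0 t) :
    CF γ ε U U0 t (Vale.Agent.P180.H19.Atwo.EA γ ε U) (av k U0 * mp (γ.comp D2) ε) (o k (γ sw) * Vale.Agent.P180.H19.Atwo.EA γ ε U * o k (γ sw))
      (o k (γ sw)) (mp (γ.comp D2) ε) := by
  set u := av k U with hu
  set u0 := av k U0 with hu0
  set ub := av k (conjS (γ sw) U) with hub
  set i1 : MonoidAlgebra k (A ≃ₗ[F] A) →ₐ[k] MonoidAlgebra k G := mp (γ.comp D1) with hi1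
  set i2 : MonoidAlgebra k (A ≃ₗ[F] A) →ₐ[k] MonoidAlgebra k G := mp (γ.comp D2) with hi2
  set s : MonoidAlgebra k G := o k (γ sw) with hs
  have hE : Vale.Agent.P180.H19.Atwo.EA γ ε U = u * i1 ε := rfl
  rw [hE]
  have hu1 : ∀ z, i1 z * u = u * i1 z := fun z => mp_rel (fun g => single_comm_av (hD.d1 g)) z
  have hu2 : ∀ z, i2 z * u = u * i2 z := fun z => mp_rel (fun g => single_comm_av (hD.d2 g)) z
  have hu02 : ∀ z, i2 z * u0 = u0 * i2 z :=
    fun z => mp_rel (fun g => single_comm_av (hD.d2_U0 g)) z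
  have hu01 : ∀ z, i1 z * u0 = u0 * i1 z := fun z => by
    refine mp_rel (fun g => single_comm_av ?_) z
    rw [mem_Nm]
    intro v
    constructor
    · intro hv
      have : (γ.comp D1) g * v * ((γ.comp D1) g)⁻¹ = v := by
        change γ (D1 g) * v * (γ (D1 g))⁻¹ = v
        rw [← hD.U0_d1 v hv g, mul_inv_cancel_right]
      rw [this]
      exact hv
    · intro hv
      have h3 := hD.U0_d1 _ hv g
      have h4 : γ (D1 g) * v * (γ (D1 g))⁻¹ * γ (D1 g) = γ (D1 g) * (γ (D1 g) * v * (γ (D1 g))⁻¹) := h3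
      rw [inv_mul_cancel_right] at h4
      have h5 := mul_left_cancel h4
      have h6 : v = γ (D1 g) * v * (γ (D1 g))⁻¹ := h5
      rw [h6]
      exact hv
  have h12 : ∀ x z, i1 x * i2 z = i2 z * i1 x := fun x z => i1_comm_i2 γ x z
  have h1s : ∀ z, i1 z * s = s * i2 z := fun z => by
    refine mp_rel (fun g => ?_) z
    rw [hs, MonoidAlgebra.single_mul_single, MonoidAlgebra.single_mul_single]
    congr 1
    change γ (D1 g) * γ sw = γ sw * γ (D2 g)
    rw [← map_mul, ← map_mul, D1_mul_sw]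
  have h2s : ∀ z, i2 z * s = s * i1 z := fun z => by
    refine mp_rel (fun g => ?_) z
    rw [hs, MonoidAlgebra.single_mul_single, MonoidAlgebra.single_mul_single]
    congr 1
    change γ (D2 g) * γ sw = γ sw * γ (D1 g)
    rw [← map_mul, ← map_mul, D2_mul_sw]
  have hss : s * s = 1 := by
    rw [hs, o_mul, sw_sq]; rfl
  have hsu : s * u = ub * s := by rw [hs, hu, single_mul_av]
  have huu : u * u = u := av_idem (cardU U)
  have hu0u0 : u0 * u0 = u0 := av_idem (cardU U0)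
  have hu0u : u0 * u = u * u0 := av_comm hD.U0_Nm (av_mem U0)
  have hee1 : i1 ε * i1 ε = i1 ε := by rw [← map_mul, hεi]
  have hee2 : i2 ε * i2 ε = i2 ε := by rw [← map_mul, hεi]
  have hEE : u * i1 ε * (u * i1 ε) = u * i1 ε := by
    calc u * i1 ε * (u * i1 ε) = u * (i1 ε * u) * i1 ε := by simp only [mul_assoc]
      _ = (u * u) * (i1 ε * i1 ε) := by rw [hu1]; simp only [mul_assoc]
      _ = u * i1 ε := by rw [huu, hee1]
  have hE0E0 : u0 * i2 ε * (u0 * i2 ε) = u0 * i2 ε := by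
    calc u0 * i2 ε * (u0 * i2 ε) = u0 * (i2 ε * u0) * i2 ε := by simp only [mul_assoc]
      _ = (u0 * u0) * (i2 ε * i2 ε) := by rw [hu02]; simp only [mul_assoc]
      _ = u0 * i2 ε := by rw [hu0u0, hee2]
  have hu0E : u0 * (u * i1 ε) = (u * i1 ε) * u0 := by
    rw [← mul_assoc, hu0u, mul_assoc, ← hu01, mul_assoc]
  have h2E : ∀ z, i2 z * (u * i1 ε) = (u * i1 ε) * i2 z := fun z => by
    rw [← mul_assoc, hu2, mul_assoc, ← h12, mul_assoc]
  have hEE0 : (u * i1 ε) * (u0 * i2 ε) = (u0 * i2 ε) * (u * i1 ε) := by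
    rw [mul_assoc u0, h2E, ← mul_assoc, ← mul_assoc, hu0E]
  have hsus : s * u * s = ub := by rw [hsu, mul_assoc, hss, mul_one]
  have hs1s : s * i1 ε * s = i2 ε := by rw [mul_assoc, h1s, ← mul_assoc, hss, one_mul]
  have hs2s : s * i2 ε * s = i1 ε := by rw [mul_assoc, h2s, ← mul_assoc, hss, one_mul]
  have hEB1 : s * (u * i1 ε) * s = ub * i2 ε := by
    calc s * (u * i1 ε) * s = (s * u * s) * (s * i1 ε * s) := by
          calc s * (u * i1 ε) * s = s * u * 1 * i1 ε * s := by rw [mul_one]; simp only [mul_assoc]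
            _ = _ := by rw [← hss]; simp only [mul_assoc]
      _ = _ := by rw [hsus, hs1s]
  have hEB2 : s * (u * i1 ε) * s = i2 ε * ub := by
    rw [← hu1]
    calc s * (i1 ε * u) * s = (s * i1 ε * s) * (s * u * s) := by
          calc s * (i1 ε * u) * s = s * i1 ε * 1 * u * s := by rw [mul_one]; simp only [mul_assoc]
            _ = _ := by rw [← hss]; simp only [mul_assoc]
      _ = _ := by rw [hsus, hs1s]
  -- `s E0 s`
  have hw0 : s * u0 * s = av k (conjS (γ sw) U0) := by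
    have h := single_mul_av (k := k) U0 (γ sw)
    have h' : s * u0 = av k (conjS (γ sw) U0) * s := h
    rw [h', mul_assoc, hss, mul_one]
  have hle : conjS (γ sw) U0 ≤ U := by
    intro x hx
    rw [mem_conjS] at hx
    have h1 := hD.U0_le hx
    rw [mem_conjS] at h1
    have e : (γ sw)⁻¹ * ((γ sw)⁻¹ * x * γ sw) * γ sw = x := by
      have h2 := sw_sq γ
      rw [sw_inv]
      calc γ sw * (γ sw * x * γ sw) * γ sw = (γ sw * γ sw) * x * (γ sw * γ sw) := by group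
        _ = x := by rw [h2, one_mul, mul_one]
    rw [e] at h1
    exact h1
  have hsE0 : s * (u0 * i2 ε) * s = av k (conjS (γ sw) U0) * i1 ε := by
    calc s * (u0 * i2 ε) * s = (s * u0 * s) * (s * i2 ε * s) := by
          calc s * (u0 * i2 ε) * s = s * u0 * 1 * i2 ε * s := by rw [mul_one]; simp only [mul_assoc]
            _ = _ := by rw [← hss]; simp only [mul_assoc]
      _ = _ := by rw [hw0, hs2s]
  have hsE0' : s * (u0 * i2 ε) * s = i1 ε * av k (conjS (γ sw) U0) := by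
    rw [← hu02]
    calc s * (i2 ε * u0) * s = (s * i2 ε * s) * (s * u0 * s) := by
          calc s * (i2 ε * u0) * s = s * i2 ε * 1 * u0 * s := by rw [mul_one]; simp only [mul_assoc]
            _ = _ := by rw [← hss]; simp only [mul_assoc]
      _ = _ := by rw [hw0, hs2s]
  have hl : av k (conjS (γ sw) U0) * u = u := av_le_left (cardU _) hle
  have hr : u * av k (conjS (γ sw) U0) = u := av_le_right (cardU _) hle
  refine ⟨hss, hEE, hE0E0, hEE0, rfl, hEB1, hEB2, rfl, hee2, h2E ε, ?_, ?_, ?_, ?_⟩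
  · rw [hsE0', ← hu1]
    calc i1 ε * u * (i1 ε * av k (conjS (γ sw) U0)) = i1 ε * (u * i1 ε) * av k (conjS (γ sw) U0) := by
          simp only [mul_assoc]
      _ = (i1 ε * i1 ε) * (u * av k (conjS (γ sw) U0)) := by rw [← hu1]; simp only [mul_assoc]
      _ = i1 ε * u := by rw [hee1, hr]
  · rw [hsE0]
    calc av k (conjS (γ sw) U0) * i1 ε * (u * i1 ε) = av k (conjS (γ sw) U0) * (i1 ε * u) * i1 ε := by
          simp only [mul_assoc]
      _ = (av k (conjS (γ sw) U0) * u) * (i1 ε * i1 ε) := by rw [hu1]; simp only [mul_assoc]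
      _ = u * i1 ε := by rw [hee1, hl]
  · intro v hv
    rw [← mul_assoc, av_left U hv]
  · intro v hv
    rw [← hu1, mul_assoc, av_right U hv]

/-- the first half of the relation -/
theorem txt_half {E E0 EB s i2e T : MonoidAlgebra k G} (hc : CF γ ε U U0 t E E0 EB s i2e)
    {tA tB X' : MonoidAlgebra k G} (hct : E * tB = tB * E) (hts : s * tB * s = tA)
    (hX' : X' = E0 * tB * E0) (hT : T = E * s * E) : T * X' * T = E * tA * EB * E := by
  rw [hc.EB_def]
  exact txt_ring hc.ss hc.EE hc.EE0 hct hts hc.hA hc.hA' hX' hT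

theorem x_EE {E E0 EB s i2e : MonoidAlgebra k G} (hD : PD γ U U0 t)
    (hc : CF γ ε U U0 t E E0 EB s i2e) (hi : i2e = mp (γ.comp D2) ε) :
    ∀ c ∈ UpS γ t⁻¹, o k c * (i2e * E) = i2e * E := by
  -- the group `UpS γ t⁻¹` is normalised by `γ (D2 g)` and contained in `U`
  intro c hcm
  have hUle : UpS γ t⁻¹ ≤ U := by
    rintro _ ⟨x, rfl⟩
    have h1 := hD.up_mem x
    have h2 := (mem_Nm.mp ((Nm U).inv_mem hD.t_Nm) (γ (up x))).mp h1
    exact h2
  have hN : ∀ g, γ (D2 g) ∈ Nm (UpS γ t⁻¹) := by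
    intro g
    rw [mem_Nm]
    intro v
    constructor
    · rintro ⟨x, rfl⟩
      obtain ⟨x', hx'⟩ := hD.x_d2 g x
      refine ⟨x', ?_⟩
      rw [inv_inv]
      exact hx'
    · rintro ⟨x, hx⟩
      obtain ⟨x', hx'⟩ := hD.x_d2 g⁻¹ x
      refine ⟨x', ?_⟩
      rw [inv_inv] at hx ⊢
      rw [← hx', ← hx, map_inv, map_inv]
      group
  have h3 : i2e * av k (UpS γ t⁻¹) = av k (UpS γ t⁻¹) * i2e := by
    rw [hi]
    exact mp_rel (fun g => single_comm_av (hN g)) ε
  have h4 : av k (UpS γ t⁻¹) * E = E :=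
    av_mul_of_fix (cardU _) fun v hv => hc.El v (hUle hv)
  calc o k c * (i2e * E) = o k c * (i2e * (av k (UpS γ t⁻¹) * E)) := by rw [h4]
    _ = o k c * ((i2e * av k (UpS γ t⁻¹)) * E) := by simp only [mul_assoc]
    _ = (o k c * av k (UpS γ t⁻¹)) * i2e * E := by rw [h3]; simp only [mul_assoc]
    _ = i2e * av k (UpS γ t⁻¹) * E := by rw [av_left _ hcm, h3]
    _ = i2e * E := by rw [mul_assoc, h4]

/-- **self-dual case** -/
theorem txt_sd (hεi : ε * ε = ε) (hD : PD γ U U0 t) {E E0 X X' T : MonoidAlgebra k G}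
    (hE : E = Vale.Agent.P180.H19.Atwo.EA γ ε U) (hE0 : E0 = av k U0 * mp (γ.comp D2) ε)
    (hT : T = E * o k (γ sw) * E) (hX : X = E * o k (γ sw * t * γ sw) * E)
    (hX' : X' = E0 * o k t * E0) : T * X' * T = X * E0 := by
  have hc := exists_cf hεi hD
  rw [← hE, ← hE0] at hc
  have hts : o k (γ sw) * o k t * o k (γ sw) = o k (γ sw * t * γ sw) := by
    rw [o_mul, o_mul]
  have htE : E * o k t = o k t * E := by
    have h1 : o k t * av k U = av k U * o k t := single_comm_av hD.t_Nm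
    have h2 : mp (γ.comp D1) ε * o k t = o k t * mp (γ.comp D1) ε := by
      refine mp_rel (fun g => ?_) ε
      rw [o_mul, o_mul]
      congr 1
      exact (hD.t_d1 g).symm
    rw [hE]
    calc av k U * mp (γ.comp D1) ε * o k t = av k U * (mp (γ.comp D1) ε * o k t) := mul_assoc _ _ _
      _ = (av k U * o k t) * mp (γ.comp D1) ε := by rw [h2, mul_assoc]
      _ = o k t * (av k U * mp (γ.comp D1) ε) := by rw [← h1, mul_assoc]
  have h1 := txt_half hc htE hts hX' hT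
  rw [h1, hc.EB1]
  -- absorb the two outer factors
  have h2 : E * o k (γ sw * t * γ sw) * av k (conjS (γ sw) U) * (mp (γ.comp D2) ε * E) =
      E * o k (γ sw * t * γ sw) * av k U0 * (mp (γ.comp D2) ε * E) := by
    refine fac_right (H1 := LoS γ 1) (H2 := UpS γ t⁻¹) (cardU _) (cardU _) ?_ hD.U0_le ?_ ?_
      (x_EE hD hc rfl)
    · intro u hu
      obtain ⟨y, v, hv, x, rfl⟩ := hD.fac u hu
      refine ⟨γ (lo y), ⟨y, by group⟩, v, hv, t⁻¹ * γ (up x) * t, ⟨x, by group⟩, rfl⟩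
    · rintro _ ⟨x, rfl⟩ v hv
      rw [inv_inv]
      exact hD.x_U0 x v hv
    · rintro _ ⟨y, rfl⟩
      have e1 : (1 : G) * γ (lo y) * 1⁻¹ = γ (lo y) := by group
      rw [e1]
      have e2 : γ sw * t * γ sw * γ (lo y) = (γ sw * (t * γ (up y) * t⁻¹) * (γ sw)⁻¹) *
          (γ sw * t * γ sw) := by
        have e3 : γ sw * γ (lo y) = γ (up y) * γ sw := by
          rw [← map_mul, ← map_mul]
          congr 1
        calc γ sw * t * γ sw * γ (lo y) = γ sw * t * (γ sw * γ (lo y)) := by group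
          _ = γ sw * t * γ (up y) * γ sw := by rw [e3]; group
          _ = _ := by group
      rw [mul_assoc E, o_mul, e2, ← o_mul, ← mul_assoc, hc.Er _ (hD.t_up y)]
  calc E * o k (γ sw * t * γ sw) * (av k (conjS (γ sw) U) * mp (γ.comp D2) ε) * E
      = E * o k (γ sw * t * γ sw) * av k (conjS (γ sw) U) * (mp (γ.comp D2) ε * E) := by
        simp only [mul_assoc]
    _ = E * o k (γ sw * t * γ sw) * (E0 * E) := by rw [h2, hE0]; simp only [mul_assoc]
    _ = X * E0 := by rw [← hc.EE0, hX]; simp only [mul_assoc]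

end Sd

end Vale.Agent.P180.H568.XT
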