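import Vale.Agent.P180.H568.A3c

/-!
# Positive self-adjoint Hopf algebras: multiplicities are at most `(deg μ)!`
-/

namespace Vale.Agent.P180.H568

open Finset

namespace PSH

set_option linter.unusedSectionVars false

variable {Ω : Type*} [DecidableEq Ω] {P : PSH Ω}

variable (P) in
/-- The multiplicity of `w` in `π * l₁ * ... * l_s`, for `deg w ≤ K`. -/
def cnt (K : ℕ) : List Ω → Ω → Ω → ℕ
  | [], π, w => if w = π then 1 else 0
  | σ :: L, π, w => ∑ s ∈ P.W K, P.c σ s w * cnt K L π s

theorem cnt_nil (K : ℕ) (π w : Ω) : P.cnt K [] π w = if w = π then 1 else 0 := rfl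

theorem cnt_cons (K : ℕ) (σ : Ω) (L : List Ω) (π w : Ω) :
    P.cnt K (σ :: L) π w = ∑ s ∈ P.W K, P.c σ s w * P.cnt K L π s := rfl

theorem cnt_ne {K : ℕ} {σ : Ω} {L : List Ω} {π w : Ω} (h : P.cnt K (σ :: L) π w ≠ 0) :
    ∃ s, P.c σ s w ≠ 0 ∧ P.cnt K L π s ≠ 0 := by
  rw [cnt_cons] at h
  obtain ⟨s, _, hs⟩ := Finset.exists_ne_zero_of_sum_ne_zero h
  exact ⟨s, left_ne_zero_of_mul hs, right_ne_zero_of_mul hs⟩

theorem cnt_append (K : ℕ) (L L' : List Ω) (π w : Ω) (hw : P.deg w ≤ K) :
    P.cnt K (L ++ L') π w = ∑ x ∈ P.W K, P.cnt K L x w * P.cnt K L' π x := by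
  induction L generalizing w with
  | nil =>
    simp only [List.nil_append, cnt_nil, ite_mul, one_mul, zero_mul]
    rw [Finset.sum_ite_eq, if_pos ((P.mem_W _ _).2 hw)]
  | cons σ L ih =>
    rw [List.cons_append, cnt_cons]
    simp only [cnt_cons, Finset.sum_mul]
    rw [Finset.sum_comm]
    refine Finset.sum_congr rfl fun s hs => ?_
    rw [ih s ((P.mem_W _ _).1 hs), Finset.mul_sum]
    refine Finset.sum_congr rfl fun x _ => ?_
    ring

section

variable {ρ : Ω} {r : ℕ → Ω → ℕ}
  (h1 : ∀ s w, P.c ρ s w ≠ 0 → P.c ρ s w = 1 ∧ ∃ i, r i s + 1 = r i w ∧ ∀ j, j ≠ i → r j s = r j w)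
  (h3 : ∀ σ, P.Prim σ → σ ≠ ρ → ∀ s w, P.c σ s w ≠ 0 → ∀ j, r j s = r j w)
include h1 h3

theorem cnt_rows (K : ℕ) (L : List Ω) (hL : ∀ σ ∈ L, P.Prim σ) : ∀ {π w : Ω},
    P.cnt K L π w ≠ 0 → (∀ i, r i π ≤ r i w) ∧
      ∀ T : Finset ℕ, (∀ i ∈ T, r i π < r i w) → T.card ≤ L.length := by
  induction L with
  | nil =>
    intro π w h
    rw [cnt_nil] at h
    have hw : w = π := by
      by_contra h0; rw [if_neg h0] at h; exact h rfl
    subst hw
    refine ⟨fun i => le_rfl, fun T hT => ?_⟩
    have : T = ∅ := by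
      rw [Finset.eq_empty_iff_forall_notMem]
      intro i hi
      exact lt_irrefl _ (hT i hi)
    rw [this]; simp
  | cons σ L ih =>
    intro π w h
    obtain ⟨s, hs, hs'⟩ := cnt_ne h
    have ih' := ih (fun τ hτ => hL τ (List.mem_cons_of_mem _ hτ)) hs'
    by_cases hσ : σ = ρ
    · subst hσ
      obtain ⟨_, i, hi, hj⟩ := h1 s w hs
      refine ⟨fun j => ?_, fun T hT => ?_⟩
      · by_cases hji : j = i
        · subst hji; have := ih'.1 j; omega
        · rw [← hj j hji]; exact ih'.1 j
      · have h4 := ih'.2 (T.erase i) (by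
          intro j hjT
          rw [Finset.mem_erase] at hjT
          rw [hj j hjT.1]
          exact hT j hjT.2)
        have h5 := Finset.pred_card_le_card_erase (s := T) (a := i)
        rw [List.length_cons]; omega
    · have h4 := h3 σ (hL σ (List.mem_cons_self ..)) hσ s w hs
      refine ⟨fun j => by rw [← h4 j]; exact ih'.1 j, fun T hT => ?_⟩
      have := ih'.2 T (fun i hi => by rw [h4 i]; exact hT i hi)
      rw [List.length_cons]; omega

end

theorem cnt_le (K : ℕ) (L : List Ω) (hL : ∀ σ ∈ L, P.Prim σ) : ∀ (π w : Ω),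
    P.cnt K L π w ≤ L.length.factorial := by
  induction L with
  | nil => intro π w; rw [cnt_nil]; split_ifs <;> simp
  | cons ρ L ih =>
    intro π w
    have ih' := ih (fun τ hτ => hL τ (List.mem_cons_of_mem _ hτ))
    obtain ⟨r, h1, h2, h3⟩ := (hL ρ (List.mem_cons_self ..)).rows
    classical
    set G := (P.W K).filter (fun s => P.c ρ s w ≠ 0 ∧ P.cnt K L π s ≠ 0) with hG
    have e1 : P.cnt K (ρ :: L) π w = ∑ s ∈ G, P.c ρ s w * P.cnt K L π s := by
      rw [cnt_cons, hG, Finset.sum_filter]
      refine Finset.sum_congr rfl fun s _ => ?_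
      split_ifs with h
      · rfl
      · by_contra h0
        exact h ⟨left_ne_zero_of_mul h0, right_ne_zero_of_mul h0⟩
    have e2 : P.cnt K (ρ :: L) π w ≤ G.card * L.length.factorial := by
      rw [e1, ← smul_eq_mul]
      apply Finset.sum_le_card_nsmul
      intro s hs
      rw [hG, Finset.mem_filter] at hs
      rw [(h1 s w hs.2.1).1, one_mul]
      exact ih' π s
    have e3 : G.card ≤ L.length + 1 := by
      rcases G.eq_empty_or_nonempty with hG0 | ⟨s0, hs0⟩
      · rw [hG0]; simp
      have hne : P.cnt K (ρ :: L) π w ≠ 0 := by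
        rw [e1]
        have h4 : 0 < P.c ρ s0 w * P.cnt K L π s0 := by
          rw [hG, Finset.mem_filter] at hs0
          exact Nat.mul_pos (Nat.pos_of_ne_zero hs0.2.1) (Nat.pos_of_ne_zero hs0.2.2)
        have h5 := Finset.single_le_sum (f := fun s => P.c ρ s w * P.cnt K L π s)
          (fun _ _ => Nat.zero_le _) hs0
        omega
      have h4 : ∀ s, s ∈ G → ∃ i, r i s + 1 = r i w ∧ ∀ j, j ≠ i → r j s = r j w := by
        intro s hs
        rw [hG, Finset.mem_filter] at hs
        exact (h1 s w hs.2.1).2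
      choose! ix hix using h4
      have h5 : (G.image ix).card = G.card := by
        apply Finset.card_image_of_injOn
        intro s hs s' hs' hss
        have a1 := hix s hs
        have a2 := hix s' hs'
        have hs1 := hs
        have hs2 := hs'
        rw [Finset.mem_coe, hG, Finset.mem_filter] at hs1 hs2
        apply h2 s s' w hs1.2.1 hs2.2.1
        intro j
        by_cases hj : j = ix s
        · have b1 := a1.1
          have b2 := a2.1
          rw [← hss] at b2
          subst hj; omega
        · rw [a1.2 j hj, a2.2 j (by rw [← hss]; exact hj)]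
      rw [← h5, ← List.length_cons (a := ρ)]
      apply (cnt_rows h1 h3 K (ρ :: L) hL hne).2
      intro i hi
      rw [Finset.mem_image] at hi
      obtain ⟨s, hs, rfl⟩ := hi
      have a1 := hix s hs
      rw [hG, Finset.mem_filter] at hs
      have a2 := (cnt_rows h1 h3 K L (fun τ hτ => hL τ (List.mem_cons_of_mem _ hτ)) hs.2.2).1 (ix s)
      omega
    calc P.cnt K (ρ :: L) π w ≤ G.card * L.length.factorial := e2
      _ ≤ (L.length + 1) * L.length.factorial := Nat.mul_le_mul_right _ e3
      _ = (ρ :: L).length.factorial := by rw [List.length_cons, Nat.factorial_succ]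

/-- Every irreducible element is contained in a product of primitive ones. -/
theorem exists_list (n : ℕ) : ∀ μ, P.deg μ = n → ∃ L : List Ω, (∀ σ ∈ L, P.Prim σ) ∧
    L.length ≤ n ∧ ∀ K π w, P.deg w ≤ K → P.c μ π w ≤ P.cnt K L π w := by
  induction n using Nat.strong_induction_on with
  | _ n ih =>
    intro μ hμ
    rcases Nat.eq_zero_or_pos n with hn | hn
    · obtain rfl := P.eq_one μ (by omega)
      refine ⟨[], by simp, by simp, fun K π w _ => ?_⟩
      rw [cnt_nil, P.one_c]
    by_cases hp : P.Prim μ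
    · refine ⟨[μ], by simpa using hp, by rw [List.length_singleton]; exact hn,
        fun K π w hw => ?_⟩
      rw [cnt_cons]
      by_cases hπ : π ∈ P.W K
      · have h5 := Finset.single_le_sum (f := fun s => P.c μ s w * P.cnt K [] π s)
          (fun _ _ => Nat.zero_le _) hπ
        simpa [cnt_nil] using h5
      · have : P.c μ π w = 0 := by
          by_contra h0
          apply hπ
          rw [P.mem_W]
          have := P.deg_c _ _ _ h0
          omega
        rw [this]; exact Nat.zero_le _
    · have h1 : ∃ a b, P.c a b μ ≠ 0 ∧ a ≠ P.one ∧ b ≠ P.one := by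
        by_contra h2
        push Not at h2
        apply hp
        refine ⟨by omega, fun a b hab => ?_⟩
        by_contra h3
        push Not at h3
        exact h3.2 (h2 a b hab h3.1)
      obtain ⟨a, b, hab, ha, hb⟩ := h1
      have hd := P.deg_c _ _ _ hab
      have ha' : 0 < P.deg a := Nat.pos_of_ne_zero fun h0 => ha (P.eq_one _ h0)
      have hb' : 0 < P.deg b := Nat.pos_of_ne_zero fun h0 => hb (P.eq_one _ h0)
      obtain ⟨La, ha1, ha2, ha3⟩ := ih (P.deg a) (by omega) a rfl
      obtain ⟨Lb, hb1, hb2, hb3⟩ := ih (P.deg b) (by omega) b rfl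
      refine ⟨La ++ Lb, ?_, ?_, ?_⟩
      · intro σ hσ
        rcases List.mem_append.1 hσ with h | h
        · exact ha1 σ h
        · exact hb1 σ h
      · rw [List.length_append]; omega
      · intro K π w hw
        rw [cnt_append K La Lb π w hw]
        by_cases hdw : P.deg w = P.deg μ + P.deg π
        · have h4 := P.assoc a b π w K (by omega)
          have h5 : P.c μ π w ≤ ∑ x ∈ P.W K, P.c a b x * P.c x π w := by
            have h6 := Finset.single_le_sum (f := fun x => P.c a b x * P.c x π w)
              (fun _ _ => Nat.zero_le _) ((P.mem_W K μ).2 (by omega))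
            have h7 : 1 * P.c μ π w ≤ P.c a b μ * P.c μ π w :=
              Nat.mul_le_mul_right _ (Nat.one_le_iff_ne_zero.2 hab)
            omega
          rw [h4] at h5
          refine h5.trans (Finset.sum_le_sum fun x hx => ?_)
          rw [mul_comm]
          exact Nat.mul_le_mul (ha3 K x w hw) (hb3 K π x ((P.mem_W _ _).1 hx))
        · have : P.c μ π w = 0 := by
            by_contra h0; exact hdw (P.deg_c _ _ _ h0)
          rw [this]; exact Nat.zero_le _

/-- **Multiplicities in a positive self-adjoint Hopf algebra.** -/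
theorem mult_le (π μ w : Ω) : P.c π μ w ≤ (P.deg μ).factorial := by
  obtain ⟨L, h1, h2, h3⟩ := exists_list (P := P) _ μ rfl
  rw [P.comm]
  exact (h3 (P.deg w) π w le_rfl).trans ((cnt_le _ L h1 π w).trans (Nat.factorial_le h2))

/-- **The list form**: the multiplicity of `w` in `π * l₁ * ... * l_s` is at most
`(∑ deg lᵢ)!`. -/
theorem cnt_le_factorial (K : ℕ) (M : List Ω) (π w : Ω) (hw : P.deg w ≤ K) :
    P.cnt K M π w ≤ (M.map P.deg).sum.factorial := by
  have key : ∃ L : List Ω, (∀ σ ∈ L, P.Prim σ) ∧ L.length ≤ (M.map P.deg).sum ∧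
      ∀ π w, P.deg w ≤ K → P.cnt K M π w ≤ P.cnt K L π w := by
    induction M with
    | nil => exact ⟨[], by simp, by simp, fun _ _ _ => le_rfl⟩
    | cons μ M ih =>
      obtain ⟨L, h1, h2, h3⟩ := ih
      obtain ⟨L', h1', h2', h3'⟩ := exists_list (P := P) _ μ rfl
      refine ⟨L' ++ L, ?_, ?_, ?_⟩
      · intro σ hσ
        rcases List.mem_append.1 hσ with h | h
        · exact h1' σ h
        · exact h1 σ h
      · simp only [List.length_append, List.map_cons, List.sum_cons]; omega
      · intro π w hw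
        rw [cnt_append K L' L π w hw, cnt_cons]
        refine Finset.sum_le_sum fun s hs => ?_
        exact Nat.mul_le_mul (h3' K s w hw) (h3 π s ((P.mem_W _ _).1 hs))
  obtain ⟨L, h1, h2, h3⟩ := key
  exact (h3 π w hw).trans ((cnt_le _ L h1 π w).trans (Nat.factorial_le h2))

end PSH

end Vale.Agent.P180.H568
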