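import Vale.Agent.P180.H568.H3
import Vale.Agent.P180.H568.A3
import Vale.Agent.P180.H337.Unit

/-!
P180 H568: the positive self-adjoint Hopf algebra of the finite general linear groups.
-/

set_option linter.all false

namespace Vale.Agent.P180.H568

open Vale.Agent.P180.H393 Vale.Agent.P180.H337 Vale.Agent.P180.H568.Dc Module Finset

universe u

variable {K : Type u} [Field K] [IsAlgClosed K] [CharZero K] {F : Type} [Field F] [Finite F]

theorem sum_W {M : Type*} [AddCommMonoid M] (N : ℕ) (f : Om K F → M) :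
    ∑ w ∈ OmW K F N, f w = ∑ i ∈ range (N + 1), ∑ w ∈ OmS K F i, f w := by
  classical
  rw [← Finset.sum_fiberwise_of_maps_to (g := fun w : Om K F => w.deg) (t := range (N + 1))
    (fun w hw => by rw [Finset.mem_range]; rw [mem_OmW] at hw; omega)]
  refine Finset.sum_congr rfl fun i hi => Finset.sum_congr ?_ fun _ _ => rfl
  ext w
  rw [Finset.mem_filter, mem_OmW, mem_OmS]
  rw [Finset.mem_range] at hi
  constructor
  · exact fun h => h.2
  · exact fun h => ⟨by omega, h⟩

theorem sum_W4 {M : Type*} [AddCommMonoid M] (N : ℕ) (f : Om K F → Om K F → Om K F → Om K F → M) :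
    ∑ p ∈ OmW K F N, ∑ q ∈ OmW K F N, ∑ r ∈ OmW K F N, ∑ s ∈ OmW K F N, f p q r s =
      ∑ i ∈ range (N + 1), ∑ j ∈ range (N + 1), ∑ k ∈ range (N + 1), ∑ l ∈ range (N + 1),
        ∑ p ∈ OmS K F i, ∑ q ∈ OmS K F j, ∑ r ∈ OmS K F k, ∑ s ∈ OmS K F l, f p q r s := by
  rw [sum_W]
  refine Finset.sum_congr rfl fun i _ => ?_
  rw [Finset.sum_comm, sum_W]
  refine Finset.sum_congr rfl fun j _ => ?_
  rw [Finset.sum_comm]
  have h1 : ∀ p q, ∑ r ∈ OmW K F N, ∑ s ∈ OmW K F N, f p q r s =
      ∑ k ∈ range (N + 1), ∑ l ∈ range (N + 1), ∑ r ∈ OmS K F k, ∑ s ∈ OmS K F l, f p q r s := by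
    intro p q
    rw [sum_W]
    refine Finset.sum_congr rfl fun k _ => ?_
    rw [Finset.sum_comm, sum_W]
    refine Finset.sum_congr rfl fun l _ => ?_
    rw [Finset.sum_comm]
  simp only [h1]
  have h2 : ∀ p, ∑ q ∈ OmS K F j, ∑ k ∈ range (N + 1), ∑ l ∈ range (N + 1),
      ∑ r ∈ OmS K F k, ∑ s ∈ OmS K F l, f p q r s = ∑ k ∈ range (N + 1), ∑ l ∈ range (N + 1),
      ∑ q ∈ OmS K F j, ∑ r ∈ OmS K F k, ∑ s ∈ OmS K F l, f p q r s := by
    intro p
    rw [Finset.sum_comm]
    refine Finset.sum_congr rfl fun k _ => ?_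
    rw [Finset.sum_comm]
  simp only [h2]
  rw [Finset.sum_comm]
  refine Finset.sum_congr rfl fun k _ => ?_
  rw [Finset.sum_comm]

/-- **The Hopf identity.** -/
theorem cc_hopf (a b k l : Om K F) (N : ℕ) (hN : a.deg + b.deg ≤ N) :
    ∑ w ∈ OmW K F N, cc a b w * cc k l w =
      ∑ p ∈ OmW K F N, ∑ q ∈ OmW K F N, ∑ r ∈ OmW K F N, ∑ s ∈ OmW K F N,
        cc p q a * cc r s b * (cc p r k * cc q s l) := by
  classical
  by_cases hd : a.deg + b.deg = k.deg + l.deg
  · -- the main case
    have hcast : ((∑ w ∈ OmW K F N, cc a b w * cc k l w : ℕ) : K) =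
        ((∑ p ∈ OmW K F N, ∑ q ∈ OmW K F N, ∑ r ∈ OmW K F N, ∑ s ∈ OmW K F N,
          cc p q a * cc r s b * (cc p r k * cc q s l) : ℕ) : K) := by
      rw [sum_OmW hN fun x hx => cc_deg (fun h => hx (by rw [h, zero_mul]))]
      have fA : finrank F (Fin a.deg → F) = a.deg := finrank_fin_fun F
      have fB : finrank F (Fin b.deg → F) = b.deg := finrank_fin_fun F
      have fk : finrank F (Fin k.deg → F) = k.deg := finrank_fin_fun F
      have fl : finrank F (Fin l.deg → F) = l.deg := finrank_fin_fun F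
      have e₀ : ((Fin a.deg → F) × (Fin b.deg → F)) ≃ₗ[F] ((Fin k.deg → F) × (Fin l.deg → F)) :=
        LinearEquiv.ofFinrankEq _ _ (by rw [finrank_prod', finrank_prod', fA, fB, fk, fl, hd])
      have h1 := parseval_HC (K := K) (α := X a (Fin a.deg → F)) (β := X b (Fin b.deg → F))
        (α' := X k (Fin k.deg → F)) (β' := X l (Fin l.deg → F)) e₀
      rw [finrank_prod', fA, fB] at h1
      have h2 : ∑ w ∈ OmS K F (a.deg + b.deg), mu (X a (Fin a.deg → F)) (X b (Fin b.deg → F))
          (X w ((Fin a.deg → F) × (Fin b.deg → F))) * mu (X k (Fin k.deg → F))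
          (X l (Fin l.deg → F)) (X w ((Fin k.deg → F) × (Fin l.deg → F))) =
          ((∑ w ∈ OmS K F (a.deg + b.deg), cc a b w * cc k l w : ℕ) : K) := by
        push_cast
        refine Finset.sum_congr rfl fun w _ => ?_
        rw [cc_eq w fA fB, cc_eq w fk fl]
      rw [← h2, h1]
      rw [sum_dc_val (FF (X a (Fin a.deg → F)) (X b (Fin b.deg → F)) (X k (Fin k.deg → F))
        (X l (Fin l.deg → F))) (fun p hp p' hp' h => FF_inv (IsCh.cf (X_isCh a))
          (IsCh.cf (X_isCh b)) (IsCh.cf (X_isCh k)) (IsCh.cf (X_isCh l)) hp hp' h)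
        (fun i j m n => ∑ p ∈ OmS K F i, ∑ q ∈ OmS K F j, ∑ r ∈ OmS K F m, ∑ s ∈ OmS K F n,
          ((cc p q a : K) * cc r s b) * ((cc p r k : K) * cc q s l)) (by
          intro i j m n eA eB eA' eB'
          rw [FF_val]
          simp only [finrank_fin_fun]) (by rw [fA, fB, fk, fl, hd]) (N := N)
        (by rw [fA, fB]; exact hN)]
      rw [fA, fB, fk, fl, QQ, Finset.sum_filter, Finset.sum_product, sum_W4]
      push_cast
      refine Finset.sum_congr rfl fun i _ => ?_
      rw [Finset.sum_product]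
      refine Finset.sum_congr rfl fun j _ => ?_
      rw [Finset.sum_product]
      refine Finset.sum_congr rfl fun m _ => ?_
      refine Finset.sum_congr rfl fun n _ => ?_
      dsimp only
      split_ifs with hc
      · rfl
      · symm
        refine Finset.sum_eq_zero fun p hp => Finset.sum_eq_zero fun q hq =>
          Finset.sum_eq_zero fun r hr => Finset.sum_eq_zero fun s hs => ?_
        rw [mem_OmS] at hp hq hr hs
        by_contra hne
        apply hc
        have n1 : cc p q a ≠ 0 := fun h => hne (by rw [h]; simp)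
        have n2 : cc r s b ≠ 0 := fun h => hne (by rw [h]; simp)
        have n3 : cc p r k ≠ 0 := fun h => hne (by rw [h]; simp)
        have n4 : cc q s l ≠ 0 := fun h => hne (by rw [h]; simp)
        have d1 := cc_deg n1
        have d2 := cc_deg n2
        have d3 := cc_deg n3
        have d4 := cc_deg n4
        omega
    exact_mod_cast hcast
  · rw [Finset.sum_eq_zero, Finset.sum_eq_zero]
    · intro p _
      refine Finset.sum_eq_zero fun q _ => Finset.sum_eq_zero fun r _ =>
        Finset.sum_eq_zero fun s _ => ?_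
      by_contra hne
      apply hd
      have n1 : cc p q a ≠ 0 := fun h => hne (by rw [h]; simp)
      have n2 : cc r s b ≠ 0 := fun h => hne (by rw [h]; simp)
      have n3 : cc p r k ≠ 0 := fun h => hne (by rw [h]; simp)
      have n4 : cc q s l ≠ 0 := fun h => hne (by rw [h]; simp)
      have d1 := cc_deg n1
      have d2 := cc_deg n2
      have d3 := cc_deg n3
      have d4 := cc_deg n4
      omega
    · intro w _
      by_contra hne
      apply hd
      rw [← cc_deg (left_ne_zero_of_mul hne), ← cc_deg (right_ne_zero_of_mul hne)]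

variable (K F) in
/-- **The positive self-adjoint Hopf algebra of the general linear groups over `F`.** -/
noncomputable def glPSH [DecidableEq (Om K F)] : PSH (Om K F) where
  deg := fun w => w.deg
  one := omOne K F
  c := cc
  W := OmW K F
  mem_W := fun n w => mem_OmW
  deg_c := fun a b w h => cc_deg h
  eq_one := fun a h => eq_omOne a h
  one_c := fun a w => by rw [omOne_cc]; congr
  c_one := fun a w => by rw [cc_omOne]; congr
  assoc := fun a b d w N h => cc_assoc a b d w N h
  hopf := fun a b k l N h => cc_hopf a b k l N h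

end Vale.Agent.P180.H568
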