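import Vale.Agent.P180.H568.B5b
import Vale.Agent.P180.H386.ResGL
import Vale.Agent.P180.H386.Brx

/-!
P180 H568: the restriction of the singular part vanishes (assembly of B3).
-/

set_option linter.all false

namespace Vale.Agent.P180.H568

open Vale.Agent.P180 Vale.Agent.P180.H768.Gd Vale.Agent.P180.H393 Vale.Agent.P180.H337
  Vale.Agent.P180.H568.Dc Module Finset Subgroup
open Vale.Agent.P180.R2.H471.Hc Vale.Agent.P180.H568.Tp
open Vale.Agent.P180.R2.H954.Hc (KK toKK charZero_KK)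
open Vale.Agent.P180.R2.H799 (ParSys)
open Vale.Agent.P180.H951 (HomOn tE tE_apply BoxStmt)
open Vale.Agent.P180.H897 (Boxed)
open Vale.Agent.P180.H386 (sg Blk2 cU res_sg_av exists_E cusp_block rs_tr XX smul_eq_iff)

universe u

variable {k : Type u} [Field k] [IsAlgClosed k] {p : ℕ} [Fact p.Prime] [CharP k p]
  {F : Type} [Field F] [Finite F]

/-- The statement of the general linear half of B2b. -/
def GLHalf (p : ℕ) [Fact p.Prime] (F : Type) [Field F] [Finite F] : Prop :=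
  ¬ p ∣ Nat.card F →
  ∀ (A B : Type) [AddCommGroup A] [Module F A] [AddCommGroup B] [Module F B] [Finite A]
    [Finite B], 0 < finrank F A → 0 < finrank F B →
    ∀ (R : Subgroup ((A × B) ≃ₗ[F] (A × B))), IsPGroup p R →
    (∀ x ∈ R, ∀ y ∈ R, x * y = y * x) → HomOn R ⊤ →
    ∀ x ∈ PB (F := F) A B, x ≠ 1 → (∃ n : ℕ, x ^ p ^ n = 1) → (∃ g, g⁻¹ * x * g ∈ R) →
    ∃ 𝒱 : ParSys p (centralizer ({x} : Set ((A × B) ≃ₗ[F] (A × B)))),
      (cU (UB (F := F) A B) x).subgroupOf (centralizer ({x} : Set ((A × B) ≃ₗ[F] (A × B)))) ∈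
        𝒱.car ∧
      (cU (UB (F := F) A B) x).subgroupOf (centralizer ({x} : Set ((A × B) ≃ₗ[F] (A × B)))) ≠ ⊥ ∧
      ∀ V ∈ 𝒱.car, V ≠ ⊥ → ∃ z ∈ Subgroup.normalizer
          (V : Set (centralizer ({x} : Set ((A × B) ≃ₗ[F] (A × B))))),
        (∀ y ∈ Subgroup.normalizer (V : Set (centralizer ({x} : Set ((A × B) ≃ₗ[F] (A × B))))),
          z * y * z⁻¹ * y⁻¹ ∈ V) ∧
        (∃ m : ℕ, z ^ p ^ m = 1) ∧ ∀ g : (A × B) ≃ₗ[F] (A × B),
          g⁻¹ * x * g ∈ R → g⁻¹ * (z : (A × B) ≃ₗ[F] (A × B)) * g ∉ R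

/-- The statement of the second main theorem. -/
def SecMain (k : Type u) [Field k] [IsAlgClosed k] (p : ℕ) [Fact p.Prime] [CharP k p] : Prop :=
  ∀ {G : Type} [Group G] [Fintype G] {x : G} [Fintype (centralizer ({x} : Set G))]
    {b : MonoidAlgebra k G} {B : MonoidAlgebra (WittVector p k) G}
    {E : MonoidAlgebra (WittVector p k) (centralizer ({x} : Set G))} {χ : G → KK k p},
    (∃ n : ℕ, x ^ p ^ n = 1) → IsBlockOf (⊤ : Subgroup G) b → (∀ y, y * B = B * y) →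
    B * B = B → MonoidAlgebra.mapRingHom G (WittVector.constantCoeff (p := p) (R := k)) B = b →
    E * E = E → (∀ y, y * E = E * y) →
    MonoidAlgebra.mapRingHom _ (WittVector.constantCoeff (p := p) (R := k)) E =
      rs (centralizer ({x} : Set G)) b →
    IsIr (KK k p) G χ → ev χ (MonoidAlgebra.mapRingHom G (toKK k p) B) ≠ 0 → Blk2 χ x E

/-- The statement about the contributions. -/
def Contr (k : Type u) [Field k] [IsAlgClosed k] (p : ℕ) [Fact p.Prime] [CharP k p] : Prop :=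
  ∀ {G : Type} [Group G] [Fintype G] {b a : MonoidAlgebra k G} {D : Subgroup G}
    {B : MonoidAlgebra (WittVector p k) G} {χ ψ : G → KK k p},
    IsBlockOf (⊤ : Subgroup G) b → IsPGroup p D → (∀ x ∈ D, ∀ y ∈ D, x * y = y * x) → a ∈ Fix (cj k G) D → b = tr (cj k G) D ⊤ a →
    br D b ≠ 0 → (∀ y, y * B = B * y) → B * B = B →
    MonoidAlgebra.mapRingHom G (WittVector.constantCoeff (p := p) (R := k)) B = b →
    IsIr (KK k p) G χ → ev χ (MonoidAlgebra.mapRingHom G (toKK k p) B) ≠ 0 →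
    IsIr (KK k p) G ψ →
    (∃ z : ℤ, (Nat.card D : KK k p) * ip (sg p χ) ψ = z) ∧ (D ≠ ⊥ → ip (sg p χ) χ ≠ 0)

theorem HR_of (hpF : ¬ p ∣ Nat.card F) (HG : GLHalf p F) (HB : SecMain k p) (A B : Type)
    [AddCommGroup A] [Module F A] [AddCommGroup B] [Module F B] [Finite A]
    [Finite B] (hA : 0 < finrank F A) (hB : 0 < finrank F B)
    (R : Subgroup ((A × B) ≃ₗ[F] (A × B))) (g a : MonoidAlgebra k ((A × B) ≃ₗ[F] (A × B)))
    (E : MonoidAlgebra (WittVector p k) ((A × B) ≃ₗ[F] (A × B))) (σ : Om (KK k p) F)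
    (h : BD (A × B) R g a E σ) (x : A ≃ₗ[F] A) (y : B ≃ₗ[F] B) :
    Res (sg p (X σ (A × B))) x y = 0 := by
  refine res_sg_av hpF (IsCh.cf (X_isCh σ)) (fun x hx hx1 hxp => ?_) x y
  have hch : CharZero (KK k p) := charZero_KK k p
  have instC : Fintype (centralizer ({x} : Set ((A × B) ≃ₗ[F] (A × B)))) := Fintype.ofFinite _
  have hgF : g ∈ Fix (cj k ((A × B) ≃ₗ[F] (A × B))) ⊤ := by
    rw [h.tra]; exact tr_mem_Fix h.fix
  have hgg : g * g = g := h.blk.idem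
  obtain ⟨E', e1, e2, e3⟩ := exists_E (p := p) (x := x) hxp hgF hgg
  refine ⟨E', e1, e2, ?_, @HB _ _ _ x instC _ _ _ _ hxp h.blk h.cen h.idm h.red e1 e2 e3 (X_isIr h.deg.symm) h.evn⟩
  rw [e3]
  by_cases hc : ∃ q, q⁻¹ * x * q ∈ R
  · obtain ⟨𝒱, hV, hV0, hz⟩ := HG hpF A B hA hB R h.pg h.ab h.hom x hx hx1 hxp hc
    exact cusp_block hxp h.fix h.tra hgg 𝒱 hz hV hV0
  · have h1 : rs (centralizer ({x} : Set ((A × B) ≃ₗ[F] (A × B)))) g = 0 := by
      rw [h.tra, rs_tr hxp h.fix]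
      have : IsEmpty (XX R x) := ⟨fun q => hc ⟨q.1.out, (smul_eq_iff R).1 q.2⟩⟩
      exact Finset.sum_of_isEmpty _
    rw [h1, mul_zero]

theorem HI_of [CharZero (KK k p)] (HC : Contr k p) (W : Type) [AddCommGroup W] [Module F W] [Finite W]
    (R : Subgroup (W ≃ₗ[F] W)) (g a : MonoidAlgebra k (W ≃ₗ[F] W))
    (E : MonoidAlgebra (WittVector p k) (W ≃ₗ[F] W)) (σ : Om (KK k p) F)
    (h : BD W R g a E σ) : (∀ w ∈ OmS (KK k p) F (finrank F W), ∃ z : ℤ,
        (Nat.card R : KK k p) * ip (sg p (X σ W)) (X w W) = z) ∧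
        ip (sg p (X σ W)) (X σ W) ≠ 0 := by
  have hσ : IsIr (KK k p) (W ≃ₗ[F] W) (X σ W) := X_isIr h.deg.symm
  exact ⟨fun w hw => (HC h.blk h.pg h.ab h.fix h.tra h.bra h.cen h.idm h.red hσ h.evn
      (X_isIr (mem_OmS.1 hw).symm)).1,
    (HC h.blk h.pg h.ab h.fix h.tra h.bra h.cen h.idm h.red hσ h.evn hσ).2 h.nt⟩

/-- **The box statement, from the three remaining statements.** -/
theorem boxStmt [CharZero (KK k p)] [DecidableEq (Om (KK k p) F)] (hpF : ¬ p ∣ Nat.card F)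
    (HG : GLHalf p F) (HB : SecMain k p) (HC : Contr k p) : BoxStmt k p F :=
  boxStmt_of (fun A B _ _ _ _ _ _ hA hB R g a E σ h x y => HR_of hpF HG HB A B hA hB R g a E σ h x y)
    (fun W _ _ _ R g a E σ h => HI_of HC W R g a E σ h)

end Vale.Agent.P180.H568
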