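import Vale.Agent.P180.H568.Out
import Vale.Agent.P180.H951.SlAll

/-!
P180 (v5, row F4, helper568): components of type `SL_d(K)` on which a defect group acts through
`GL_d(K)`.
-/

set_option linter.all false

namespace Vale.Agent.P180.H568.Out

open Vale.Agent.P180 Vale.Agent.P180.H768.Gd Vale.Agent.P180.R2.H365 Vale.Agent.P180.R2.H799
  Vale.Agent.P180.R2.H954 Vale.Agent.P180.H568.Tp
open Vale.Agent.P180.H393 (OutBd)

universe u

section Gp

/-- the isomorphism of the images -/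
theorem exists_equiv {S M T : Type} [Group S] [Group M] [Group T] (f : S →* M) {π : S →* T}
    (hπ : Function.Surjective π) (hk : f.ker = π.ker) :
    ∃ φ : f.range ≃* T, ∀ x, φ (f.rangeRestrict x) = π x := by
  let e1 : S ⧸ f.ker ≃* f.range := QuotientGroup.quotientKerEquivRange f
  let e2 : S ⧸ π.ker ≃* T := QuotientGroup.quotientKerEquivOfSurjective π hπ
  refine ⟨e1.symm.trans ((QuotientGroup.quotientMulEquivOfEq hk).trans e2), fun x => ?_⟩
  have h1 : e1 (QuotientGroup.mk x) = f.rangeRestrict x := rfl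
  rw [← h1]
  change e2 (QuotientGroup.quotientMulEquivOfEq hk (e1.symm (e1 (QuotientGroup.mk x)))) = _
  rw [MulEquiv.symm_apply_apply]
  rfl

/-- the `p`-part -/
theorem exists_pow {M : Type} [Group M] [Finite M] {p : ℕ} (hp : p.Prime) (g : M) (a : ℕ) :
    ∃ x : ℕ, (∃ b, (g ^ x) ^ p ^ b = 1) ∧ ∃ y : ℕ, x = 1 + p ^ a * y := by
  obtain ⟨b, m, hm, hord⟩ := Nat.exists_eq_pow_mul_and_not_dvd (orderOf_pos g).ne' p hp.ne_one
  have hcop : Nat.Coprime (p ^ a) m := Nat.Coprime.pow_left a ((Nat.Prime.coprime_iff_not_dvd hp).mpr hm)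
  have hm0 : m ≠ 0 := by
    rintro rfl
    exact hm (dvd_zero p)
  -- x ≡ 1 mod p ^ a, x ≡ 0 mod m
  obtain ⟨x, hx1, hx2⟩ := Nat.chineseRemainder hcop 1 0
  refine ⟨x + p ^ a * m, ⟨b, ?_⟩, ?_⟩
  · have h1 : m ∣ x + p ^ a * m := Dvd.dvd.add (Nat.modEq_zero_iff_dvd.mp hx2) (Dvd.intro_left _ rfl)
    rw [← pow_mul]
    apply orderOf_dvd_iff_pow_eq_one.mp
    rw [hord, mul_comm]
    exact Nat.mul_dvd_mul h1 dvd_rfl
  · have hpa : 0 < p ^ a := pow_pos hp.pos a
    have h1 : x + p ^ a * m ≡ 1 [MOD p ^ a] := by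
      have := Nat.ModEq.add_right (p ^ a * m) hx1
      exact this.trans (by
        have h2 : 1 + p ^ a * m ≡ 1 + 0 [MOD p ^ a] :=
          Nat.ModEq.add_left 1 (Nat.modEq_zero_iff_dvd.mpr (Dvd.intro _ rfl))
        simpa using h2)
    have h2 : 1 ≤ x + p ^ a * m := by
      have : 0 < p ^ a * m := Nat.mul_pos hpa (Nat.pos_of_ne_zero hm0)
      omega
    obtain ⟨y, hy⟩ := (Nat.modEq_iff_dvd' h2).mp h1.symm
    exact ⟨y, by omega⟩

end Gp

section Gl

open Subgroup

variable {K V : Type} [Field K] [AddCommGroup V] [Module K V]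

/-- the special linear group in a subgroup of the general linear group -/
noncomputable def jW (W : Subgroup (V ≃ₗ[K] V)) (hW : ∀ g, LinearEquiv.det g = 1 → g ∈ W) :
    SpecialLinearGroup K V →* W :=
  (SpecialLinearGroup.toLinearEquiv (R := K) (V := V)).codRestrict W (fun x => hW _ x.2)

variable {W : Subgroup (V ≃ₗ[K] V)} {hW : ∀ g, LinearEquiv.det g = 1 → g ∈ W}

theorem jW_coe (x : SpecialLinearGroup K V) : ((jW W hW x : W) : V ≃ₗ[K] V) = x.1 := rfl

theorem jW_injective : Function.Injective (jW W hW) := fun x y h =>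
  Subtype.ext (congrArg (fun z : W => (z : V ≃ₗ[K] V)) h)

theorem mem_range_jW {x : W} (hx : LinearEquiv.det (x : V ≃ₗ[K] V) = 1) : ∃ y, jW W hW y = x :=
  ⟨⟨x, hx⟩, Subtype.ext rfl⟩

theorem det_jW (x : SpecialLinearGroup K V) :
    LinearEquiv.det ((jW W hW x : W) : V ≃ₗ[K] V) = 1 := x.2

/-- conjugation by an element of the general linear group -/
noncomputable def cjS (g : V ≃ₗ[K] V) (x : SpecialLinearGroup K V) : SpecialLinearGroup K V :=
  ⟨g * x.1 * g⁻¹, by
    rw [map_mul, map_mul, map_inv, x.2, mul_one, mul_inv_cancel]⟩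

theorem cjS_mul (g h : V ≃ₗ[K] V) (x : SpecialLinearGroup K V) :
    cjS (g * h) x = cjS g (cjS h x) := by
  apply Subtype.ext
  change g * h * x.1 * (g * h)⁻¹ = g * (h * x.1 * h⁻¹) * g⁻¹
  group

theorem cjS_one (x : SpecialLinearGroup K V) : cjS 1 x = x := by
  apply Subtype.ext
  change 1 * x.1 * (1 : V ≃ₗ[K] V)⁻¹ = x.1
  group

instance : ((jW W hW).range).Normal := by
  have h : (jW W hW).range = ((LinearEquiv.det : (V ≃ₗ[K] V) →* Kˣ).comp W.subtype).ker := by
    ext x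
    constructor
    · rintro ⟨y, rfl⟩
      exact y.2
    · intro hx
      exact mem_range_jW hx
  rw [h]
  infer_instance

variable {k : Type u} [Field k] {p : ℕ} [Fact p.Prime] [CharP k p] [Finite (V ≃ₗ[K] V)]
  [Module.Finite K V] [Module.Free K V]

/-- **Components on which a defect group acts through the general linear group.** -/
theorem corP_outGl (hW2 : ∀ g : V ≃ₗ[K] V, (∃ b, g ^ p ^ b = 1) → g ∈ W) {G : Type} [Group G]
    [Finite G] {D L : Subgroup G} (hD : IsPGroup p D) {n : ℕ} (hDn : Nat.card D ≤ n)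
    {π : SpecialLinearGroup K V →* L} (hπ : Function.Surjective π) (hk : π.ker ≤ center _)
    (hact : ∀ r ∈ D ⊓ Subgroup.normalizer (L : Set G), ∃ g : V ≃ₗ[K] V,
      ∀ x, ((π (cjS g x) : L) : G) = r * (π x : L) * r⁻¹)
    (R : W → W → Prop)
    (hA : ∀ x y : SpecialLinearGroup K V, ((π x : L) : G) ∈ D → ((π y : L) : G) ∈ D →
      R (jW W hW x) (jW W hW y)) {C : ℕ}
    (hF2 : ∀ (Y : Subgroup W) [Y.Normal], Y ≤ center W →
      (∀ y ∈ Y, LinearEquiv.det ((y : W) : V ≃ₗ[K] V) = 1) →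
      ∀ P Q : Subgroup (W ⧸ Y), IsPGroup p P → IsPGroup p Q →
      Q ≤ ((jW W hW).range).map (QuotientGroup.mk' Y) → Nat.card Q ≤ n →
      (∀ x y : W, LinearEquiv.det (x : V ≃ₗ[K] V) = 1 → LinearEquiv.det (y : V ≃ₗ[K] V) = 1 →
        (QuotientGroup.mk x : W ⧸ Y) ∈ Q → (QuotientGroup.mk y : W ⧸ Y) ∈ Q → R x y) →
      OutBd k (((jW W hW).range).map (QuotientGroup.mk' Y)) P Q C) (b : MonoidAlgebra k G) :
    CorP p C b D L := by
  classical
  have hp : p.Prime := Fact.out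
  set Y : Subgroup W := π.ker.map (jW W hW) with hY
  have hYc : Y ≤ center W := by
    rintro _ ⟨x, hx, rfl⟩
    obtain ⟨c, -, hc⟩ := SpecialLinearGroup.mem_center_iff.mp (hk hx)
    rw [Subgroup.mem_center_iff]
    intro g
    apply Subtype.ext
    apply LinearEquiv.ext
    intro v
    change (g : V ≃ₗ[K] V) (x.1 v) = x.1 ((g : V ≃ₗ[K] V) v)
    have h1 : ∀ v, x.1 v = c • v := fun v => congrArg (fun f : V →ₗ[K] V => f v) hc
    rw [h1, h1, map_smul]
  haveI : Y.Normal := by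
    refine ⟨fun x hx g => ?_⟩
    rw [Subgroup.mem_center_iff.mp (hYc hx) g, mul_inv_cancel_right]
    exact hx
  have hYd : ∀ y ∈ Y, LinearEquiv.det ((y : W) : V ≃ₗ[K] V) = 1 := by
    rintro _ ⟨x, hx, rfl⟩
    exact x.2
  set f : SpecialLinearGroup K V →* W ⧸ Y := (QuotientGroup.mk' Y).comp (jW W hW) with hf
  have hfr : f.range = ((jW W hW).range).map (QuotientGroup.mk' Y) := MonoidHom.range_comp _ _
  have hfk : f.ker = π.ker := by
    ext x
    rw [MonoidHom.mem_ker]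
    change (QuotientGroup.mk (jW W hW x) : W ⧸ Y) = 1 ↔ _
    rw [QuotientGroup.eq_one_iff, hY]
    constructor
    · rintro ⟨y, hy, hxy⟩
      rw [← jW_injective hxy]
      exact hy
    · intro hx
      exact ⟨x, hx, rfl⟩
  obtain ⟨φ, hφ⟩ := exists_equiv f hπ hfk
  haveI : f.range.Normal := by
    rw [hfr]
    exact Subgroup.Normal.map inferInstance _ (QuotientGroup.mk'_surjective Y)
  refine corP_of_out hD φ (fun r hr => ?_) (C := C) (fun P Q hP hQ hQN hQD => ?_) b
  · obtain ⟨g, hg⟩ := hact r hr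
    obtain ⟨a, ha⟩ := hD ⟨r, hr.1⟩
    have hra : r ^ p ^ a = 1 := congrArg Subtype.val ha
    obtain ⟨x, hx, y, hxy⟩ := exists_pow hp g a
    have hpow : ∀ j : ℕ, ∀ z, ((π (cjS (g ^ j) z) : L) : G) = r ^ j * (π z : L) * (r ^ j)⁻¹ := by
      intro j
      induction j with
      | zero =>
        intro z
        rw [pow_zero, pow_zero, cjS_one, one_mul, inv_one, mul_one]
      | succ j ih =>
        intro z
        rw [pow_succ', cjS_mul, hg, ih, pow_succ']
        group
    have hrx : r ^ x = r := by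
      rw [hxy, pow_add, pow_one, pow_mul, hra, one_pow, mul_one]
    let g' : W := ⟨g ^ x, hW2 _ hx⟩
    refine ⟨(QuotientGroup.mk g' : W ⧸ Y), fun s t hst => ?_⟩
    obtain ⟨z, rfl⟩ := f.rangeRestrict_surjective s
    have ht : t = f.rangeRestrict (cjS (g ^ x) z) := by
      apply Subtype.ext
      rw [hst]
      change (QuotientGroup.mk g' : W ⧸ Y) * QuotientGroup.mk (jW W hW z) *
        (QuotientGroup.mk g' : W ⧸ Y)⁻¹ = QuotientGroup.mk (jW W hW (cjS (g ^ x) z))
      rw [← QuotientGroup.mk_inv, ← QuotientGroup.mk_mul, ← QuotientGroup.mk_mul]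
      rfl
    rw [ht, hφ, hφ, hpow, hrx]
  · rw [hfr]
    refine hF2 Y hYc hYd P Q hP hQ (by rw [← hfr]; exact hQN) ?_ fun x y hx hy hxQ hyQ => ?_
    · refine le_trans ?_ hDn
      refine Nat.card_le_card_of_injective
        (fun q : Q => (⟨((φ ⟨q, hQN q.2⟩ : L) : G), hQD ⟨q, hQN q.2⟩ q.2⟩ : D)) ?_
      intro q q' h
      have h1 : ((φ ⟨q, hQN q.2⟩ : L) : G) = (φ ⟨q', hQN q'.2⟩ : L) :=
        congrArg (fun z : D => (z : G)) h
      have h2 := φ.injective (Subtype.ext h1)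
      exact Subtype.ext (congrArg (fun z : f.range => (z : W ⧸ Y)) h2)
    · obtain ⟨x', rfl⟩ := mem_range_jW (hW := hW) hx
      obtain ⟨y', rfl⟩ := mem_range_jW (hW := hW) hy
      refine hA x' y' ?_ ?_
      · rw [← hφ]
        exact hQD _ hxQ
      · rw [← hφ]
        exact hQD _ hyQ

end Gl

end Vale.Agent.P180.H568.Out
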