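import Vale.Agent.P180.H568.OutL
import Vale.Agent.P180.H951.OutI
import Vale.Agent.P180.H574.LemDCa

/-!
P180 (v5, rows F3 and F4, helper568): the corner property of a component on which a defect group of
a block `b` acts through a group containing a copy of the component, where only the group `D ∩ L`
is considered; components of type `SL_d(K)`.
-/

set_option linter.all false

namespace Vale.Agent.P180.H568.Out

open Vale.Agent.P180 Vale.Agent.P180.H768.Gd Vale.Agent.P180.R2.H365 Vale.Agent.P180.R2.H799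
  Vale.Agent.P180.R2.H954 Vale.Agent.P180.H568.Tp
open Vale.Agent.P180.H393 (OutBd)
open Vale.Agent.P180.R2.H799.BN (exists_lift)

universe u

section D

variable {k : Type u} [Field k] {p : ℕ} [Fact p.Prime] [CharP k p]

/-- a group `R` as in `CorP` contains `L ∩ D` -/
theorem inf_eq_of_below {G : Type} [Group G] [Finite G] {D L R : Subgroup G}
    (hD : IsPGroup p D) (hRD : R ≤ D) {b e z : MonoidAlgebra k G} (hbF : b ∈ Fix (cj k G) ⊤)
    (hb : br D b ≠ 0) (he : Below b L e) (hzF : z ∈ Fix (cj k G) (L ⊓ R))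
    (hez : e = tr (cj k G) (L ⊓ R) L z) : L ⊓ R = L ⊓ D := by
  have hQ : IsPGroup p (L ⊓ D : Subgroup G) := hD.to_le inf_le_right
  have h1 : br (L ⊓ D) b ≠ 0 := br_ne_zero_mono inf_le_right hb
  have h2 : e ∈ Fix (cj k G) (L ⊓ D) := fun g hg => he.block.mem.2 g (Subgroup.mem_inf.mp hg).1
  have h3 : b ∈ Fix (cj k G) (L ⊓ D) := fun g _ => hbF g (Subgroup.mem_top g)
  have h4 : br (L ⊓ D) e ≠ 0 := by
    intro h
    apply h1
    rw [← he.mul, br_mul hQ h2 h3, h, zero_mul]
  obtain ⟨c, hc, hec⟩ := exists_coeff_of_br h4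
  have h5 := card_le_of_coeff (k := k) (p := p) (N := L) (P := L ⊓ R) (Q := L ⊓ D) inf_le_left
    inf_le_left hQ hzF hez hc hec
  exact Subgroup.eq_of_le_of_card_ge (inf_le_inf_left _ hRD) h5

/-- **The corner property, outer action**, for one group. -/
theorem cor_of_out {G M : Type} [Group G] [Finite G] [Group M] [Finite M] {L R : Subgroup G}
    (hR : IsPGroup p R) {N : Subgroup M} [N.Normal] (φ : N ≃* L)
    (hact : ∀ r ∈ R ⊓ Subgroup.normalizer (L : Set G), ∃ g : M, Alike φ r g) {C : ℕ}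
    (hO : ∀ P Q : Subgroup M, IsPGroup p P → IsPGroup p Q → Q ≤ N →
      (∀ s : N, (s : M) ∈ Q ↔ ((φ s : L) : G) ∈ R) → OutBd k N P Q C)
    (hn : ∀ x ∈ R, ∀ s ∈ L, x * s * x⁻¹ ∈ L) {e : MonoidAlgebra k G} (hblk : IsBlockOf L e)
    (heR : e ∈ Fix (cj k G) R) (hbr : br R e ≠ 0)
    (h1 : ∃ z ∈ SubAlg k L, z ∈ Fix (cj k G) (L ⊓ R) ∧ e = tr (cj k G) (L ⊓ R) L z)
    (hez' : ∃ z ∈ SubAlg k L, z ∈ Fix (cj k G) R ∧ e = tr (cj k G) R (L ⊔ R) z) :
    Cor C L R e := by
  classical
  obtain ⟨z, hz, hzF, hez⟩ := h1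
  obtain ⟨P, hP, hPR, hRP⟩ := exists_p (p := p) φ hR (fun r hr => by
    refine hact r (Subgroup.mem_inf.mpr ⟨hr, ?_⟩)
    rw [Subgroup.mem_normalizer_iff]
    intro s
    constructor
    · exact hn r hr s
    · intro hs
      have := hn r⁻¹ (R.inv_mem hr) _ hs
      simpa [mul_assoc] using this)
  obtain ⟨c, hc, hec⟩ := exists_coeff_of_br hbr
  have hcL : c ∈ L := hblk.mem.1 c hec
  obtain ⟨e0, rfl⟩ := exists_incl L hblk.mem.1
  obtain ⟨z0, rfl⟩ := exists_incl L hz
  -- the transported elements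
  obtain ⟨e1, rfl⟩ := (T (R := k) φ).surjective e0
  obtain ⟨z1, rfl⟩ := (T (R := k) φ).surjective z0
  obtain ⟨c1, hc1⟩ := φ.surjective ⟨c, hcL⟩
  have hc1' : ((φ c1 : L) : G) = c := congrArg Subtype.val hc1
  set Q0 : Subgroup N := (R.subgroupOf L).map φ.symm.toMonoidHom with hQ0
  have hQ0' : Q0.map φ.toMonoidHom = R.subgroupOf L := by
    rw [hQ0, Subgroup.map_map]
    have : φ.toMonoidHom.comp φ.symm.toMonoidHom = MonoidHom.id L := by
      ext x
      exact congrArg Subtype.val (φ.apply_symm_apply x)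
    rw [this, Subgroup.map_id]
  have hmap : (R.subgroupOf L).map L.subtype = L ⊓ R := by
    rw [Subgroup.subgroupOf_map_subtype, inf_comm]
  have hz1 : z1 ∈ Fix (cj k N) Q0 := by
    rw [← hmap, incl_mem_Fix_iff, ← hQ0'] at hzF
    have h1 := T_symm_Fix φ hzF
    rwa [AlgEquiv.symm_apply_apply] at h1
  have he1 : e1 = tr (cj k N) Q0 ⊤ z1 := by
    apply (T (R := k) φ).injective
    apply incl_injective (k := k) L
    rw [T_tr φ hz1, hQ0', hez, incl_tr, hmap]
    rw [← hQ0']
    exact T_Fix φ hz1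
  have hQ0R' : ∀ s : N, s ∈ Q0 ↔ ((φ s : L) : G) ∈ R := by
    intro s
    constructor
    · intro hs
      have h1 : φ s ∈ R.subgroupOf L := by
        rw [← hQ0']
        exact ⟨s, hs, rfl⟩
      exact h1
    · intro hs
      exact ⟨φ s, hs, φ.symm_apply_apply s⟩
  have hQ0R : ∀ s : N, s ∈ Q0 → ((φ s : L) : G) ∈ R := fun s hs => (hQ0R' s).mp hs
  have hQp : IsPGroup p Q0 := (hR.comap_of_injective L.subtype L.subtype_injective).map _
  obtain ⟨i, hiN, hiP, hii, hei, hbi, hdim⟩ := hO P (Q0.map N.subtype) hP (hQp.map _)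
    (by
      rintro _ ⟨s, hs, rfl⟩
      exact s.2)
    (by
      intro s
      rw [← hQ0R' s]
      constructor
      · rintro ⟨s', hs', hss⟩
        have h1 : s' = s := Subtype.ext hss
        exact h1 ▸ hs'
      · intro hs
        exact ⟨s, hs, rfl⟩)
    (incl k N e1) (incl k N z1)
    (by
      rw [isBlockOf_incl_iff, ← ZAlg_top]
      have h1 : IsBlockOf (⊤ : Subgroup L) (T φ e1) := by
        unfold IsBlockOf
        rw [ZAlg_top]
        exact (isBlockOf_incl_iff L _).mp hblk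
      have h2 := T_block φ.symm h1
      have h3 : T φ.symm (T φ e1) = e1 := by
        apply MonoidAlgebra.coeff_injective
        ext s
        rw [T_coeff', T_coeff', MulEquiv.symm_symm, MulEquiv.symm_apply_apply]
      rw [h3] at h2
      exact h2)
    (incl_mem N z1) ((incl_mem_Fix_iff N Q0 z1).mpr hz1)
    (by rw [he1, incl_tr N Q0 hz1])
    (by
      refine br_ne_zero_of_coeff (c := (c1 : M)) ?_ ?_
      · rintro _ ⟨s, hs, rfl⟩
        have h1 := hc _ (hQ0R s hs)
        rw [← hc1'] at h1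
        have h2 : φ (s * c1 * s⁻¹) = φ c1 := by
          apply Subtype.ext
          rw [map_mul, map_mul, map_inv]
          exact h1
        exact congrArg Subtype.val (φ.injective h2)
      · rw [Vale.Agent.P180.R2.H799.incl_coeff]
        rw [← hc1', Vale.Agent.P180.R2.H799.incl_coeff, T_coeff] at hec
        exact hec)
    (by
      intro g hg
      obtain ⟨r, hr, h⟩ := hPR g hg
      exact (h.fix_iff e1).mpr (heR r hr))
    (by
      refine br_ne_zero_of_coeff (c := (c1 : M)) ?_ ?_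
      · intro g hg
        obtain ⟨r, hr, h⟩ := hPR g hg
        rw [h.elt, hc1']
        exact hc r hr
      · rw [Vale.Agent.P180.R2.H799.incl_coeff]
        rw [← hc1', Vale.Agent.P180.R2.H799.incl_coeff, T_coeff] at hec
        exact hec)
  obtain ⟨i1, rfl⟩ := exists_incl N hiN
  refine R2.H365.Src.cor_of_source hR hn hblk heR hez' (i := incl k L (T φ i1)) (incl_mem L _) ?_ ?_ ?_
    ?_ ?_
  · intro r hr
    obtain ⟨g, hg, h⟩ := hRP r hr
    exact (h.fix_iff i1).mp (hiP g hg)
  · rw [← map_mul] at hii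
    rw [← map_mul, ← map_mul, incl_injective (k := k) N hii]
  · rw [← map_mul] at hei
    rw [← map_mul, ← map_mul, incl_injective (k := k) N hei]
  · obtain ⟨d, hd, hid⟩ := exists_coeff_of_br hbi
    have hdN : d ∈ N := hiN d hid
    refine br_ne_zero_of_coeff (c := ((φ ⟨d, hdN⟩ : L) : G)) ?_ ?_
    · intro r hr
      obtain ⟨g, hg, h⟩ := hRP r hr
      exact (h.elt ⟨d, hdN⟩).mp (hd g hg)
    · rw [Vale.Agent.P180.R2.H799.incl_coeff, T_coeff]
      have h1 := Vale.Agent.P180.R2.H799.incl_coeff N i1 ⟨d, hdN⟩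
      rw [← h1]
      exact hid
  · have h1 := finrank_NN_hom (k := k) (φ := N.subtype) N.subtype_injective i1 i1
    rw [Subgroup.range_subtype] at h1
    let j : N →* G := L.subtype.comp φ.toMonoidHom
    have hj : Function.Injective j := L.subtype_injective.comp φ.injective
    have hr : j.range = L := by
      rw [MonoidHom.range_comp, MonoidHom.range_eq_top.mpr φ.surjective, ← MonoidHom.range_eq_map,
        Subgroup.range_subtype]
    have h2 := finrank_NN_hom (k := k) (φ := j) hj i1 i1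
    rw [hr] at h2
    have h3 : MonoidAlgebra.mapDomainAlgHom k k j i1 = incl k L (T φ i1) := by
      have h4 : ∀ a : MonoidAlgebra k N, MonoidAlgebra.mapDomainAlgHom k k j a =
          incl k L (T φ a) := by
        intro a
        induction a using MonoidAlgebra.induction_linear with
        | zero => simp only [map_zero]
        | add a b ha hb => simp only [map_add, ha, hb]
        | single x c =>
          rw [T_single, incl_single]
          simp [j]
      exact h4 i1
    rw [h3] at h2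
    rw [h2, ← h1]
    exact hdim

/-- **The corner property, outer action**, for the group `D ∩ L` only. -/
theorem corP_of_outD {G M : Type} [Group G] [Finite G] [Group M] [Finite M] {D L : Subgroup G}
    (hD : IsPGroup p D) {N : Subgroup M} [N.Normal] (φ : N ≃* L)
    (hact : ∀ r ∈ D ⊓ Subgroup.normalizer (L : Set G), ∃ g : M, Alike φ r g) {C : ℕ}
    (hO : ∀ P Q : Subgroup M, IsPGroup p P → IsPGroup p Q → Q ≤ N →
      (∀ s : N, (s : M) ∈ Q ↔ ((φ s : L) : G) ∈ D) → OutBd k N P Q C) {b : MonoidAlgebra k G}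
    (hbF : b ∈ Fix (cj k G) ⊤) (hb : br D b ≠ 0) : CorP p C b D L := by
  intro R hRD hn e he heR hbr h1 h2
  refine cor_of_out (hD.to_le hRD) φ (fun r hr => hact r ⟨hRD hr.1, hr.2⟩)
    (fun P Q hP hQ hQN hQD => hO P Q hP hQ hQN fun s => ?_) hn he.block heR hbr h1 h2
  obtain ⟨z, -, hzF, hez⟩ := h1
  have h3 := inf_eq_of_below hD hRD hbF hb he hzF hez
  rw [hQD s]
  constructor
  · intro h
    exact hRD h
  · intro h
    have h4 : ((φ s : L) : G) ∈ L ⊓ D := ⟨(φ s).2, h⟩
    rw [← h3] at h4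
    exact h4.2

end D

section Gl

open Subgroup

variable {K V : Type} [Field K] [AddCommGroup V] [Module K V]

variable {W : Subgroup (V ≃ₗ[K] V)} {hW : ∀ g, LinearEquiv.det g = 1 → g ∈ W}

variable {k : Type u} [Field k] {p : ℕ} [Fact p.Prime] [CharP k p] [Finite (V ≃ₗ[K] V)]
  [Module.Finite K V] [Module.Free K V]

/-- **Components on which a defect group acts through the general linear group.** -/
theorem corP_outGlD (hW2 : ∀ g : V ≃ₗ[K] V, (∃ b, g ^ p ^ b = 1) → g ∈ W) {G : Type} [Group G]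
    [Finite G] {D L : Subgroup G} (hD : IsPGroup p D) {n : ℕ} (hDn : Nat.card D ≤ n)
    {π : SpecialLinearGroup K V →* L} (hπ : Function.Surjective π) (hk : π.ker ≤ center _)
    (hact : ∀ r ∈ D ⊓ Subgroup.normalizer (L : Set G), ∃ g : V ≃ₗ[K] V,
      ∀ x, ((π (cjS g x) : L) : G) = r * (π x : L) * r⁻¹)
    (R : W → W → Prop)
    (hA : ∀ x y : SpecialLinearGroup K V, ((π x : L) : G) ∈ D → ((π y : L) : G) ∈ D →
      R (jW W hW x) (jW W hW y)) {C : ℕ}
    (hF2 : ∀ (Y : Subgroup W) [Y.Normal], Y ≤ center W →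
      (∀ y ∈ Y, LinearEquiv.det ((y : W) : V ≃ₗ[K] V) = 1) →
      ∀ P Q : Subgroup (W ⧸ Y), IsPGroup p P → IsPGroup p Q →
      Q ≤ ((jW W hW).range).map (QuotientGroup.mk' Y) → Nat.card Q ≤ n →
      (∀ x y : W, LinearEquiv.det (x : V ≃ₗ[K] V) = 1 → LinearEquiv.det (y : V ≃ₗ[K] V) = 1 →
        (QuotientGroup.mk x : W ⧸ Y) ∈ Q → (QuotientGroup.mk y : W ⧸ Y) ∈ Q → R x y) →
      (∃ x : SpecialLinearGroup K V, (QuotientGroup.mk (jW W hW x) : W ⧸ Y) ∈ Q ∧
        x ∉ center _) →
      OutBd k (((jW W hW).range).map (QuotientGroup.mk' Y)) P Q C)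
    (hr : ∃ x ∈ D, x ∈ L ∧ ¬ ∀ y ∈ L, x * y = y * x) {b : MonoidAlgebra k G}
    (hbF : b ∈ Fix (cj k G) ⊤) (hb : br D b ≠ 0) : CorP p C b D L := by
  classical
  have hp : p.Prime := Fact.out
  set Y : Subgroup W := π.ker.map (jW W hW) with hY
  have hYc : Y ≤ center W := by
    rintro _ ⟨x, hx, rfl⟩
    obtain ⟨c, -, hc⟩ := SpecialLinearGroup.mem_center_iff.mp (hk hx)
    rw [Subgroup.mem_center_iff]
    intro g
    apply Subtype.ext
    apply LinearEquiv.ext
    intro v
    change (g : V ≃ₗ[K] V) (x.1 v) = x.1 ((g : V ≃ₗ[K] V) v)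
    have h1 : ∀ v, x.1 v = c • v := fun v => congrArg (fun f : V →ₗ[K] V => f v) hc
    rw [h1, h1, map_smul]
  haveI : Y.Normal := by
    refine ⟨fun x hx g => ?_⟩
    rw [Subgroup.mem_center_iff.mp (hYc hx) g, mul_inv_cancel_right]
    exact hx
  have hYd : ∀ y ∈ Y, LinearEquiv.det ((y : W) : V ≃ₗ[K] V) = 1 := by
    rintro _ ⟨x, hx, rfl⟩
    exact x.2
  set f : SpecialLinearGroup K V →* W ⧸ Y := (QuotientGroup.mk' Y).comp (jW W hW) with hf
  have hfr : f.range = ((jW W hW).range).map (QuotientGroup.mk' Y) := MonoidHom.range_comp _ _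
  have hfk : f.ker = π.ker := by
    ext x
    rw [MonoidHom.mem_ker]
    change (QuotientGroup.mk (jW W hW x) : W ⧸ Y) = 1 ↔ _
    rw [QuotientGroup.eq_one_iff, hY]
    constructor
    · rintro ⟨y, hy, hxy⟩
      rw [← jW_injective hxy]
      exact hy
    · intro hx
      exact ⟨x, hx, rfl⟩
  obtain ⟨φ, hφ⟩ := exists_equiv f hπ hfk
  haveI : f.range.Normal := by
    rw [hfr]
    exact Subgroup.Normal.map inferInstance _ (QuotientGroup.mk'_surjective Y)
  refine corP_of_outD hD φ (fun r hr => ?_) (C := C) (fun P Q hP hQ hQN hQD => ?_) hbF hb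
  · obtain ⟨g, hg⟩ := hact r hr
    obtain ⟨a, ha⟩ := hD ⟨r, hr.1⟩
    have hra : r ^ p ^ a = 1 := congrArg Subtype.val ha
    obtain ⟨x, hx, y, hxy⟩ := exists_pow hp g a
    have hpow : ∀ j : ℕ, ∀ z, ((π (cjS (g ^ j) z) : L) : G) = r ^ j * (π z : L) * (r ^ j)⁻¹ := by
      intro j
      induction j with
      | zero =>
        intro z
        rw [pow_zero, pow_zero, cjS_one, one_mul, inv_one, mul_one]
      | succ j ih =>
        intro z
        rw [pow_succ', cjS_mul, hg, ih, pow_succ']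
        group
    have hrx : r ^ x = r := by
      rw [hxy, pow_add, pow_one, pow_mul, hra, one_pow, mul_one]
    let g' : W := ⟨g ^ x, hW2 _ hx⟩
    refine ⟨(QuotientGroup.mk g' : W ⧸ Y), fun s t hst => ?_⟩
    obtain ⟨z, rfl⟩ := f.rangeRestrict_surjective s
    have ht : t = f.rangeRestrict (cjS (g ^ x) z) := by
      apply Subtype.ext
      rw [hst]
      change (QuotientGroup.mk g' : W ⧸ Y) * QuotientGroup.mk (jW W hW z) *
        (QuotientGroup.mk g' : W ⧸ Y)⁻¹ = QuotientGroup.mk (jW W hW (cjS (g ^ x) z))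
      rw [← QuotientGroup.mk_inv, ← QuotientGroup.mk_mul, ← QuotientGroup.mk_mul]
      rfl
    rw [ht, hφ, hφ, hpow, hrx]
  · rw [hfr]
    refine hF2 Y hYc hYd P Q hP hQ (by rw [← hfr]; exact hQN) ?_ (fun x y hx hy hxQ hyQ => ?_) ?_
    · refine le_trans ?_ hDn
      refine Nat.card_le_card_of_injective
        (fun q : Q => (⟨((φ ⟨q, hQN q.2⟩ : L) : G), (hQD ⟨q, hQN q.2⟩).mp q.2⟩ : D)) ?_
      intro q q' h
      have h1 : ((φ ⟨q, hQN q.2⟩ : L) : G) = (φ ⟨q', hQN q'.2⟩ : L) :=
        congrArg (fun z : D => (z : G)) h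
      have h2 := φ.injective (Subtype.ext h1)
      exact Subtype.ext (congrArg (fun z : f.range => (z : W ⧸ Y)) h2)
    · obtain ⟨x', rfl⟩ := mem_range_jW (hW := hW) hx
      obtain ⟨y', rfl⟩ := mem_range_jW (hW := hW) hy
      refine hA x' y' ?_ ?_
      · rw [← hφ]
        exact (hQD _).mp hxQ
      · rw [← hφ]
        exact (hQD _).mp hyQ
    · obtain ⟨x, hxD, hxL, hx⟩ := hr
      obtain ⟨s, hs⟩ := hπ ⟨x, hxL⟩
      have hs' : ((π s : L) : G) = x := congrArg Subtype.val hs
      refine ⟨s, ?_, fun hsc => hx fun y hy => ?_⟩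
      · refine (hQD (f.rangeRestrict s)).mpr ?_
        rw [hφ, hs']
        exact hxD
      · obtain ⟨t, ht⟩ := hπ ⟨y, hy⟩
        have ht' : ((π t : L) : G) = y := congrArg Subtype.val ht
        have h1 := Subgroup.mem_center_iff.mp hsc t
        rw [← hs', ← ht', ← Subgroup.coe_mul, ← Subgroup.coe_mul, ← map_mul, ← map_mul, h1]

end Gl

end Vale.Agent.P180.H568.Out
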