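import Vale.Agent.P180.H568.OutS

/-!
P180 (v7, row N3, helper568): components of type `SL_d(K)` on which a defect group acts through
`GL_d(K)`, the case where the `p`-part of `|K| - 1` is large.
-/

set_option linter.all false

namespace Vale.Agent.P180.H568.Out

open Subgroup Vale.Agent.P180 Vale.Agent.P180.H768.Gd Vale.Agent.P180.R2.H365
  Vale.Agent.P180.R2.H799 Vale.Agent.P180.R2.H954 Vale.Agent.P180.H568.Tp
open Vale.Agent.P180.H393 (OutBd)
open Vale.Agent.P180.H951 (PG SG mem_PG mem_SG le_PG scalar_of_center)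

universe u

/-- **Components on which a defect group acts through the general linear group**, without a
condition on the group `D ∩ L`. -/
theorem corP_outT {k : Type u} [Field k] {p : ℕ} [Fact p.Prime] [CharP k p]
    {K E : Type} [Field K] [Finite K] [AddCommGroup E] [Module K E] [Finite E]
    [Finite (E ≃ₗ[K] E)] {G : Type} [Group G] [Finite G] {D L : Subgroup G} (hD : IsPGroup p D)
    {n : ℕ} (hDn : Nat.card D ≤ n) {π : SpecialLinearGroup K E →* L} (hπ : Function.Surjective π)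
    (hk : π.ker ≤ center _)
    (hact : ∀ r ∈ D ⊓ Subgroup.normalizer (L : Set G), ∃ g : E ≃ₗ[K] E,
      ∀ x, ((π (cjS g x) : L) : G) = r * (π x : L) * r⁻¹)
    {C : ℕ}
    (hF2 : ∀ (H : Type) [Group H] [Finite H] (q : PG p K E →* H), Function.Surjective q →
      (∀ x, q x = 1 → ∃ c : K, ∀ v, (x : E ≃ₗ[K] E) v = c • v) →
      (∀ x, q x = 1 → LinearEquiv.det (x : E ≃ₗ[K] E) = 1) →
      ∀ P Q : Subgroup H, IsPGroup p P → IsPGroup p Q → Q ≤ (SG p K E).map q → Nat.card Q ≤ n →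
      (∃ x : PG p K E, LinearEquiv.det (x : E ≃ₗ[K] E) = 1 ∧ q x ∈ Q ∧
        ¬ ∃ c : K, ∀ v, (x : E ≃ₗ[K] E) v = c • v) →
      OutBd k ((SG p K E).map q) P Q C)
    (hr : ∃ x ∈ D, x ∈ L ∧ ¬ ∀ y ∈ L, x * y = y * x) {b : MonoidAlgebra k G}
    (hbF : b ∈ Fix (cj k G) ⊤) (hb : br D b ≠ 0) : CorP p C b D L := by
  classical
  haveI : Module.Finite K E := Module.Finite.of_finite
  refine corP_outGlD (W := PG p K E) (hW := mem_PG_of_det) (fun g hg => mem_PG_of_pow g hg) hD hDn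
    hπ hk hact (fun x y => True)
    (fun x y hx hy => trivial) (fun Y hY hYc hYd P Q hP hQ hQN hQn _ hnc => ?_) hr hbF hb
  have h0 : ∀ x : PG p K E, QuotientGroup.mk' Y x = 1 → x ∈ Y := fun x hx =>
    (QuotientGroup.eq_one_iff x).mp hx
  rw [range_jW_PG] at hQN ⊢
  refine hF2 (PG p K E ⧸ Y) (QuotientGroup.mk' Y) (QuotientGroup.mk'_surjective Y)
    (fun x hx => scalar_of_centerW (hYc (h0 x hx)) (hYd x (h0 x hx)))
    (fun x hx => hYd x (h0 x hx)) P Q hP hQ hQN hQn ?_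
  obtain ⟨x, hxQ, hx⟩ := hnc
  refine ⟨jW (PG p K E) mem_PG_of_det x, x.2, hxQ, ?_⟩
  rintro ⟨c, hc⟩
  exact hx (center_of_scalar hc)

/-- The statement on components of type `SL_d(K)` on which `D` acts through `GL_d(K)`. -/
def OutStmtN (C : ℕ → ℕ → ℕ → ℕ) : Prop :=
  ∀ (p n m : ℕ) [Fact p.Prime] (k : Type u) [Field k] [IsAlgClosed k] [CharP k p] (K : Type)
    [Field K] [Finite K] (d : ℕ) (G : Type) [Group G] [Finite G] (D L : Subgroup G)
    (π : SpecialLinearGroup K (Fin d → K) →* L) (b : MonoidAlgebra k G), 3 ≤ d →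
    ¬ p ∣ Nat.card K → (∀ j, p ^ j ∣ d → p ^ j ∣ Nat.card K - 1 → p ^ j ≤ m) →
    IsPGroup p D → Nat.card D ≤ n → Function.Surjective π → π.ker ≤ Subgroup.center _ →
    (∀ r ∈ D ⊓ Subgroup.normalizer (L : Set G), ∃ g : (Fin d → K) ≃ₗ[K] (Fin d → K),
      ∀ x, ((π (cjS g x) : L) : G) = r * (π x : L) * r⁻¹) →
    ((∀ x ∈ (D.subgroupOf L).comap π, ∀ y ∈ (D.subgroupOf L).comap π,
        (fun t => x * t * x⁻¹ * t⁻¹)^[max 1 (p - 2)] y = 1) ∨
      n * m < p * (ordProj[p] (Nat.card K - 1)) ^ (p - 1)) →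
    (∃ x ∈ D, x ∈ L ∧ ¬ ∀ y ∈ L, x * y = y * x) →
    b ∈ Fix (cj k G) ⊤ → br D b ≠ 0 → CorP p (C p n m) b D L

/-- The statement (N2): outer diagonal actions, `(|K| - 1)_p` large. -/
def GlNStmt (C : ℕ → ℕ → ℕ → ℕ) : Prop :=
  ∀ (p n m : ℕ) [Fact p.Prime] (k : Type u) [Field k] [IsAlgClosed k] [CharP k p] (K V : Type)
    [Field K] [Finite K] [AddCommGroup V] [Module K V] [Finite V] [Finite (V ≃ₗ[K] V)],
    ¬ p ∣ Nat.card K →
    (∀ j, p ^ j ∣ Module.finrank K V → p ^ j ∣ Nat.card K - 1 → p ^ j ≤ m) →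
    n * m < p * (ordProj[p] (Nat.card K - 1)) ^ (p - 1) →
    ∀ (H : Type) [Group H] [Finite H] (q : PG p K V →* H), Function.Surjective q →
      (∀ x, q x = 1 → ∃ c : K, ∀ v, (x : V ≃ₗ[K] V) v = c • v) →
      (∀ x, q x = 1 → LinearEquiv.det (x : V ≃ₗ[K] V) = 1) →
      ∀ P Q : Subgroup H, IsPGroup p P → IsPGroup p Q → Q ≤ (SG p K V).map q → Nat.card Q ≤ n →
      (∃ x : PG p K V, LinearEquiv.det (x : V ≃ₗ[K] V) = 1 ∧ q x ∈ Q ∧
        ¬ ∃ c : K, ∀ v, (x : V ≃ₗ[K] V) v = c • v) →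
      OutBd k ((SG p K V).map q) P Q (C p n m)

/-- **Components of type `SL_d(K)` on which a defect group acts through `GL_d(K)`.** -/
theorem outStmtN_of {C : ℕ → ℕ → ℕ → ℕ} (hN : GlNStmt.{u} C) :
    OutStmtN.{u} fun p n m => max (oC p n m) (C p n m) := by
  intro p n m _ k _ _ _ K _ _ d G _ _ D L π b hd hpK hm hD hDn hπ hk hact hA hr hbF hb
  rcases hA with hA | hnm
  · exact (outStmt p n m k K d G D L π b hd hpK hm hD hDn hπ hk hact hA hr hbF hb).mono
      (le_max_left _ _)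
  · haveI : Finite ((Fin d → K) ≃ₗ[K] (Fin d → K)) :=
      Finite.of_injective (fun g : (Fin d → K) ≃ₗ[K] (Fin d → K) => (g : (Fin d → K) → Fin d → K))
        DFunLike.coe_injective
    refine CorP.mono (corP_outT hD hDn hπ hk hact (C := C p n m)
      (fun H _ _ q hq hqs hqd P Q hP hQ hQN hQn hnc => ?_) hr hbF hb) (le_max_right _ _)
    exact hN p n m k K (Fin d → K) hpK (by rw [Module.finrank_fin_fun]; exact hm) hnm H q hq hqs
      hqd P Q hP hQ hQN hQn hnc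

end Vale.Agent.P180.H568.Out
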