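import Vale.Agent.P180.H768.Brauer
import Vale.Agent.P180.H393.Om

/-!
P180 H568: transport of blocks along isomorphisms of groups.
-/

set_option linter.all false

namespace Vale.Agent.P180.H568.Tp

open Vale.Agent.P180 Vale.Agent.P180.H768.Gd Vale.Agent.P180.H393 Finset

universe u v

section Gen

variable {R : Type*} [CommSemiring R] {G H : Type*} [Group G] [Group H] (φ : G ≃* H)

/-- transport of the group algebra -/
noncomputable def T : MonoidAlgebra R G ≃ₐ[R] MonoidAlgebra R H := MonoidAlgebra.domCongr R R φ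

theorem T_single (g : G) (r : R) : T φ (MonoidAlgebra.single g r) =
    MonoidAlgebra.single (φ g) r := by
  simp [T]

theorem T_coeff (x : MonoidAlgebra R G) (g : G) : (T φ x).coeff (φ g) = x.coeff g := by
  classical
  induction x using MonoidAlgebra.induction_linear with
  | zero => simp
  | add a b ha hb => rw [map_add, MonoidAlgebra.coeff_add, MonoidAlgebra.coeff_add,
      Finsupp.add_apply, Finsupp.add_apply, ha, hb]
  | single x r =>
    rw [T_single, MonoidAlgebra.coeff_single, MonoidAlgebra.coeff_single, Finsupp.single_apply,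
      Finsupp.single_apply]
    simp [φ.injective.eq_iff]

theorem T_coeff' (x : MonoidAlgebra R G) (h : H) : (T φ x).coeff h = x.coeff (φ.symm h) := by
  obtain ⟨g, rfl⟩ := φ.surjective h
  rw [T_coeff, MulEquiv.symm_apply_apply]

end Gen

section Fld

variable {k : Type*} [Field k] {G H : Type*} [Group G] [Group H] (φ : G ≃* H)

theorem T_cj (g : G) (x : MonoidAlgebra k G) : T φ (cj k G g x) = cj k H (φ g) (T φ x) := by
  rw [cj_eq, cj_eq, map_mul, map_mul, T_single, T_single, map_inv]

theorem T_Fix {Q : Subgroup G} {x : MonoidAlgebra k G} (hx : x ∈ Fix (cj k G) Q) :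
    T φ x ∈ Fix (cj k H) (Q.map φ.toMonoidHom) := by
  rintro _ ⟨q, hq, rfl⟩
  change cj k H (φ q) (T φ x) = _
  rw [← T_cj, hx q hq]

theorem T_symm_Fix {Q : Subgroup G} {x : MonoidAlgebra k H}
    (hx : x ∈ Fix (cj k H) (Q.map φ.toMonoidHom)) : (T φ).symm x ∈ Fix (cj k G) Q := by
  intro q hq
  apply (T (R := k) φ).injective
  rw [T_cj, AlgEquiv.apply_symm_apply]
  exact hx (φ q) ⟨q, hq, rfl⟩

theorem T_tr [Finite G] [Finite H] {Q : Subgroup G} {a : MonoidAlgebra k G}
    (ha : a ∈ Fix (cj k G) Q) :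
    T φ (tr (cj k G) Q ⊤ a) = tr (cj k H) (Q.map φ.toMonoidHom) ⊤ (T φ a) := by
  classical
  have _ := Fintype.ofFinite ((⊤ : Subgroup G) ⧸ Q.subgroupOf ⊤)
  have _ := Fintype.ofFinite ((⊤ : Subgroup H) ⧸ (Q.map φ.toMonoidHom).subgroupOf ⊤)
  rw [tr_def, tr_def, map_sum]
  let E0 : (⊤ : Subgroup G) ≃* (⊤ : Subgroup H) :=
    (Subgroup.topEquiv.trans φ).trans Subgroup.topEquiv.symm
  have hE0 : ∀ x : (⊤ : Subgroup G), ((E0 x : (⊤ : Subgroup H)) : H) = φ x := fun x => rfl
  let E : ((⊤ : Subgroup G) ⧸ Q.subgroupOf ⊤) ≃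
      ((⊤ : Subgroup H) ⧸ (Q.map φ.toMonoidHom).subgroupOf ⊤) :=
    Quotient.congr E0.toEquiv (by
      intro a b
      change QuotientGroup.leftRel _ a b ↔ QuotientGroup.leftRel _ (E0 a) (E0 b)
      rw [QuotientGroup.leftRel_apply, QuotientGroup.leftRel_apply, Subgroup.mem_subgroupOf,
        Subgroup.mem_subgroupOf]
      have h1 : (((E0 a)⁻¹ * E0 b : (⊤ : Subgroup H)) : H) = φ (((a⁻¹ * b : (⊤ : Subgroup G))) : G) := by
        rw [← map_inv, ← map_mul, hE0]
      rw [h1]
      constructor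
      · intro h; exact ⟨_, h, rfl⟩
      · rintro ⟨c, hc, hc'⟩
        have : c = ((a⁻¹ * b : (⊤ : Subgroup G)) : G) := φ.injective hc'
        rw [← this]; exact hc)
  rw [← Equiv.sum_comp E]
  refine Finset.sum_congr rfl fun q _ => ?_
  rw [T_cj]
  have h1 : E q = QuotientGroup.mk (E0 q.out) := by
    conv_lhs => rw [← Quotient.out_eq q]
    rfl
  rw [h1, act_out (T_Fix φ ha), hE0]

theorem mem_ZAlg_top [Finite G] {x : MonoidAlgebra k G} :
    x ∈ ZAlg k (⊤ : Subgroup G) ↔ ∀ g, cj k G g x = x := by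
  rw [mem_ZAlg]
  exact ⟨fun h g => h.2 g trivial, fun h => ⟨SubAlg_top x, fun g _ => h g⟩⟩

theorem T_block [Finite G] [Finite H] {e : MonoidAlgebra k G} (he : IsBlockOf (⊤ : Subgroup G) e) :
    IsBlockOf (⊤ : Subgroup H) (T φ e) := by
  refine ⟨?_, ?_, ?_, ?_⟩
  · rw [mem_ZAlg_top]
    intro h
    obtain ⟨g, rfl⟩ := φ.surjective h
    rw [← T_cj, mem_ZAlg_top.1 he.mem g]
  · change T φ e * T φ e = T φ e
    rw [← map_mul, he.idem.eq]
  · intro h
    exact he.ne_zero ((map_eq_zero_iff _ (T (R := k) φ).injective).mp h)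
  · intro c hc hcc hce
    have h1 : (T (R := k) φ).symm c ∈ ZAlg k (⊤ : Subgroup G) := by
      rw [mem_ZAlg_top]
      intro g
      apply (T (R := k) φ).injective
      rw [T_cj, AlgEquiv.apply_symm_apply, mem_ZAlg_top.1 hc]
    have h2 : IsIdempotentElem ((T (R := k) φ).symm c) := by
      change (T (R := k) φ).symm c * (T (R := k) φ).symm c = _
      rw [← map_mul, hcc.eq]
    have h3 : (T (R := k) φ).symm c * e = (T (R := k) φ).symm c := by
      apply (T (R := k) φ).injective
      rw [map_mul, AlgEquiv.apply_symm_apply, hce]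
    rcases he.primitive _ h1 h2 h3 with h | h
    · left
      exact (map_eq_zero_iff _ (T (R := k) φ).symm.injective).mp h
    · right
      rw [← h, AlgEquiv.apply_symm_apply]

theorem T_br {Q : Subgroup G} (x : MonoidAlgebra k G) :
    T φ (br Q x) = br (Q.map φ.toMonoidHom) (T φ x) := by
  classical
  apply MonoidAlgebra.coeff_injective
  ext h
  obtain ⟨g, rfl⟩ := φ.surjective h
  rw [T_coeff, br_coeff, br_coeff, T_coeff]
  refine if_congr ?_ rfl rfl
  rw [mem_cent, mem_cent]
  constructor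
  · rintro h _ ⟨q, hq, rfl⟩
    change φ q * φ g * (φ q)⁻¹ = φ g
    rw [← map_inv, ← map_mul, ← map_mul, h q hq]
  · intro h q hq
    have h1 := h (φ q) ⟨q, hq, rfl⟩
    rw [← map_inv, ← map_mul, ← map_mul] at h1
    exact φ.injective h1

end Fld

section Lift

variable {R S : Type*} [CommRing R] [CommRing S] {G H : Type*} [Group G] [Group H] (φ : G ≃* H)

theorem T_map (f : R →+* S) (x : MonoidAlgebra R G) :
    T φ (MonoidAlgebra.mapRingHom G f x) = MonoidAlgebra.mapRingHom H f (T φ x) := by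
  induction x using MonoidAlgebra.induction_linear with
  | zero => simp
  | add a b ha hb => rw [map_add, map_add, map_add, map_add, ha, hb]
  | single x r => simp [T_single]

theorem T_central {B : MonoidAlgebra R G} (h : ∀ x, x * B = B * x) (y : MonoidAlgebra R H) :
    y * T φ B = T φ B * y := by
  obtain ⟨x, rfl⟩ := (T (R := R) φ).surjective y
  rw [← map_mul, h, map_mul]

theorem T_idem {B : MonoidAlgebra R G} (h : B * B = B) : T φ B * T φ B = T φ B := by
  rw [← map_mul, h]

end Lift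

section Ev

variable {K : Type u} [Field K] {G H : Type} [Group G] [Fintype G] [Group H] [Fintype H]
  (φ : G ≃* H)

theorem ev_T (χ : H → K) (x : MonoidAlgebra K G) : ev χ (T φ x) = ev (fun g => χ (φ g)) x := by
  rw [ev, ev, ← Equiv.sum_comp φ.toEquiv]
  refine Finset.sum_congr rfl fun g _ => ?_
  change (T φ x).coeff (φ g) * χ (φ g) = _
  rw [T_coeff]

end Ev

end Vale.Agent.P180.H568.Tp
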