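import Vale.Agent.P180.H568.OutM
import Vale.Agent.P180.R2.H365.Def10

/-!
P180 (v5, row F4, helper568): components of type `SL_d(K)` on which a defect group acts through
`GL_d(K)`, in terms of the group of the automorphisms which are induced by the defect group.
-/

set_option linter.all false

namespace Vale.Agent.P180.H568.Out

open Subgroup Vale.Agent.P180 Vale.Agent.P180.H768.Gd Vale.Agent.P180.R2.H365
  Vale.Agent.P180.R2.H799 Vale.Agent.P180.R2.H954 Vale.Agent.P180.H568.Tp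
open Vale.Agent.P180.H393 (OutBd)
open Vale.Agent.P180.H951 (PG SG mem_PG mem_SG le_PG scalar_of_center)
open Vale.Agent.P180.H574 (cm cm_map)

universe u

section

variable {p : ℕ} {K E : Type} [Field K] [AddCommGroup E] [Module K E]

theorem mem_PG_of_det (g : E ≃ₗ[K] E) (hg : LinearEquiv.det g = 1) : g ∈ PG p K E := by
  rw [mem_PG, hg, one_pow]

theorem mem_PG_of_pow [Fact p.Prime] [Finite K] (g : E ≃ₗ[K] E) (hg : ∃ b, g ^ p ^ b = 1) :
    g ∈ PG p K E := by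
  refine le_PG (p := p) (P := Subgroup.zpowers g) ?_ (Subgroup.mem_zpowers g)
  obtain ⟨b, hb⟩ := hg
  rintro ⟨_, i, rfl⟩
  refine ⟨b, Subtype.ext ?_⟩
  change (g ^ i) ^ p ^ b = 1
  rw [← zpow_natCast, ← zpow_mul, mul_comm, zpow_mul, zpow_natCast, hb, one_zpow]

theorem range_jW_PG : (jW (PG p K E) mem_PG_of_det).range = SG p K E := by
  ext x
  rw [mem_SG]
  constructor
  · rintro ⟨y, rfl⟩
    exact y.2
  · intro hx
    exact mem_range_jW hx

theorem scalar_of_centerW [Module.Finite K E] {y : PG p K E} (hy : y ∈ center (PG p K E))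
    (hd : LinearEquiv.det (y : E ≃ₗ[K] E) = 1) : ∃ c : K, ∀ v, (y : E ≃ₗ[K] E) v = c • v := by
  obtain ⟨s, rfl⟩ := mem_range_jW (hW := mem_PG_of_det) hd
  have h1 : s ∈ center (SpecialLinearGroup K E) := by
    rw [Subgroup.mem_center_iff]
    intro t
    apply jW_injective (W := PG p K E) (hW := mem_PG_of_det)
    rw [map_mul, map_mul]
    exact Subgroup.mem_center_iff.mp hy _
  exact scalar_of_center h1

theorem center_of_scalar {x : SpecialLinearGroup K E} {c : K} (hc : ∀ v, x.1 v = c • v) :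
    x ∈ center (SpecialLinearGroup K E) := by
  rw [Subgroup.mem_center_iff]
  intro g
  apply Subtype.ext
  apply LinearEquiv.ext
  intro v
  change g.1 (x.1 v) = x.1 (g.1 v)
  rw [hc, hc, map_smul]

end

variable {k : Type u} [Field k] {p : ℕ} [Fact p.Prime] [CharP k p]

/-- **Components on which a defect group acts through the general linear group.** -/
theorem corP_outR {K E : Type} [Field K] [Finite K] [AddCommGroup E] [Module K E] [Finite E]
    [Finite (E ≃ₗ[K] E)] {G : Type} [Group G] [Finite G] {D L : Subgroup G} (hD : IsPGroup p D)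
    {n : ℕ} (hDn : Nat.card D ≤ n) {π : SpecialLinearGroup K E →* L} (hπ : Function.Surjective π)
    (hk : π.ker ≤ center _)
    (hact : ∀ r ∈ D ⊓ Subgroup.normalizer (L : Set G), ∃ g : E ≃ₗ[K] E,
      ∀ x, ((π (cjS g x) : L) : G) = r * (π x : L) * r⁻¹)
    {r : ℕ}
    (hA : ∀ x ∈ (D.subgroupOf L).comap π, ∀ y ∈ (D.subgroupOf L).comap π,
      (fun t => x * t * x⁻¹ * t⁻¹)^[r] y = 1)
    {C : ℕ}
    (hF2 : ∀ (H : Type) [Group H] [Finite H] (q : PG p K E →* H), Function.Surjective q →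
      (∀ x, q x = 1 → ∃ c : K, ∀ v, (x : E ≃ₗ[K] E) v = c • v) →
      (∀ x, q x = 1 → LinearEquiv.det (x : E ≃ₗ[K] E) = 1) →
      ∀ P Q : Subgroup H, IsPGroup p P → IsPGroup p Q → Q ≤ (SG p K E).map q → Nat.card Q ≤ n →
      (∀ x y : PG p K E, LinearEquiv.det (x : E ≃ₗ[K] E) = 1 →
        LinearEquiv.det (y : E ≃ₗ[K] E) = 1 → q x ∈ Q → q y ∈ Q →
        (fun t => x * t * x⁻¹ * t⁻¹)^[r] y = 1) →
      (∃ x : PG p K E, LinearEquiv.det (x : E ≃ₗ[K] E) = 1 ∧ q x ∈ Q ∧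
        ¬ ∃ c : K, ∀ v, (x : E ≃ₗ[K] E) v = c • v) →
      OutBd k ((SG p K E).map q) P Q C)
    (hr : ∃ x ∈ D, x ∈ L ∧ ¬ ∀ y ∈ L, x * y = y * x) {b : MonoidAlgebra k G}
    (hbF : b ∈ Fix (cj k G) ⊤) (hb : br D b ≠ 0) : CorP p C b D L := by
  classical
  haveI : Module.Finite K E := Module.Finite.of_finite
  refine corP_outGlD (W := PG p K E) (hW := mem_PG_of_det) (fun g hg => mem_PG_of_pow g hg) hD hDn
    hπ hk hact (fun x y => (fun t => x * t * x⁻¹ * t⁻¹)^[r] y = 1)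
    (fun x y hx hy => ?_) (fun Y hY hYc hYd P Q hP hQ hQN hQn hab hnc => ?_) hr hbF hb
  · have h1 := hA x hx y hy
    have h2 := cm_map (jW (PG p K E) mem_PG_of_det) x y r
    change (cm (jW (PG p K E) mem_PG_of_det x))^[r] (jW (PG p K E) mem_PG_of_det y) = 1
    rw [← h2]
    change jW (PG p K E) mem_PG_of_det ((fun t => x * t * x⁻¹ * t⁻¹)^[r] y) = 1
    rw [h1, map_one]
  · have h0 : ∀ x : PG p K E, QuotientGroup.mk' Y x = 1 → x ∈ Y := fun x hx =>
      (QuotientGroup.eq_one_iff x).mp hx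
    rw [range_jW_PG] at hQN ⊢
    refine hF2 (PG p K E ⧸ Y) (QuotientGroup.mk' Y) (QuotientGroup.mk'_surjective Y)
      (fun x hx => scalar_of_centerW (hYc (h0 x hx)) (hYd x (h0 x hx)))
      (fun x hx => hYd x (h0 x hx)) P Q hP hQ hQN hQn hab ?_
    obtain ⟨x, hxQ, hx⟩ := hnc
    refine ⟨jW (PG p K E) mem_PG_of_det x, x.2, hxQ, ?_⟩
    rintro ⟨c, hc⟩
    exact hx (center_of_scalar hc)

/-- **Components on which a defect group acts through the general linear group.** -/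
theorem corP_outE {K E : Type} [Field K] [Finite K] [AddCommGroup E] [Module K E] [Finite E]
    [Finite (E ≃ₗ[K] E)] {G : Type} [Group G] [Finite G] {D L : Subgroup G} (hD : IsPGroup p D)
    {n : ℕ} (hDn : Nat.card D ≤ n) {π : SpecialLinearGroup K E →* L} (hπ : Function.Surjective π)
    (hk : π.ker ≤ center _)
    (hact : ∀ α ∈ Gam D L, ∃ g : E ≃ₗ[K] E,
      ∀ s t : SpecialLinearGroup K E, (∀ v, t.1 (g v) = g (s.1 v)) → α (π s) = π t)
    {r : ℕ}
    (hA : ∀ x ∈ (D.subgroupOf L).comap π, ∀ y ∈ (D.subgroupOf L).comap π,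
      (fun t => x * t * x⁻¹ * t⁻¹)^[r] y = 1)
    {C : ℕ}
    (hF2 : ∀ (H : Type) [Group H] [Finite H] (q : PG p K E →* H), Function.Surjective q →
      (∀ x, q x = 1 → ∃ c : K, ∀ v, (x : E ≃ₗ[K] E) v = c • v) →
      (∀ x, q x = 1 → LinearEquiv.det (x : E ≃ₗ[K] E) = 1) →
      ∀ P Q : Subgroup H, IsPGroup p P → IsPGroup p Q → Q ≤ (SG p K E).map q → Nat.card Q ≤ n →
      (∀ x y : PG p K E, LinearEquiv.det (x : E ≃ₗ[K] E) = 1 →
        LinearEquiv.det (y : E ≃ₗ[K] E) = 1 → q x ∈ Q → q y ∈ Q →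
        (fun t => x * t * x⁻¹ * t⁻¹)^[r] y = 1) →
      (∃ x : PG p K E, LinearEquiv.det (x : E ≃ₗ[K] E) = 1 ∧ q x ∈ Q ∧
        ¬ ∃ c : K, ∀ v, (x : E ≃ₗ[K] E) v = c • v) →
      OutBd k ((SG p K E).map q) P Q C)
    (hr : ∃ x ∈ D, x ∈ L ∧ ¬ ∀ y ∈ L, x * y = y * x) {b : MonoidAlgebra k G}
    (hbF : b ∈ Fix (cj k G) ⊤) (hb : br D b ≠ 0) : CorP p C b D L := by
  refine corP_outR hD hDn hπ hk (fun x hx => ?_) hA hF2 hr hbF hb
  obtain ⟨g, hg⟩ := hact (L.normalizerMonoidHom ⟨x, hx.2⟩) ⟨⟨x, hx.2⟩, hx.1, rfl⟩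
  refine ⟨g, fun s => ?_⟩
  have h1 := hg s (cjS g s) (fun v => by
    change g (s.1 (g⁻¹ (g v))) = g (s.1 v)
    rw [show g⁻¹ (g v) = v from g.symm_apply_apply v])
  rw [← h1]
  rfl

end Vale.Agent.P180.H568.Out
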