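import Mathlib

/-!
# Positive self-adjoint Hopf algebras, given by structure constants

`c a b w` is the multiplicity of the basis element `w` in the product `a * b`.
-/

namespace Vale.Agent.P180.H568

open Finset

/-- A positive self-adjoint Hopf algebra, given by its structure constants. `W n` is the finite set
of the basis elements of degree at most `n`. -/
structure PSH (Ω : Type*) [DecidableEq Ω] where
  deg : Ω → ℕ
  one : Ω
  c : Ω → Ω → Ω → ℕ
  W : ℕ → Finset Ω
  mem_W : ∀ n w, w ∈ W n ↔ deg w ≤ n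
  deg_c : ∀ a b w, c a b w ≠ 0 → deg w = deg a + deg b
  eq_one : ∀ a, deg a = 0 → a = one
  one_c : ∀ a w, c one a w = if w = a then 1 else 0
  c_one : ∀ a w, c a one w = if w = a then 1 else 0
  assoc : ∀ a b d w N, deg a + deg b + deg d ≤ N →
    ∑ x ∈ W N, c a b x * c x d w = ∑ y ∈ W N, c b d y * c a y w
  hopf : ∀ a b k l N, deg a + deg b ≤ N →
    ∑ w ∈ W N, c a b w * c k l w =
      ∑ p ∈ W N, ∑ q ∈ W N, ∑ r ∈ W N, ∑ s ∈ W N, c p q a * c r s b * (c p r k * c q s l)

namespace PSH

set_option linter.unusedSectionVars false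

variable {Ω : Type*} [DecidableEq Ω] (P : PSH Ω)

theorem deg_one : P.deg P.one = 0 := by
  have h : P.c P.one P.one P.one ≠ 0 := by rw [P.one_c]; simp
  have := P.deg_c _ _ _ h
  omega

/-! ### Commutativity -/

theorem comm_aux (n : ℕ) : ∀ a b, P.deg a + P.deg b = n → ∀ w, P.c a b w = P.c b a w := by
  induction n using Nat.strong_induction_on with
  | _ n ih =>
    intro a b hab
    rcases Nat.eq_zero_or_pos (P.deg a) with ha | ha
    · obtain rfl := P.eq_one a ha
      intro w; rw [P.one_c, P.c_one]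
    rcases Nat.eq_zero_or_pos (P.deg b) with hb | hb
    · obtain rfl := P.eq_one b hb
      intro w; rw [P.one_c, P.c_one]
    -- lower commutativity
    have low : ∀ p q x, P.deg x < n → P.c p q x = P.c q p x := by
      intro p q x hx
      by_cases h : P.deg p + P.deg q = P.deg x
      · exact ih (P.deg x) hx p q h x
      · have h1 : P.c p q x = 0 := by
          by_contra h1; exact h (P.deg_c _ _ _ h1).symm
        have h2 : P.c q p x = 0 := by
          by_contra h1; have := P.deg_c _ _ _ h1; omega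
        rw [h1, h2]
    have key : ∀ a b, P.deg a < n → P.deg b < n → P.deg a + P.deg b = n → ∀ k l,
        ∑ w ∈ P.W n, P.c a b w * P.c k l w = ∑ w ∈ P.W n, P.c a b w * P.c l k w := by
      intro a b ha hb hab k l
      rw [P.hopf a b k l n hab.le, P.hopf a b l k n hab.le]
      rw [Finset.sum_comm]
      refine Finset.sum_congr rfl fun q _ => Finset.sum_congr rfl fun p _ => ?_
      rw [Finset.sum_comm]
      refine Finset.sum_congr rfl fun s _ => Finset.sum_congr rfl fun r _ => ?_
      rw [low p q a ha, low r s b hb]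
      ring
    have h1 := key a b (by omega) (by omega) hab a b
    have h2 := key b a (by omega) (by omega) (by omega) a b
    have h3 : ∑ w ∈ P.W n, ((P.c a b w : ℤ) - P.c b a w) ^ 2 = 0 := by
      have e : ∀ w, ((P.c a b w : ℤ) - P.c b a w) ^ 2 =
          ((P.c a b w * P.c a b w : ℕ) : ℤ) - ((P.c a b w * P.c b a w : ℕ) : ℤ)
          - (((P.c b a w * P.c a b w : ℕ) : ℤ) - ((P.c b a w * P.c b a w : ℕ) : ℤ)) := by
        intro w; push_cast; ring
      simp only [e, Finset.sum_sub_distrib]
      rw [← Nat.cast_sum, ← Nat.cast_sum, ← Nat.cast_sum, ← Nat.cast_sum, h1, h2]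
      ring
    have h4 := (Finset.sum_eq_zero_iff_of_nonneg (fun w _ => sq_nonneg _)).1 h3
    intro w
    by_cases hw : w ∈ P.W n
    · have := h4 w hw
      have h5 : ((P.c a b w : ℤ) - P.c b a w) = 0 := by
        exact pow_eq_zero_iff (two_ne_zero) |>.1 this
      exact_mod_cast sub_eq_zero.1 h5
    · have h5 : P.c a b w = 0 := by
        by_contra h; exact hw ((P.mem_W _ _).2 (by rw [P.deg_c _ _ _ h, hab]))
      have h6 : P.c b a w = 0 := by
        by_contra h; exact hw ((P.mem_W _ _).2 (by rw [P.deg_c _ _ _ h]; omega))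
      rw [h5, h6]

theorem comm (a b w : Ω) : P.c a b w = P.c b a w := P.comm_aux _ a b rfl w

/-! ### The group `R` and its operators -/

/-- basis element -/
noncomputable abbrev e (w : Ω) : Ω →₀ ℤ := Finsupp.single w 1

noncomputable def cZ (a b : Ω) : Ω →₀ ℤ :=
  Finsupp.onFinset (P.W (P.deg a + P.deg b)) (fun w => (P.c a b w : ℤ)) (by
    intro w h
    rw [P.mem_W, P.deg_c a b w (by exact_mod_cast h)])

noncomputable def cA (a w : Ω) : Ω →₀ ℤ :=
  Finsupp.onFinset (P.W (P.deg w)) (fun b => (P.c a b w : ℤ)) (by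
    intro b h
    rw [P.mem_W, P.deg_c a b w (by exact_mod_cast h)]; omega)

@[simp] theorem cZ_apply (a b w : Ω) : P.cZ a b w = P.c a b w := rfl
@[simp] theorem cA_apply (a b w : Ω) : P.cA a w b = P.c a b w := rfl

noncomputable def mul : (Ω →₀ ℤ) →ₗ[ℤ] (Ω →₀ ℤ) →ₗ[ℤ] (Ω →₀ ℤ) :=
  Finsupp.linearCombination ℤ fun a => Finsupp.linearCombination ℤ fun b => P.cZ a b

noncomputable def adj : (Ω →₀ ℤ) →ₗ[ℤ] (Ω →₀ ℤ) →ₗ[ℤ] (Ω →₀ ℤ) :=
  Finsupp.linearCombination ℤ fun a => Finsupp.linearCombination ℤ fun w => P.cA a w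

noncomputable def ip : (Ω →₀ ℤ) →ₗ[ℤ] (Ω →₀ ℤ) →ₗ[ℤ] ℤ :=
  Finsupp.linearCombination ℤ fun a => Finsupp.lapply a

@[simp] theorem mul_ee (a b : Ω) : P.mul (e a) (e b) = P.cZ a b := by
  simp [mul, e, Finsupp.linearCombination_single]

@[simp] theorem adj_ee (a w : Ω) : P.adj (e a) (e w) = P.cA a w := by
  simp [adj, e, Finsupp.linearCombination_single]

@[simp] theorem ip_e (a : Ω) (g : Ω →₀ ℤ) : ip (e a) g = g a := by
  simp [ip, e, Finsupp.linearCombination_single]

theorem ip_comm (f g : Ω →₀ ℤ) : ip f g = ip g f := by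
  induction f using Finsupp.induction_linear with
  | zero => simp
  | add f1 f2 h1 h2 => simp [h1, h2]
  | single a m =>
    induction g using Finsupp.induction_linear with
    | zero => simp
    | add g1 g2 h1 h2 => simp [h1, h2]
    | single b n =>
      simp only [ip, Finsupp.linearCombination_single, LinearMap.smul_apply,
        Finsupp.lapply_apply, smul_eq_mul]
      by_cases h : a = b
      · subst h; simp [mul_comm]
      · rw [Finsupp.single_eq_of_ne h, Finsupp.single_eq_of_ne (Ne.symm h)]; simp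

@[simp] theorem ip_e' (a : Ω) (g : Ω →₀ ℤ) : ip g (e a) = g a := by
  rw [ip_comm, ip_e]

/-- A linear statement can be checked on the basis. -/
theorem ext_lin {M : Type*} [AddCommGroup M] {F G : (Ω →₀ ℤ) → M}
    (hF : ∀ f g, F (f + g) = F f + F g) (hG : ∀ f g, G (f + g) = G f + G g)
    (h : ∀ a, F (e a) = G (e a)) (f : Ω →₀ ℤ) : F f = G f := by
  have h0 : (⟨⟨F, by simpa using hF 0 0⟩, hF⟩ : (Ω →₀ ℤ) →+ M)
      = ⟨⟨G, by simpa using hG 0 0⟩, hG⟩ := by
    apply Finsupp.addHom_ext'
    intro a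
    apply AddMonoidHom.ext_int
    exact h a
  exact DFunLike.congr_fun h0 f

theorem adj_ip (f g h : Ω →₀ ℤ) : ip (P.adj f g) h = ip g (P.mul f h) := by
  refine ext_lin (F := fun f => ip (P.adj f g) h) (G := fun f => ip g (P.mul f h))
    (by intros; simp) (by intros; simp) (fun a => ?_) f
  refine ext_lin (F := fun g => ip (P.adj (e a) g) h) (G := fun g => ip g (P.mul (e a) h))
    (by intros; simp) (by intros; simp) (fun w => ?_) g
  refine ext_lin (F := fun h => ip (P.adj (e a) (e w)) h)
    (G := fun h => ip (e w) (P.mul (e a) h))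
    (by intros; simp) (by intros; simp) (fun b => ?_) h
  simp

theorem ext_ip {f g : Ω →₀ ℤ} (h : ∀ k, ip f k = ip g k) : f = g := by
  ext w; simpa using h (e w)

/-! ### expansions -/

theorem cZ_eq (a b : Ω) {N : ℕ} (h : P.deg a + P.deg b ≤ N) :
    P.cZ a b = ∑ w ∈ P.W N, (P.c a b w : ℤ) • e w := by
  ext w
  rw [Finsupp.finsetSum_apply]
  simp only [e, Finsupp.smul_single, smul_eq_mul, mul_one, Finsupp.single_apply,
    Finset.sum_ite_eq', cZ_apply]
  split_ifs with hw
  · rfl
  · by_contra h1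
    exact hw ((P.mem_W _ _).2 (by rw [P.deg_c a b w (by exact_mod_cast h1)]; exact h))

theorem cA_eq (a w : Ω) {N : ℕ} (h : P.deg w ≤ N) :
    P.cA a w = ∑ b ∈ P.W N, (P.c a b w : ℤ) • e b := by
  ext b
  rw [Finsupp.finsetSum_apply]
  simp only [e, Finsupp.smul_single, smul_eq_mul, mul_one, Finsupp.single_apply,
    Finset.sum_ite_eq', cA_apply]
  split_ifs with hw
  · rfl
  · by_contra h1
    exact hw ((P.mem_W _ _).2 (by have := P.deg_c a b w (by exact_mod_cast h1); omega))

theorem mul_assoc' (f g h : Ω →₀ ℤ) : P.mul (P.mul f g) h = P.mul f (P.mul g h) := by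
  refine ext_lin (F := fun f => P.mul (P.mul f g) h) (G := fun f => P.mul f (P.mul g h))
    (by intros; simp) (by intros; simp) (fun a => ?_) f
  refine ext_lin (F := fun g => P.mul (P.mul (e a) g) h)
    (G := fun g => P.mul (e a) (P.mul g h))
    (by intros; simp) (by intros; simp) (fun b => ?_) g
  refine ext_lin (F := fun h => P.mul (P.mul (e a) (e b)) h)
    (G := fun h => P.mul (e a) (P.mul (e b) h))
    (by intros; simp) (by intros; simp) (fun d => ?_) h
  simp only [mul_ee]
  rw [P.cZ_eq a b (N := P.deg a + P.deg b + P.deg d) (by omega),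
    P.cZ_eq b d (N := P.deg a + P.deg b + P.deg d) (by omega)]
  simp only [map_sum, map_smul, LinearMap.sum_apply, LinearMap.smul_apply, mul_ee]
  ext w
  rw [Finsupp.finsetSum_apply, Finsupp.finsetSum_apply]
  simp only [Finsupp.smul_apply, cZ_apply, smul_eq_mul]
  have := P.assoc a b d w _ le_rfl
  exact_mod_cast this

theorem mul_comm' (f g : Ω →₀ ℤ) : P.mul f g = P.mul g f := by
  refine ext_lin (F := fun f => P.mul f g) (G := fun f => P.mul g f)
    (by intros; simp) (by intros; simp) (fun a => ?_) f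
  refine ext_lin (F := fun g => P.mul (e a) g) (G := fun g => P.mul g (e a))
    (by intros; simp) (by intros; simp) (fun b => ?_) g
  simp only [mul_ee]
  ext w
  simp [P.comm a b w]

theorem adj_mul (f g h : Ω →₀ ℤ) : P.adj (P.mul f g) h = P.adj g (P.adj f h) := by
  apply ext_ip
  intro k
  rw [adj_ip, adj_ip, adj_ip, mul_assoc']

theorem adj_comm (f g h : Ω →₀ ℤ) : P.adj f (P.adj g h) = P.adj g (P.adj f h) := by
  rw [← adj_mul, ← adj_mul, mul_comm']

theorem mul_one' (h : Ω →₀ ℤ) : P.mul (e P.one) h = h := by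
  refine ext_lin (F := fun h => P.mul (e P.one) h) (G := fun h => h)
    (by intros; simp) (by intros; simp) (fun b => ?_) h
  simp only [mul_ee]
  ext w
  simp only [cZ_apply, P.one_c, e, Finsupp.single_apply]
  by_cases h : w = b
  · simp [h]
  · rw [if_neg h, if_neg (Ne.symm h)]; rfl

theorem adj_one (h : Ω →₀ ℤ) : P.adj (e P.one) h = h := by
  apply ext_ip
  intro k
  rw [adj_ip, mul_one']

/-- The Hopf axiom in operator form. -/
theorem adj_mul_e (u : Ω) (S : Finset Ω) (hS : ∀ p, p ∉ S → P.cA p u = 0) (f h : Ω →₀ ℤ) :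
    P.adj f (P.mul (e u) h) = ∑ p ∈ S, P.mul (P.cA p u) (P.adj (P.adj (e p) f) h) := by
  refine ext_lin (F := fun f => P.adj f (P.mul (e u) h))
    (G := fun f => ∑ p ∈ S, P.mul (P.cA p u) (P.adj (P.adj (e p) f) h))
    (by intros; simp) (by intros; simp [Finset.sum_add_distrib]) (fun a => ?_) f
  refine ext_lin (F := fun h => P.adj (e a) (P.mul (e u) h))
    (G := fun h => ∑ p ∈ S, P.mul (P.cA p u) (P.adj (P.adj (e p) (e a)) h))
    (by intros; simp) (by intros; simp [Finset.sum_add_distrib]) (fun v => ?_) h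
  simp only [mul_ee, adj_ee]
  set N := P.deg u + P.deg v + P.deg a with hN
  -- extend the sum to `W N`
  have hS' : ∑ p ∈ S, P.mul (P.cA p u) (P.adj (P.cA p a) (e v))
      = ∑ p ∈ P.W N, P.mul (P.cA p u) (P.adj (P.cA p a) (e v)) := by
    have h1 : ∑ p ∈ S, P.mul (P.cA p u) (P.adj (P.cA p a) (e v))
        = ∑ p ∈ S ∪ P.W N, P.mul (P.cA p u) (P.adj (P.cA p a) (e v)) := by
      apply Finset.sum_subset Finset.subset_union_left
      intro p _ hp
      rw [hS p hp]; simp
    have h2 : ∑ p ∈ P.W N, P.mul (P.cA p u) (P.adj (P.cA p a) (e v))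
        = ∑ p ∈ S ∪ P.W N, P.mul (P.cA p u) (P.adj (P.cA p a) (e v)) := by
      apply Finset.sum_subset Finset.subset_union_right
      intro p _ hp
      have : P.cA p u = 0 := by
        ext b
        rw [cA_apply, Finsupp.zero_apply]
        by_contra h
        apply hp
        rw [P.mem_W, hN]
        have := P.deg_c p b u (by exact_mod_cast h)
        omega
      rw [this]; simp
    rw [h1, h2]
  rw [hS']
  ext d
  -- left side
  have hL : (P.adj (e a) (P.cZ u v)) d = ∑ w ∈ P.W N, ((P.c u v w * P.c a d w : ℕ) : ℤ) := by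
    rw [P.cZ_eq u v (N := N) (by omega)]
    simp only [map_sum, map_smul, adj_ee]
    rw [Finsupp.finsetSum_apply]
    simp
  rw [hL, Finsupp.finsetSum_apply]
  have hR : ∀ p, (P.mul (P.cA p u) (P.adj (P.cA p a) (e v))) d
      = ∑ r ∈ P.W N, ∑ q ∈ P.W N, ∑ s ∈ P.W N,
        ((P.c p r u * P.c q s v * (P.c p q a * P.c r s d) : ℕ) : ℤ) := by
    intro p
    rw [P.cA_eq p u (N := N) (by omega), P.cA_eq p a (N := N) (by omega)]
    simp only [map_sum, map_smul, LinearMap.sum_apply, LinearMap.smul_apply, adj_ee]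
    rw [Finsupp.finsetSum_apply, Finset.sum_comm]
    refine Finset.sum_congr rfl fun q _ => ?_
    rw [Finsupp.smul_apply, Finsupp.finsetSum_apply, Finset.smul_sum]
    refine Finset.sum_congr rfl fun r _ => ?_
    rw [P.cA_eq q v (N := N) (by omega)]
    simp only [map_sum, map_smul, mul_ee]
    rw [Finsupp.smul_apply, Finsupp.finsetSum_apply, Finset.smul_sum, Finset.smul_sum]
    refine Finset.sum_congr rfl fun s _ => ?_
    simp only [Finsupp.smul_apply, cZ_apply, smul_eq_mul]
    push_cast; ring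
  simp only [hR]
  rw [← Nat.cast_sum, P.hopf u v a d N (by omega)]
  push_cast
  rfl

/-! ### supports and positivity -/

theorem mul_ne {f g : Ω →₀ ℤ} {w : Ω} (h : P.mul f g w ≠ 0) :
    ∃ a b, f a ≠ 0 ∧ g b ≠ 0 ∧ P.c a b w ≠ 0 := by
  by_contra hc
  push Not at hc
  apply h
  have hf : f = ∑ a ∈ f.support, f a • e a := by
    conv_lhs => rw [← Finsupp.sum_single f]
    rw [Finsupp.sum]
    refine Finset.sum_congr rfl fun a _ => ?_
    simp [e]
  have hg : g = ∑ a ∈ g.support, g a • e a := by
    conv_lhs => rw [← Finsupp.sum_single g]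
    rw [Finsupp.sum]
    refine Finset.sum_congr rfl fun a _ => ?_
    simp [e]
  rw [hf, hg]
  simp only [map_sum, map_smul, LinearMap.sum_apply, LinearMap.smul_apply, mul_ee]
  rw [Finsupp.finsetSum_apply]
  refine Finset.sum_eq_zero fun a ha => ?_
  rw [Finsupp.smul_apply, Finsupp.finsetSum_apply, Finset.smul_sum]
  refine Finset.sum_eq_zero fun b hb => ?_
  have := hc b a (by simpa using hb) (by simpa using ha)
  simp [this]

end PSH

end Vale.Agent.P180.H568
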