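import Vale.Agent.P180.H568.A3a

/-!
# Positive self-adjoint Hopf algebras: the sequence `x_n` of a primitive element
-/

namespace Vale.Agent.P180.H568

open Finset

namespace PSH

set_option linter.unusedSectionVars false

variable {Ω : Type*} [DecidableEq Ω] (P : PSH Ω)

/-- `s` is contained in `w`. -/
def Le (s w : Ω) : Prop := ∃ a, P.c a s w ≠ 0

variable {P}

theorem Le.of_right {a s w : Ω} (h : P.c a s w ≠ 0) : P.Le s w := ⟨a, h⟩

theorem Le.of_left {a s w : Ω} (h : P.c a s w ≠ 0) : P.Le a w := ⟨s, by rwa [P.comm]⟩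

variable (P) in
theorem le_refl (w : Ω) : P.Le w w := ⟨P.one, by rw [P.one_c]; simp⟩

variable (P) in
theorem one_le (w : Ω) : P.Le P.one w := ⟨w, by rw [P.c_one]; simp⟩

theorem Le.trans {r s w : Ω} (h1 : P.Le r s) (h2 : P.Le s w) : P.Le r w := by
  obtain ⟨a, ha⟩ := h1
  obtain ⟨b, hb⟩ := h2
  set N := P.deg b + P.deg a + P.deg r with hN
  have h := P.assoc b a r w N le_rfl
  have hs : s ∈ P.W N := by rw [P.mem_W, P.deg_c _ _ _ ha]; omega
  have h3 : 0 < P.c a r s * P.c b s w := Nat.mul_pos (Nat.pos_of_ne_zero ha) (Nat.pos_of_ne_zero hb)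
  have h4 : P.c a r s * P.c b s w ≤ ∑ y ∈ P.W N, P.c a r y * P.c b y w :=
    Finset.single_le_sum (f := fun y => P.c a r y * P.c b y w) (fun _ _ => Nat.zero_le _) hs
  rw [← h] at h4
  have h5 : ∑ x ∈ P.W N, P.c b a x * P.c x r w ≠ 0 := by omega
  obtain ⟨x, _, hx⟩ := Finset.exists_ne_zero_of_sum_ne_zero h5
  exact ⟨x, right_ne_zero_of_mul hx⟩

theorem Le.deg_le {s w : Ω} (h : P.Le s w) : P.deg s ≤ P.deg w := by
  obtain ⟨a, ha⟩ := h
  have := P.deg_c _ _ _ ha
  omega

theorem cA_eq_zero {a w : Ω} (h : ¬ P.Le a w) : P.cA a w = 0 := by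
  ext b
  rw [cA_apply, Finsupp.zero_apply]
  by_contra h1
  exact h (Le.of_left (by exact_mod_cast h1))

theorem not_le_of_cA {a w : Ω} (h : P.cA a w = 0) : ¬ P.Le a w := by
  rintro ⟨b, hb⟩
  have := DFunLike.congr_fun h b
  rw [cA_apply, Finsupp.zero_apply, P.comm] at this
  exact hb (by exact_mod_cast this)

theorem adj_ne {f g : Ω →₀ ℤ} {b : Ω} (h : P.adj f g b ≠ 0) :
    ∃ a w, f a ≠ 0 ∧ g w ≠ 0 ∧ P.c a b w ≠ 0 := by
  by_contra hc
  push Not at hc
  apply h
  have hf : f = ∑ a ∈ f.support, f a • e a := by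
    conv_lhs => rw [← Finsupp.sum_single f]
    rw [Finsupp.sum]
    refine Finset.sum_congr rfl fun a _ => ?_
    simp [e]
  have hg : g = ∑ a ∈ g.support, g a • e a := by
    conv_lhs => rw [← Finsupp.sum_single g]
    rw [Finsupp.sum]
    refine Finset.sum_congr rfl fun a _ => ?_
    simp [e]
  rw [hf, hg]
  simp only [map_sum, map_smul, LinearMap.sum_apply, LinearMap.smul_apply, adj_ee]
  rw [Finsupp.finsetSum_apply]
  refine Finset.sum_eq_zero fun w hw => ?_
  rw [Finsupp.smul_apply, Finsupp.finsetSum_apply, Finset.smul_sum]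
  refine Finset.sum_eq_zero fun a ha => ?_
  have := hc a w (by simpa using ha) (by simpa using hw)
  simp [this]

/-! ### norms -/

theorem ip_def (f g : Ω →₀ ℤ) : ip f g = ∑ a ∈ f.support, f a * g a := by
  simp [ip, Finsupp.linearCombination_apply, Finsupp.sum]

theorem norm_one {f : Ω →₀ ℤ} (h : ip f f = 1) : ∃ w, f = e w ∨ f = -e w := by
  rw [ip_def] at h
  have hne : f.support.Nonempty := by
    by_contra h1
    rw [Finset.not_nonempty_iff_eq_empty] at h1
    rw [h1] at h; simp at h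
  obtain ⟨w, hw⟩ := hne
  have hw0 : f w ≠ 0 := by simpa using hw
  rw [← Finset.add_sum_erase _ _ hw] at h
  have h1 : 0 ≤ ∑ a ∈ f.support.erase w, f a * f a :=
    Finset.sum_nonneg fun a _ => mul_self_nonneg _
  have h2 : 0 < f w * f w := mul_self_pos.2 hw0
  have h3 : ∑ a ∈ f.support.erase w, f a * f a = 0 := by omega
  have h4 : f w * f w = 1 := by omega
  have h5 := (Finset.sum_eq_zero_iff_of_nonneg (fun a _ => mul_self_nonneg _)).1 h3
  have h6 : f = Finsupp.single w (f w) := by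
    ext a
    rw [Finsupp.single_apply]
    split_ifs with hwa
    · rw [hwa]
    · by_contra hfa
      have := h5 a (Finset.mem_erase.2 ⟨Ne.symm hwa, by simpa using hfa⟩)
      exact hfa (mul_self_eq_zero.1 this)
  refine ⟨w, ?_⟩
  rcases mul_self_eq_one_iff.1 h4 with h7 | h7
  · left; rw [h6, h7]
  · right; rw [h6, h7]; simp [e]

theorem norm_two {f : Ω →₀ ℤ} (hf : ∀ w, 0 ≤ f w) (h : ip f f = 2) :
    ∃ u v, u ≠ v ∧ f = e u + e v := by
  have hne : ∃ u, f u ≠ 0 := by
    by_contra h1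
    push Not at h1
    have : f = 0 := by ext a; exact h1 a
    rw [this] at h; simp at h
  obtain ⟨u, hu⟩ := hne
  have hu1 : 1 ≤ f u := by have := hf u; omega
  have hu2 : f u * f u ≤ 2 := by
    rw [← h, ip_def]
    exact Finset.single_le_sum (f := fun a => f a * f a) (fun _ _ => mul_self_nonneg _)
      (by simpa using hu)
  have hu3 : f u = 1 := by nlinarith
  have h1 : ip (f - e u) (f - e u) = 1 := by
    simp only [map_sub, LinearMap.sub_apply, h, ip_e, ip_e', hu3]
    simp
  obtain ⟨v, hv | hv⟩ := norm_one h1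
  · refine ⟨u, v, ?_, by rw [← hv]; abel⟩
    rintro rfl
    have := DFunLike.congr_fun hv u
    simp [hu3] at this
  · exfalso
    have := DFunLike.congr_fun hv v
    have h2 := hf v
    rw [Finsupp.sub_apply, Finsupp.neg_apply] at this
    by_cases huv : u = v
    · subst huv
      simp [hu3] at this
    · rw [Finsupp.single_eq_of_ne (Ne.symm huv), Finsupp.single_eq_same] at this
      omega

/-! ### primitive elements -/

variable (P) in
structure Prim (ρ : Ω) : Prop where
  pos : 0 < P.deg ρ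
  prim : ∀ a b, P.c a b ρ ≠ 0 → a = P.one ∨ b = P.one

namespace Prim

variable {ρ : Ω} (h : P.Prim ρ)
include h

theorem ne_one : ρ ≠ P.one := by
  intro h1
  have := h.pos
  rw [h1, P.deg_one] at this
  omega

theorem cA_self : P.cA ρ ρ = e P.one := by
  ext b
  rw [cA_apply, Finsupp.single_apply]
  split_ifs with hb
  · subst hb; rw [P.c_one]; simp
  · norm_cast
    by_contra h1
    have h2 := P.deg_c _ _ _ h1
    exact hb (P.eq_one b (by omega)).symm

theorem cA_zero {p : Ω} (h1 : p ≠ P.one) (h2 : p ≠ ρ) : P.cA p ρ = 0 := by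
  ext b
  rw [cA_apply, Finsupp.zero_apply]
  norm_cast
  by_contra h3
  rcases h.prim _ _ h3 with h4 | h4
  · exact h1 h4
  · rw [h4, P.c_one] at h3
    exact h2 (by by_contra h5; rw [if_neg (Ne.symm h5)] at h3; exact h3 rfl)

omit h in
theorem _root_.Vale.Agent.P180.H568.PSH.cA_one (w : Ω) : P.cA P.one w = e w := by
  ext b
  rw [cA_apply, Finsupp.single_apply, P.one_c]
  push_cast; rfl

theorem adj_mul (f g : Ω →₀ ℤ) : P.adj f (P.mul (e ρ) g)
    = P.mul (e ρ) (P.adj f g) + P.adj (P.adj (e ρ) f) g := by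
  rw [P.adj_mul_e ρ {P.one, ρ} (by
    intro p hp
    simp only [Finset.mem_insert, Finset.mem_singleton, not_or] at hp
    exact h.cA_zero hp.1 hp.2)]
  rw [Finset.sum_pair h.ne_one.symm, cA_one, h.cA_self, adj_one, mul_one']

/-- `|ρ w|² = |ρ^* w|² + |w|²` -/
theorem norm_mul (f : Ω →₀ ℤ) : ip (P.mul (e ρ) f) (P.mul (e ρ) f)
    = ip (P.adj (e ρ) f) (P.adj (e ρ) f) + ip f f := by
  rw [← adj_ip, h.adj_mul, adj_ee, h.cA_self, adj_one, map_add, LinearMap.add_apply,
    ip_comm (P.mul _ _), ← adj_ip]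

theorem exists_sq : ∃ x y, x ≠ y ∧ P.cZ ρ ρ = e x + e y := by
  apply norm_two
  · intro w; simp
  · have := h.norm_mul (e ρ)
    rw [mul_ee, adj_ee, h.cA_self] at this
    rw [this]; simp

theorem exists_y2 : ∃ y, P.cA ρ y = e ρ ∧ P.deg y = 2 * P.deg ρ := by
  obtain ⟨x, y, hxy, hs⟩ := h.exists_sq
  have h1 : P.adj (e ρ) (P.mul (e ρ) (e ρ)) = P.cA ρ x + P.cA ρ y := by
    rw [mul_ee, hs, map_add, adj_ee, adj_ee]
  rw [h.adj_mul, adj_ee, h.cA_self, adj_one, mul_comm', mul_one'] at h1
  have hy : P.c ρ ρ y = 1 := by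
    have := DFunLike.congr_fun hs y
    rw [cZ_apply, Finsupp.add_apply, Finsupp.single_eq_of_ne hxy.symm, Finsupp.single_eq_same] at this
    exact_mod_cast this
  refine ⟨y, ?_, ?_⟩
  · ext b
    rw [cA_apply, Finsupp.single_apply]
    split_ifs with hb
    · subst hb; rw [hy]; rfl
    · have := DFunLike.congr_fun h1 b
      simp only [Finsupp.add_apply, Finsupp.single_apply, if_neg hb, cA_apply] at this
      omega
  · rw [P.deg_c ρ ρ y (by omega)]; ring

omit h in
/-- `u, v` are consecutive members of the sequence `x_n`. -/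
structure _root_.Vale.Agent.P180.H568.PSH.Good (P : PSH Ω) (ρ y u v : Ω) : Prop where
  adj : P.cA ρ v = e u
  notle : ¬ P.Le y v
  uniq : ∀ s, P.c ρ u s ≠ 0 → ¬ P.Le y s → s = v

theorem step {y : Ω} (hy : P.cA ρ y = e ρ) {u v : Ω} (hg : P.Good ρ y u v) :
    ∃ v', P.Good ρ y v v' := by
  have h1 : ip (P.cZ ρ v) (P.cZ ρ v) = 2 := by
    have := h.norm_mul (e v)
    rw [mul_ee, adj_ee, hg.adj] at this
    rw [this]; simp
  obtain ⟨s, t, hst, hs⟩ := norm_two (fun w => by simp) h1
  -- the action of `y^*`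
  have h2 : P.cA y s + P.cA y t = e u := by
    have h3 : P.adj (e y) (P.mul (e ρ) (e v)) = P.cA y s + P.cA y t := by
      rw [mul_ee, hs, map_add, adj_ee, adj_ee]
    rw [← h3, h.adj_mul, adj_ee, adj_ee, cA_eq_zero hg.notle, hy, map_zero, zero_add, adj_ee,
      hg.adj]
  -- the action of `ρ^*`
  have h3 : P.cA ρ s + P.cA ρ t = P.cZ ρ u + e v := by
    have h4 : P.adj (e ρ) (P.mul (e ρ) (e v)) = P.cA ρ s + P.cA ρ t := by
      rw [mul_ee, hs, map_add, adj_ee, adj_ee]
    rw [← h4, h.adj_mul, adj_ee, adj_ee, hg.adj, h.cA_self, adj_one, mul_ee]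
  have main : ∀ s t, s ≠ t → P.cZ ρ v = e s + e t → P.cA ρ s + P.cA ρ t = P.cZ ρ u + e v →
      P.cA y s = 0 → P.cA y t ≠ 0 → P.Good ρ y v s := by
    intro s t hst hs h3 hys hyt
    have hns := not_le_of_cA hys
    have hcs : P.c ρ v s = 1 := by
      have := DFunLike.congr_fun hs s
      rw [cZ_apply, Finsupp.add_apply, Finsupp.single_eq_same,
        Finsupp.single_eq_of_ne hst] at this
      exact_mod_cast this
    refine ⟨?_, hns, ?_⟩
    · ext b
      rw [cA_apply, Finsupp.single_apply]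
      split_ifs with hb
      · subst hb; rw [hcs]; rfl
      · norm_cast
        by_contra hc
        have h4 : ¬ P.Le y b := fun h5 => hns (h5.trans (Le.of_right hc))
        have h5 := DFunLike.congr_fun h3 b
        simp only [Finsupp.add_apply, Finsupp.single_apply, if_neg hb, cA_apply, cZ_apply] at h5
        have h6 : P.c ρ u b ≠ 0 := by omega
        exact hb (hg.uniq b h6 h4).symm
    · intro s' hs' hy'
      have h4 := DFunLike.congr_fun hs s'
      simp only [Finsupp.add_apply, Finsupp.single_apply, cZ_apply] at h4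
      by_contra h5
      rw [if_neg (Ne.symm h5)] at h4
      by_cases h6 : t = s'
      · subst h6
        exact hyt (cA_eq_zero hy')
      · rw [if_neg h6] at h4
        exact hs' (by omega)
  by_cases hys : P.cA y s = 0
  · refine ⟨s, main s t hst hs h3 hys ?_⟩
    intro hyt
    rw [hys, hyt] at h2
    have := DFunLike.congr_fun h2 u
    simp at this
  · refine ⟨t, main t s hst.symm (by rw [hs, add_comm]) (by rw [add_comm, h3]) ?_ hys⟩
    -- both nonzero is impossible
    by_contra hyt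
    have nz : ∀ x, P.cA y x ≠ 0 → (∀ b, b ≠ u → P.c y b x = 0) → P.c y u x ≠ 0 := by
      intro x hx hb hu
      apply hx
      ext b
      rw [cA_apply, Finsupp.zero_apply]
      by_cases hbu : b = u
      · rw [hbu, hu]; rfl
      · rw [hb b hbu]; rfl
    have h4 : ∀ b, b ≠ u → P.c y b s = 0 ∧ P.c y b t = 0 := by
      intro b hb
      have := DFunLike.congr_fun h2 b
      simp only [Finsupp.add_apply, Finsupp.single_apply, if_neg (Ne.symm hb), cA_apply] at this
      omega
    have h5 := nz s hys (fun b hb => (h4 b hb).1)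
    have h6 := nz t hyt (fun b hb => (h4 b hb).2)
    have := DFunLike.congr_fun h2 u
    simp only [Finsupp.add_apply, Finsupp.single_eq_same, cA_apply] at this
    omega

theorem good_zero {y : Ω} (hy : P.deg y = 2 * P.deg ρ) : P.Good ρ y P.one ρ := by
  have hp := h.pos
  refine ⟨h.cA_self, fun h1 => ?_, fun s hs _ => ?_⟩
  · have := h1.deg_le; omega
  · rw [P.c_one] at hs
    by_contra h1
    rw [if_neg h1] at hs; exact hs rfl

omit h in
/-- The sequence `x_n`. -/
structure _root_.Vale.Agent.P180.H568.PSH.Seq (P : PSH Ω) (ρ y : Ω) (x : ℕ → Ω) : Prop where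
  zero : x 0 = P.one
  one : x 1 = ρ
  good : ∀ n, P.Good ρ y (x n) (x (n + 1))

theorem exists_seq : ∃ y x, P.Seq ρ y x := by
  obtain ⟨y, hy, hd⟩ := h.exists_y2
  let T := {p : Ω × Ω // P.Good ρ y p.1 p.2}
  let nx : T → T := fun p => ⟨(p.1.2, (h.step hy p.2).choose), (h.step hy p.2).choose_spec⟩
  let t0 : T := ⟨(P.one, ρ), h.good_zero hd⟩
  let t : ℕ → T := fun n => nx^[n] t0
  refine ⟨y, fun n => (t n).1.1, rfl, rfl, fun n => ?_⟩
  have : (t (n + 1)).1.1 = (t n).1.2 := by
    simp only [t, Function.iterate_succ_apply']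
    rfl
  rw [this]
  exact (t n).2

end Prim

namespace Seq

variable {ρ y : Ω} {x : ℕ → Ω} (h : P.Prim ρ) (hx : P.Seq ρ y x)
include h hx

theorem c_succ (n : ℕ) : P.c ρ (x n) (x (n + 1)) = 1 := by
  have := DFunLike.congr_fun (hx.good n).adj (x n)
  rw [cA_apply, Finsupp.single_eq_same] at this
  exact_mod_cast this

theorem deg_x (n : ℕ) : P.deg (x n) = n * P.deg ρ := by
  induction n with
  | zero => rw [hx.zero, P.deg_one]; ring
  | succ n ih =>
    rw [P.deg_c ρ (x n) (x (n + 1)) (by rw [hx.c_succ h]; norm_num), ih]; ring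

theorem inj {m n : ℕ} (hmn : x m = x n) : m = n := by
  have := congrArg P.deg hmn
  rw [hx.deg_x h, hx.deg_x h] at this
  exact Nat.eq_of_mul_eq_mul_right h.pos this

/-- everything contained in `x n` is some `x i`. -/
theorem le_x {n : ℕ} : ∀ {a : Ω}, P.Le a (x n) → ∃ i, i ≤ n ∧ a = x i := by
  induction n with
  | zero =>
    intro a ha
    refine ⟨0, le_rfl, ?_⟩
    rw [hx.zero] at ha ⊢
    have := ha.deg_le
    rw [P.deg_one] at this
    exact P.eq_one a (by omega)
  | succ n ih =>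
    intro a ha
    -- `a^* (ρ x_n) ≠ 0`
    have h1 : P.adj (e a) (P.mul (e ρ) (e (x n))) ≠ 0 := by
      intro h0
      obtain ⟨b, hb⟩ := ha
      rw [P.comm] at hb
      have h2 : P.adj (e a) (P.mul (e ρ) (e (x n))) b = 0 := by rw [h0]; rfl
      rw [mul_ee, P.cZ_eq _ _ le_rfl] at h2
      simp only [map_sum, map_smul, adj_ee] at h2
      rw [Finsupp.finsetSum_apply] at h2
      simp only [Finsupp.smul_apply, cA_apply, smul_eq_mul] at h2
      rw [Finset.sum_eq_zero_iff_of_nonneg (fun _ _ => by positivity)] at h2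
      have h3 := h2 (x (n + 1)) (by rw [P.mem_W, P.deg_c _ _ _ (by rw [hx.c_succ h]; norm_num)])
      rw [hx.c_succ h] at h3
      exact hb (by simpa using h3)
    rw [h.adj_mul, adj_ee, adj_ee] at h1
    by_cases h2 : P.Le a (x n)
    · obtain ⟨i, hi, rfl⟩ := ih h2
      exact ⟨i, by omega, rfl⟩
    · rw [cA_eq_zero h2, map_zero, zero_add] at h1
      obtain ⟨b, hb⟩ := Finsupp.ne_iff.1 h1
      rw [Finsupp.zero_apply] at hb
      obtain ⟨s, w, hs, hw, hc⟩ := adj_ne hb
      have hw' : w = x n := by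
        by_contra h3
        exact hw (Finsupp.single_eq_of_ne h3)
      subst hw'
      obtain ⟨i, hi, rfl⟩ := ih (Le.of_left hc)
      rw [cA_apply] at hs
      refine ⟨i + 1, by omega, (hx.good i).uniq a (by exact_mod_cast hs) ?_⟩
      exact fun h4 => (hx.good n).notle (h4.trans ha)

theorem cA_zero {p : Ω} {n : ℕ} (hp : ∀ i, i ≤ n → p ≠ x i) : P.cA p (x n) = 0 := by
  apply cA_eq_zero
  intro h1
  obtain ⟨i, hi, h2⟩ := hx.le_x h h1
  exact hp i hi h2

theorem cA_add (i j : ℕ) : P.cA (x i) (x (i + j)) = e (x j) := by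
  induction j with
  | zero =>
    ext b
    rw [cA_apply, Finsupp.single_apply, hx.zero, add_zero]
    split_ifs with hb
    · subst hb; rw [P.c_one]; simp
    · norm_cast
      by_contra h1
      have h2 := P.deg_c _ _ _ h1
      exact hb (P.eq_one b (by omega)).symm
  | succ j ih =>
    have h1 : P.cA (x i) (x (i + (j + 1))) = (P.c (x i) (x (j + 1)) (x (i + (j + 1))) : ℤ) •
        e (x (j + 1)) := by
      ext b
      rw [cA_apply, Finsupp.smul_apply, Finsupp.single_apply]
      split_ifs with hb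
      · subst hb; simp
      · rw [smul_zero]
        norm_cast
        by_contra h2
        obtain ⟨k, hk, h3⟩ := hx.le_x h (Le.of_right h2)
        apply hb
        have h4 := P.deg_c _ _ _ h2
        rw [h3, hx.deg_x h, hx.deg_x h, hx.deg_x h, ← add_mul] at h4
        have h5 := Nat.eq_of_mul_eq_mul_right h.pos h4
        rw [h3]; congr 1; omega
    have h2 : P.adj (e ρ) (P.adj (e (x i)) (e (x (i + (j + 1))))) = e (x j) := by
      rw [adj_comm, adj_ee, show i + (j + 1) = i + j + 1 by ring, (hx.good (i + j)).adj, adj_ee, ih]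
    rw [adj_ee, h1, map_smul, adj_ee, (hx.good j).adj] at h2
    have h3 := DFunLike.congr_fun h2 (x j)
    rw [Finsupp.smul_apply, Finsupp.single_eq_same] at h3
    rw [h1]
    have h4 : (P.c (x i) (x (j + 1)) (x (i + (j + 1))) : ℤ) = 1 := by simpa using h3
    rw [h4, one_smul]

theorem cA_x (i n : ℕ) : P.cA (x i) (x n) = if i ≤ n then e (x (n - i)) else 0 := by
  split_ifs with hi
  · obtain ⟨j, rfl⟩ := Nat.exists_eq_add_of_le hi
    rw [hx.cA_add h]; congr 2; omega
  · apply hx.cA_zero h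
    intro k hk h1
    have := hx.inj h h1
    omega

theorem adj_mul_x (n : ℕ) (f g : Ω →₀ ℤ) : P.adj f (P.mul (e (x n)) g)
    = ∑ j ∈ range (n + 1), P.mul (e (x (n - j))) (P.adj (P.adj (e (x j)) f) g) := by
  rw [P.adj_mul_e (x n) ((range (n + 1)).image x) (by
    intro p hp
    apply hx.cA_zero h
    intro i hi h1
    exact hp (Finset.mem_image.2 ⟨i, by rw [Finset.mem_range]; omega, h1.symm⟩))]
  rw [Finset.sum_image (fun i _ j _ hij => hx.inj h hij)]
  refine Finset.sum_congr rfl fun j hj => ?_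
  rw [hx.cA_x h, if_pos (by rw [Finset.mem_range] at hj; omega)]

theorem adj_zero (g : Ω →₀ ℤ) : P.adj (e (x 0)) g = g := by rw [hx.zero, adj_one]

theorem mul_zero (g : Ω →₀ ℤ) : P.mul (e (x 0)) g = g := by rw [hx.zero, mul_one']

theorem comm_rel (m n : ℕ) (g : Ω →₀ ℤ) :
    P.adj (e (x (m + 1))) (P.mul (e (x (n + 1))) g)
      = P.mul (e (x (n + 1))) (P.adj (e (x (m + 1))) g)
        + P.adj (e (x m)) (P.mul (e (x n)) g) := by
  rw [hx.adj_mul_x h, hx.adj_mul_x h, Finset.sum_range_succ', add_comm]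
  congr 1
  · rw [hx.adj_zero h]; simp
  · refine Finset.sum_congr rfl fun j _ => ?_
    rw [show n + 1 - (j + 1) = n - j by omega, adj_ee, adj_ee, hx.cA_x h, hx.cA_x h]
    by_cases hj : j ≤ m
    · rw [if_pos hj, if_pos (by omega), show m + 1 - (j + 1) = m - j by omega]
    · rw [if_neg hj, if_neg (by omega)]

end Seq

end PSH

end Vale.Agent.P180.H568
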