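import Vale.Agent.P180.H568.A3b

/-!
# Positive self-adjoint Hopf algebras: the Bernstein operators and the removal of the first row
-/

namespace Vale.Agent.P180.H568

open Finset

namespace PSH

set_option linter.unusedSectionVars false

variable {Ω : Type*} [DecidableEq Ω] {P : PSH Ω}

theorem adj_eq_zero {f : Ω →₀ ℤ} {t : Ω} (hf : ∀ w, f w ≠ 0 → P.deg t < P.deg w) :
    P.adj f (e t) = 0 := by
  ext b
  rw [Finsupp.zero_apply]
  by_contra h
  obtain ⟨a, w, ha, hw, hc⟩ := adj_ne h
  have hw' : w = t := by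
    by_contra h3
    exact hw (Finsupp.single_eq_of_ne h3)
  subst hw'
  have := hf a ha
  have := P.deg_c _ _ _ hc
  omega

variable (P) in
/-- multiplication by `x n`, for an integer `n` -/
noncomputable def XX (x : ℕ → Ω) (n : ℤ) : (Ω →₀ ℤ) →ₗ[ℤ] (Ω →₀ ℤ) :=
  if 0 ≤ n then P.mul (e (x n.toNat)) else 0

variable (P) in
/-- the inverse series of `x` -/
noncomputable def zz (x : ℕ → Ω) : ℕ → (Ω →₀ ℤ)
  | 0 => e P.one
  | n + 1 => -∑ k : Fin (n + 1), P.mul (e (x (n + 1 - k))) (zz x k)
termination_by n => n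
decreasing_by exact k.2

theorem zz_zero (x : ℕ → Ω) : P.zz x 0 = e P.one := by rw [zz]

theorem zz_succ (x : ℕ → Ω) (n : ℕ) : P.zz x (n + 1)
    = -∑ k ∈ range (n + 1), P.mul (e (x (n + 1 - k))) (P.zz x k) := by
  rw [zz, Finset.sum_range]

theorem sum_triangle {M : Type*} [AddCommMonoid M] (F : ℕ → ℕ → M) (N : ℕ)
    (h : ∀ i k, N < i + k → F i k = 0) :
    ∑ i ∈ range (N + 1), ∑ k ∈ range (N + 1), F i k
      = ∑ n ∈ range (N + 1), ∑ i ∈ range (n + 1), F i (n - i) := by
  rw [Finset.sum_range_diag_flip]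
  refine Finset.sum_congr rfl fun i _ => ?_
  symm
  apply Finset.sum_subset
  · intro k hk
    rw [Finset.mem_range] at hk ⊢
    omega
  · intro k hk hk'
    rw [Finset.mem_range] at hk hk'
    exact h i k (by omega)

namespace Seq

variable {ρ y : Ω} {x : ℕ → Ω} (h : P.Prim ρ) (hx : P.Seq ρ y x)
include h hx

theorem le_deg_x (n : ℕ) : n ≤ P.deg (x n) := by
  rw [hx.deg_x h]
  exact Nat.le_mul_of_pos_right _ h.pos

theorem zz_deg (n : ℕ) : ∀ w, P.zz x n w ≠ 0 → n ≤ P.deg w := by
  induction n using Nat.strong_induction_on with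
  | _ n ih =>
    intro w hw
    cases n with
    | zero => exact Nat.zero_le _
    | succ n =>
      rw [zz_succ, Finsupp.neg_apply, Finsupp.finsetSum_apply, neg_ne_zero] at hw
      obtain ⟨k, hk, h1⟩ := Finset.exists_ne_zero_of_sum_ne_zero hw
      rw [Finset.mem_range] at hk
      obtain ⟨a, b, ha, hb, hc⟩ := mul_ne _ h1
      have ha' : a = x (n + 1 - k) := by
        by_contra h3
        exact ha (Finsupp.single_eq_of_ne h3)
      subst ha'
      have h2 := ih k (by omega) b hb
      have h3 := hx.le_deg_x h (n + 1 - k)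
      have h4 := P.deg_c _ _ _ hc
      omega

theorem zz_sum (n : ℕ) (hn : n ≠ 0) :
    ∑ k ∈ range (n + 1), P.mul (e (x (n - k))) (P.zz x k) = 0 := by
  obtain ⟨n, rfl⟩ := Nat.exists_eq_succ_of_ne_zero hn
  rw [Finset.sum_range_succ, Nat.succ_eq_add_one, Nat.sub_self, hx.mul_zero h, zz_succ]
  simp

theorem XX_rel (m : ℕ) (n : ℤ) (g : Ω →₀ ℤ) : P.adj (e (x (m + 1))) (P.XX x n g)
    = P.XX x n (P.adj (e (x (m + 1))) g) + P.adj (e (x m)) (P.XX x (n - 1) g) := by
  unfold XX
  rcases lt_trichotomy n 0 with hn | rfl | hn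
  · rw [if_neg (by omega), if_neg (by omega)]; simp
  · rw [if_pos le_rfl, if_neg (by omega)]
    simp [hx.mul_zero h]
  · obtain ⟨k, rfl⟩ : ∃ k : ℕ, n = k + 1 := ⟨(n - 1).toNat, by omega⟩
    rw [if_pos (by omega), if_pos (by omega)]
    rw [show ((k : ℤ) + 1).toNat = k + 1 by omega, show ((k : ℤ) + 1 - 1).toNat = k by omega]
    exact hx.comm_rel h m k g

theorem XX_sum (m : ℕ) (n : ℤ) (g : Ω →₀ ℤ) : P.adj (e (x m)) (P.XX x n g)
    = ∑ k ∈ range (m + 1), P.XX x (n - m + k) (P.adj (e (x k)) g) := by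
  induction m generalizing n with
  | zero => simp [hx.adj_zero h]
  | succ m ih =>
    rw [hx.XX_rel h, ih, Finset.sum_range_succ _ (m + 1), add_comm]
    congr 1
    · refine Finset.sum_congr rfl fun k _ => ?_
      congr 2
      push_cast; ring
    · congr 2
      push_cast; ring

/-- the Bernstein operator `B_a` applied to a basis element -/
theorem bernstein {a : ℕ} {t : Ω} (ht : ∀ m, a < m → P.adj (e (x m)) (e t) = 0) {m : ℕ}
    (hm : a ≤ m) :
    P.adj (e (x m)) (∑ i ∈ range (P.deg t + 1),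
      P.XX x (a + i) (P.adj (P.zz x i) (e t))) = P.XX x (a - m) (e t) := by
  set N := P.deg t with hN
  set G : ℕ → ℕ → (Ω →₀ ℤ) := fun i k =>
    P.XX x (a - m + (i + k)) (P.adj (e (x k)) (P.adj (P.zz x i) (e t))) with hG
  have hG0 : ∀ i k, N < i + k → G i k = 0 := by
    intro i k hik
    rw [hG]; dsimp only
    rw [← adj_mul, adj_eq_zero, map_zero]
    intro w hw
    obtain ⟨b, c, hb, hc, hbc⟩ := mul_ne _ hw
    have hc' : c = x k := by
      by_contra h3
      exact hc (Finsupp.single_eq_of_ne h3)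
    subst hc'
    have h1 := hx.zz_deg h i b hb
    have h2 := hx.le_deg_x h k
    have h3 := P.deg_c _ _ _ hbc
    omega
  have hGa : ∀ i k, a < k → G i k = 0 := by
    intro i k hk
    rw [hG]; dsimp only
    rw [adj_comm, ht k hk]; simp
  rw [map_sum]
  have h1 : ∀ i : ℕ, P.adj (e (x m)) (P.XX x (a + i) (P.adj (P.zz x i) (e t)))
      = ∑ k ∈ range (N + 1), G i k := by
    intro i
    rw [hx.XX_sum h]
    have h2 : ∑ k ∈ range (m + 1), G i k = ∑ k ∈ range (m + N + 1), G i k := by
      apply Finset.sum_subset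
      · intro k hk; rw [Finset.mem_range] at hk ⊢; omega
      · intro k _ hk'
        rw [Finset.mem_range] at hk'
        exact hGa i k (by omega)
    have h3 : ∑ k ∈ range (N + 1), G i k = ∑ k ∈ range (m + N + 1), G i k := by
      apply Finset.sum_subset
      · intro k hk; rw [Finset.mem_range] at hk ⊢; omega
      · intro k _ hk'
        rw [Finset.mem_range] at hk'
        exact hG0 i k (by omega)
    rw [h3, ← h2]
    refine Finset.sum_congr rfl fun k _ => ?_
    rw [hG]; dsimp only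
    congr 2
    ring
  simp only [h1]
  rw [sum_triangle G N hG0, Finset.sum_range_succ']
  have h2 : ∀ n : ℕ, ∑ i ∈ range (n + 1 + 1), G i (n + 1 - i) = 0 := by
    intro n
    have h3 : ∀ i ∈ range (n + 1 + 1), G i (n + 1 - i) = P.XX x (a - m + (n + 1 : ℕ))
        (P.adj (P.mul (e (x (n + 1 - i))) (P.zz x i)) (e t)) := by
      intro i hi
      rw [Finset.mem_range] at hi
      rw [hG]; dsimp only
      rw [← adj_mul, mul_comm']
      congr 2
      omega
    rw [Finset.sum_congr rfl h3, ← map_sum]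
    have h4 := hx.zz_sum h (n + 1) (by omega)
    have h5 : ∑ i ∈ range (n + 1 + 1), P.adj (P.mul (e (x (n + 1 - i))) (P.zz x i)) (e t)
        = P.adj (∑ i ∈ range (n + 1 + 1), P.mul (e (x (n + 1 - i))) (P.zz x i)) (e t) := by
      simp
    rw [h5, h4]; simp
  rw [Finset.sum_eq_zero (fun n _ => h2 n), zero_add]
  simp only [zero_add, Finset.range_one, Finset.sum_singleton, Nat.sub_self]
  rw [hG]
  simp [hx.adj_zero h, zz_zero, cA_one]

/-- Adding a first row of length `a`. -/
theorem add_row {a : ℕ} {t : Ω} (ht : ∀ m, a < m → ¬ P.Le (x m) t) :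
    ∃ w, P.cA (x a) w = e t ∧ (∀ m, a < m → ¬ P.Le (x m) w) ∧
      ∀ g : Ω →₀ ℤ, (∀ m, a < m → P.adj (e (x m)) g = 0) → g w = P.adj (e (x a)) g t := by
  have ht' : ∀ m, a < m → P.adj (e (x m)) (e t) = 0 := by
    intro m hm
    rw [adj_ee, cA_eq_zero (ht m hm)]
  set β := ∑ i ∈ range (P.deg t + 1), P.XX x (a + i) (P.adj (P.zz x i) (e t)) with hβ
  have h1 : P.adj (e (x a)) β = e t := by
    rw [hβ, hx.bernstein h ht' le_rfl, sub_self]
    simp [XX, hx.mul_zero h]
  have h2 : ∀ m, a < m → P.adj (e (x m)) β = 0 := by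
    intro m hm
    rw [hβ, hx.bernstein h ht' hm.le]
    rw [XX, if_neg (by omega)]; rfl
  have h3 : ∀ g : Ω →₀ ℤ, (∀ m, a < m → P.adj (e (x m)) g = 0) →
      ip β g = P.adj (e (x a)) g t := by
    intro g hg
    rw [hβ, map_sum, LinearMap.sum_apply, Finset.sum_range_succ', Finset.sum_eq_zero, zero_add]
    · rw [ip_comm, XX, if_pos (by positivity), ← adj_ip, zz_zero, adj_one, ip_e']
      simp
    · intro i _
      rw [ip_comm, XX, if_pos (by positivity), ← adj_ip, hg _ (by omega)]
      simp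
  have h4 : ip β β = 1 := by
    rw [h3 β h2, h1]; simp
  obtain ⟨w, hw | hw⟩ := norm_one h4
  · rw [hw] at h1 h2 h3
    refine ⟨w, ?_, ?_, ?_⟩
    · rw [adj_ee] at h1; exact h1
    · intro m hm
      have := h2 m hm
      rw [adj_ee] at this
      exact not_le_of_cA this
    · intro g hg
      have := h3 g hg
      rwa [ip_e] at this
  · exfalso
    rw [hw] at h2 h3
    have h5 : ∀ m, a < m → P.adj (e (x m)) (e w) = 0 := by
      intro m hm
      have := h2 m hm
      rwa [map_neg, neg_eq_zero] at this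
    have h6 := h3 (e w) h5
    rw [map_neg, LinearMap.neg_apply, ip_e, adj_ee, cA_apply, Finsupp.single_eq_same] at h6
    omega

/-- Removing the first row. -/
theorem remove_row {a : ℕ} {w : Ω} (hw : ∀ m, a < m → ¬ P.Le (x m) w) (hl : P.Le (x a) w) :
    ∃ t, P.cA (x a) w = e t ∧
      ∀ g : Ω →₀ ℤ, (∀ m, a < m → P.adj (e (x m)) g = 0) → g w = P.adj (e (x a)) g t := by
  obtain ⟨b, hb⟩ := hl
  have hbw : P.Le b w := Le.of_left hb
  obtain ⟨w', h1, h2, h3⟩ := hx.add_row h (a := a) (t := b)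
    (fun m hm hc => hw m hm (hc.trans hbw))
  have h4 := h3 (e w) (by
    intro m hm
    rw [adj_ee, cA_eq_zero (hw m hm)])
  rw [adj_ee, cA_apply, Finsupp.single_apply] at h4
  have h5 : w = w' := by
    by_contra h6
    rw [if_neg h6, P.comm] at h4
    exact hb (by exact_mod_cast h4.symm)
  subst h5
  exact ⟨b, h1, h3⟩

end Seq

/-! ### rows -/

open Classical in
variable (P) in
/-- length of the first row -/
noncomputable def top (x : ℕ → Ω) (w : Ω) : ℕ := Nat.findGreatest (fun m => P.Le (x m) w) (P.deg w)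

open Classical in
variable (P) in
/-- removal of the first row -/
noncomputable def dn (x : ℕ → Ω) (w : Ω) : Ω :=
  if h : ∃ t, P.cA (x (P.top x w)) w = e t then h.choose else w

variable (P) in
noncomputable def row (x : ℕ → Ω) (i : ℕ) (w : Ω) : ℕ := P.top x ((P.dn x)^[i] w)

theorem row_zero (x : ℕ → Ω) (w : Ω) : P.row x 0 w = P.top x w := rfl

theorem row_succ (x : ℕ → Ω) (i : ℕ) (w : Ω) : P.row x (i + 1) w = P.row x i (P.dn x w) := rfl

namespace Seq

variable {ρ y : Ω} {x : ℕ → Ω} (h : P.Prim ρ) (hx : P.Seq ρ y x)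
include h hx

theorem le_top (w : Ω) : P.Le (x (P.top x w)) w := by
  classical
  exact Nat.findGreatest_spec (P := fun m => P.Le (x m) w) (Nat.zero_le _)
    (by rw [hx.zero]; exact P.one_le w)

theorem not_le_of_top {w : Ω} {m : ℕ} (hm : P.top x w < m) : ¬ P.Le (x m) w := by
  classical
  intro hc
  have h1 := Nat.le_findGreatest (P := fun m => P.Le (x m) w)
    ((hx.le_deg_x h m).trans hc.deg_le) hc
  exact absurd h1 (not_le.2 hm)

theorem top_eq {a : ℕ} {w : Ω} (h1 : P.Le (x a) w) (h2 : ∀ m, a < m → ¬ P.Le (x m) w) :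
    P.top x w = a := by
  apply le_antisymm
  · by_contra h3
    exact h2 _ (not_le.1 h3) (hx.le_top h w)
  · by_contra h3
    exact hx.not_le_of_top h (not_le.1 h3) h1

theorem dn_spec (w : Ω) : P.cA (x (P.top x w)) w = e (P.dn x w) := by
  obtain ⟨t, ht, _⟩ := hx.remove_row h (fun m hm => hx.not_le_of_top h hm) (hx.le_top h w)
  have h1 : ∃ t, P.cA (x (P.top x w)) w = e t := ⟨t, ht⟩
  rw [dn, dif_pos h1]
  exact h1.choose_spec

theorem dn_form (w : Ω) (g : Ω →₀ ℤ) (hg : ∀ m, P.top x w < m → P.adj (e (x m)) g = 0) :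
    g w = P.adj (e (x (P.top x w))) g (P.dn x w) := by
  obtain ⟨t, ht, h2⟩ := hx.remove_row h (fun m hm => hx.not_le_of_top h hm) (hx.le_top h w)
  have h3 := hx.dn_spec h w
  rw [ht] at h3
  have h4 : t = P.dn x w := Finsupp.single_left_injective one_ne_zero h3
  rw [← h4]
  exact h2 g hg

theorem deg_dn (w : Ω) : P.deg w = P.deg (x (P.top x w)) + P.deg (P.dn x w) := by
  have h1 := DFunLike.congr_fun (hx.dn_spec h w) (P.dn x w)
  rw [cA_apply, Finsupp.single_eq_same] at h1
  exact P.deg_c _ _ _ (by rw [show P.c (x (P.top x w)) (P.dn x w) w = 1 by exact_mod_cast h1];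
                          norm_num)

theorem eq_of_dn {s s' : Ω} (h1 : P.top x s = P.top x s') (h2 : P.dn x s = P.dn x s') :
    s = s' := by
  have h3 := hx.dn_form h s (e s') (by
    intro m hm
    rw [adj_ee, cA_eq_zero]
    exact hx.not_le_of_top h (by omega))
  rw [adj_ee, h1, hx.dn_spec h, h2, Finsupp.single_eq_same, Finsupp.single_apply] at h3
  by_contra h4
  rw [if_neg (Ne.symm h4)] at h3
  omega

theorem cA_other {σ : Ω} (hσ : P.Prim σ) (hne : σ ≠ ρ) (m : ℕ) : P.cA σ (x m) = 0 := by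
  apply hx.cA_zero h
  intro i _ h1
  match i, h1 with
  | 0, h1 => rw [hx.zero] at h1; exact hσ.ne_one h1
  | 1, h1 => rw [hx.one] at h1; exact hne h1
  | (k + 2), h1 =>
    have h2 := hσ.prim ρ (x (k + 1)) (by rw [h1, hx.c_succ h]; norm_num)
    rcases h2 with h2 | h2
    · exact h.ne_one h2
    · have h3 := congrArg P.deg h2
      rw [hx.deg_x h, P.deg_one] at h3
      have := h.pos
      have : 0 < (k + 1) * P.deg ρ := by positivity
      omega

/-- The removal of a primitive constituent. -/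
theorem removal {σ s w : Ω} (hσ : P.Prim σ) (hc : P.c σ s w ≠ 0) :
    (P.top x s = P.top x w ∧ P.c σ s w = P.c σ (P.dn x s) (P.dn x w)) ∨
    (σ = ρ ∧ P.top x s + 1 = P.top x w ∧ P.dn x s = P.dn x w ∧ P.c σ s w = 1) := by
  have hsw : P.Le s w := Le.of_right hc
  have hs : ∀ m, P.top x w < m → ¬ P.Le (x m) s :=
    fun m hm hm' => hx.not_le_of_top h hm (hm'.trans hsw)
  by_cases hl : P.Le (x (P.top x w)) s
  · left
    have ht := hx.top_eq h hl hs
    refine ⟨ht, ?_⟩
    have h1 := hx.dn_form h s (P.adj (e σ) (e w)) (by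
      intro m hm
      rw [adj_comm, adj_ee (a := x m), cA_eq_zero (hx.not_le_of_top h (by omega))]
      simp)
    rw [adj_comm, adj_ee (a := x _), ht, hx.dn_spec h, adj_ee, adj_ee, cA_apply, cA_apply] at h1
    exact_mod_cast h1
  · right
    have hk : ∀ m, P.adj (e (x m)) (P.mul (e σ) (e s)) = P.mul (e σ) (P.cA (x m) s)
        + P.adj (P.cA σ (x m)) (e s) := by
      intro m
      rw [hσ.adj_mul, adj_ee, adj_ee]
    have hgs : ∀ m, P.top x w < m → P.adj (e (x m)) (P.mul (e σ) (e s)) = 0 := by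
      intro m hm
      rw [hk, cA_eq_zero (hs m hm), map_zero, zero_add]
      by_cases hne : σ = ρ
      · subst hne
        obtain ⟨m, rfl⟩ : ∃ k, m = k + 1 := ⟨m - 1, by omega⟩
        rw [(hx.good m).adj, adj_ee, cA_eq_zero]
        rcases Nat.lt_or_ge (P.top x w) m with h5 | h5
        · exact hs m h5
        · rw [show m = P.top x w by omega]; exact hl
      · rw [hx.cA_other h hσ hne]; simp
    have h1 := hx.dn_form h w _ hgs
    rw [hk, cA_eq_zero hl, map_zero, zero_add, mul_ee, cZ_apply] at h1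
    by_cases hne : σ = ρ
    · subst hne
      have h0 : P.top x w ≠ 0 := by
        intro h0
        apply hl
        rw [h0, hx.zero]; exact P.one_le s
      obtain ⟨a, ha⟩ : ∃ k, P.top x w = k + 1 := ⟨P.top x w - 1, by omega⟩
      rw [ha, (hx.good a).adj, adj_ee] at h1
      have h2 : P.c (x a) (P.dn x w) s ≠ 0 := by
        rw [cA_apply] at h1
        have : P.c σ s w = P.c (x a) (P.dn x w) s := by exact_mod_cast h1
        rwa [← this]
      have h3 : P.top x s = a := by
        apply hx.top_eq h (Le.of_left h2)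
        intro m hm
        rcases Nat.lt_or_ge (P.top x w) m with h5 | h5
        · exact hs m h5
        · rw [show m = P.top x w by omega]; exact hl
      have h4 := hx.dn_spec h s
      rw [h3] at h4
      rw [h4, Finsupp.single_apply] at h1
      by_cases h5 : P.dn x s = P.dn x w
      · rw [if_pos h5] at h1
        exact ⟨rfl, by omega, h5, by exact_mod_cast h1⟩
      · rw [if_neg h5] at h1
        exact absurd (by exact_mod_cast h1) hc
    · rw [hx.cA_other h hσ hne] at h1
      simp only [map_zero, LinearMap.zero_apply, Finsupp.zero_apply] at h1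
      exact absurd (by exact_mod_cast h1) hc

theorem row_other {σ : Ω} (hσ : P.Prim σ) (hne : σ ≠ ρ) (j : ℕ) : ∀ {s w : Ω},
    P.c σ s w ≠ 0 → P.row x j s = P.row x j w := by
  induction j with
  | zero =>
    intro s w hc
    rcases hx.removal h hσ hc with h1 | h1
    · exact h1.1
    · exact absurd h1.1 hne
  | succ j ih =>
    intro s w hc
    rcases hx.removal h hσ hc with h1 | h1
    · rw [row_succ, row_succ]
      exact ih (by rw [← h1.2]; exact hc)
    · exact absurd h1.1 hne

theorem deg_dn_lt {s w : Ω} (hc : P.c ρ s w ≠ 0) : P.deg (P.dn x w) < P.deg w := by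
  have h1 := hx.deg_dn h w
  have h2 := hx.le_deg_x h (P.top x w)
  have h3 : P.top x w ≠ 0 := by
    intro h0
    have h4 : P.Le (x 1) w := by rw [hx.one]; exact Le.of_left hc
    exact hx.not_le_of_top h (by omega) h4
  omega

theorem row_self (n : ℕ) : ∀ {s w : Ω}, P.deg w = n → P.c ρ s w ≠ 0 →
    P.c ρ s w = 1 ∧ ∃ i, P.row x i s + 1 = P.row x i w ∧ ∀ j, j ≠ i → P.row x j s = P.row x j w := by
  induction n using Nat.strong_induction_on with
  | _ n ih =>
    intro s w hn hc
    rcases hx.removal h h hc with h1 | h1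
    · have h2 := hx.deg_dn_lt h hc
      obtain ⟨h3, i, hi, hj⟩ := ih _ (by omega) rfl (s := P.dn x s) (w := P.dn x w)
        (by rw [← h1.2]; exact hc)
      refine ⟨by rw [h1.2, h3], i + 1, by rw [row_succ, row_succ, hi], ?_⟩
      intro j hji
      cases j with
      | zero => exact h1.1
      | succ j => rw [row_succ, row_succ]; exact hj j (by omega)
    · refine ⟨h1.2.2.2, 0, h1.2.1, ?_⟩
      intro j hj
      obtain ⟨j, rfl⟩ := Nat.exists_eq_succ_of_ne_zero hj
      rw [Nat.succ_eq_add_one, row_succ, row_succ, h1.2.2.1]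

theorem row_inj (n : ℕ) : ∀ {s s' w : Ω}, P.deg w = n → P.c ρ s w ≠ 0 → P.c ρ s' w ≠ 0 →
    (∀ j, P.row x j s = P.row x j s') → s = s' := by
  induction n using Nat.strong_induction_on with
  | _ n ih =>
    intro s s' w hn hc hc' hr
    have h0 : P.top x s = P.top x s' := hr 0
    rcases hx.removal h h hc with h1 | h1 <;> rcases hx.removal h h hc' with h2 | h2
    · have h3 := hx.deg_dn_lt h hc
      apply hx.eq_of_dn h h0
      refine ih _ (by omega) rfl (w := P.dn x w) (by rw [← h1.2]; exact hc)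
        (by rw [← h2.2]; exact hc') ?_
      intro j
      rw [← row_succ, ← row_succ]
      exact hr (j + 1)
    · omega
    · omega
    · apply hx.eq_of_dn h h0
      rw [h1.2.2.1, h2.2.2.1]

end Seq

/-- The rows of an irreducible element with respect to a primitive one. -/
theorem Prim.rows {ρ : Ω} (h : P.Prim ρ) : ∃ r : ℕ → Ω → ℕ,
    (∀ s w, P.c ρ s w ≠ 0 → P.c ρ s w = 1 ∧ ∃ i, r i s + 1 = r i w ∧ ∀ j, j ≠ i → r j s = r j w) ∧
    (∀ s s' w, P.c ρ s w ≠ 0 → P.c ρ s' w ≠ 0 → (∀ j, r j s = r j s') → s = s') ∧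
    (∀ σ, P.Prim σ → σ ≠ ρ → ∀ s w, P.c σ s w ≠ 0 → ∀ j, r j s = r j w) := by
  obtain ⟨y, x, hx⟩ := h.exists_seq
  exact ⟨P.row x, fun s w hc => hx.row_self h _ rfl hc,
    fun s s' w hc hc' hr => hx.row_inj h _ rfl hc hc' hr,
    fun σ hσ hne s w hc j => hx.row_other h hσ hne j hc⟩

end PSH

end Vale.Agent.P180.H568
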