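import Vale.Agent.P180.H568.A3

/-!
# Positive self-adjoint Hopf algebras: the bound in terms of the number of boxes
-/

namespace Vale.Agent.P180.H568

open Finset

namespace PSH

set_option linter.unusedSectionVars false

variable {Ω : Type*} [DecidableEq Ω] {P : PSH Ω}

variable (P) in
/-- `μ` is contained in a product of at most `k` primitive elements. -/
def Box (μ : Ω) (k : ℕ) : Prop := ∃ L : List Ω, (∀ σ ∈ L, P.Prim σ) ∧
  L.length ≤ k ∧ ∀ K π w, P.deg w ≤ K → P.c μ π w ≤ P.cnt K L π w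

theorem box_deg (μ : Ω) : P.Box μ (P.deg μ) := exists_list (P := P) _ μ rfl

theorem Box.mono {μ : Ω} {k l : ℕ} (h : P.Box μ k) (hkl : k ≤ l) : P.Box μ l := by
  obtain ⟨L, h1, h2, h3⟩ := h
  exact ⟨L, h1, h2.trans hkl, h3⟩

theorem c_le_cnt {μ : Ω} {L : List Ω} {K : ℕ} (hμ : P.deg μ ≤ K)
    (h : P.cnt K L P.one μ ≠ 0) : ∀ K' π w, P.deg w ≤ K' → P.c μ π w ≤ P.cnt K' L π w := by
  induction L generalizing μ K with
  | nil =>
    intro K' π w hw
    rw [cnt_nil] at h ⊢
    have hm : μ = P.one := by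
      by_contra h0; rw [if_neg h0] at h; exact h rfl
    rw [hm, P.one_c]
  | cons σ L ih =>
    intro K' π w hw
    obtain ⟨s, hs, hs'⟩ := cnt_ne h
    have hds := P.deg_c _ _ _ hs
    by_cases hdw : P.deg w = P.deg μ + P.deg π
    swap
    · have : P.c μ π w = 0 := by
        by_contra h0; exact hdw (P.deg_c _ _ _ h0)
      rw [this]; exact Nat.zero_le _
    have ih' := ih (μ := s) (K := K) (by omega) hs'
    rw [cnt_cons]
    have h4 := P.assoc σ s π w K' (by omega)
    have h5 : P.c μ π w ≤ ∑ x ∈ P.W K', P.c σ s x * P.c x π w := by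
      have h6 := Finset.single_le_sum (f := fun x => P.c σ s x * P.c x π w)
        (fun _ _ => Nat.zero_le _) ((P.mem_W K' μ).2 (by omega))
      have h7 : 1 * P.c μ π w ≤ P.c σ s μ * P.c μ π w :=
        Nat.mul_le_mul_right _ (Nat.one_le_iff_ne_zero.2 hs)
      omega
    rw [h4] at h5
    refine h5.trans (Finset.sum_le_sum fun x hx => ?_)
    rw [mul_comm]
    exact Nat.mul_le_mul_left _ (ih' K' π x ((P.mem_W _ _).1 hx))

/-- contained in a product of primitive elements -/
theorem Box.of_cnt {μ : Ω} {L : List Ω} (hL : ∀ σ ∈ L, P.Prim σ) {K : ℕ} (hμ : P.deg μ ≤ K)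
    (h : P.cnt K L P.one μ ≠ 0) : P.Box μ L.length :=
  ⟨L, hL, le_rfl, c_le_cnt hμ h⟩

/-- **The list form with boxes.** -/
theorem cnt_le_box (K : ℕ) (M : List (Ω × ℕ)) (hM : ∀ x ∈ M, P.Box x.1 x.2) (π w : Ω)
    (hw : P.deg w ≤ K) :
    P.cnt K (M.map Prod.fst) π w ≤ ((M.map Prod.snd).sum).factorial := by
  have key : ∃ L : List Ω, (∀ σ ∈ L, P.Prim σ) ∧ L.length ≤ (M.map Prod.snd).sum ∧
      ∀ π w, P.deg w ≤ K → P.cnt K (M.map Prod.fst) π w ≤ P.cnt K L π w := by
    induction M with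
    | nil => exact ⟨[], by simp, by simp, fun _ _ _ => le_rfl⟩
    | cons μ M ih =>
      obtain ⟨L, h1, h2, h3⟩ := ih (fun x hx => hM x (List.mem_cons_of_mem _ hx))
      obtain ⟨L', h1', h2', h3'⟩ := hM μ (List.mem_cons_self ..)
      refine ⟨L' ++ L, ?_, ?_, ?_⟩
      · intro σ hσ
        rcases List.mem_append.1 hσ with h | h
        · exact h1' σ h
        · exact h1 σ h
      · simp only [List.length_append, List.map_cons, List.sum_cons]; omega
      · intro π w hw
        rw [cnt_append K L' L π w hw, List.map_cons, cnt_cons]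
        refine Finset.sum_le_sum fun s hs => ?_
        exact Nat.mul_le_mul (h3' K s w hw) (h3 π s ((P.mem_W _ _).1 hs))
  obtain ⟨L, h1, h2, h3⟩ := key
  exact (h3 π w hw).trans ((cnt_le _ L h1 π w).trans (Nat.factorial_le h2))

/-- The list form with a uniform number of boxes. -/
theorem cnt_box {K : ℕ} (n : ℕ) (l : List Ω) (hl : ∀ σ ∈ l, ∃ L : List Ω, (∀ ρ ∈ L, P.Prim ρ) ∧
    L.length ≤ n ∧ P.cnt (P.deg σ) L P.one σ ≠ 0) (π w : Ω) (hw : P.deg w ≤ K) :
    P.cnt K l π w ≤ (n * l.length).factorial := by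
  have h := cnt_le_box K (l.map fun σ => (σ, n)) (by
    intro x hx
    obtain ⟨σ, hσ, rfl⟩ := List.mem_map.1 hx
    obtain ⟨L, h1, h2, h3⟩ := hl σ hσ
    exact (Box.of_cnt h1 le_rfl h3).mono h2) π w hw
  have e1 : (l.map fun σ => (σ, n)).map Prod.fst = l := by
    rw [List.map_map]; simp [Function.comp_def]
  have e2 : ((l.map fun σ => (σ, n)).map Prod.snd).sum = n * l.length := by
    rw [List.map_map]
    simp [Function.comp_def, mul_comm]
  rwa [e1, e2] at h

end PSH

end Vale.Agent.P180.H568
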