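import Vale.Agent.P180.H568.A3d

/-!
# Positive self-adjoint Hopf algebras: primitive functionals see at most `n` boxes (Lemma P)
-/

namespace Vale.Agent.P180.H568

open Finset

namespace PSH

set_option linter.unusedSectionVars false

variable {Ω : Type*} [DecidableEq Ω] {P : PSH Ω}

theorem eq_of_norm {f g : Ω →₀ ℤ} (h : ip (f - g) (f - g) = 0) : f = g := by
  rw [ip_def] at h
  have h1 := (Finset.sum_eq_zero_iff_of_nonneg (fun a _ => mul_self_nonneg _)).1 h
  ext a
  by_contra hne
  have h2 : (f - g) a ≠ 0 := by rw [Finsupp.sub_apply]; exact sub_ne_zero.2 hne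
  exact h2 (mul_self_eq_zero.1 (h1 a (by simpa using h2)))

theorem exists_prim_le (n : ℕ) : ∀ χ, P.deg χ = n → 0 < n → ∃ ρ, P.Prim ρ ∧ P.Le ρ χ := by
  induction n using Nat.strong_induction_on with
  | _ n ih =>
    intro χ hχ hn
    by_cases hp : P.Prim χ
    · exact ⟨χ, hp, P.le_refl χ⟩
    · have h1 : ∃ a b, P.c a b χ ≠ 0 ∧ a ≠ P.one ∧ b ≠ P.one := by
        by_contra h2
        push Not at h2
        apply hp
        refine ⟨by omega, fun a b hab => ?_⟩
        by_contra h3
        push Not at h3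
        exact h3.2 (h2 a b hab h3.1)
      obtain ⟨a, b, hab, ha, hb⟩ := h1
      have hd := P.deg_c _ _ _ hab
      have ha' : 0 < P.deg a := Nat.pos_of_ne_zero fun h0 => ha (P.eq_one _ h0)
      have hb' : 0 < P.deg b := Nat.pos_of_ne_zero fun h0 => hb (P.eq_one _ h0)
      obtain ⟨ρ, h1, h2⟩ := ih (P.deg a) (by omega) a rfl ha'
      exact ⟨ρ, h1, h2.trans (Le.of_left hab)⟩

theorem adj_apply_one (f : Ω →₀ ℤ) (t : Ω) : P.adj f (e t) P.one = f t := by
  refine ext_lin (F := fun f => P.adj f (e t) P.one) (G := fun f => f t)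
    (by intros; simp) (by intros; simp) (fun a => ?_) f
  rw [adj_ee, cA_apply, P.c_one, Finsupp.single_apply]
  push_cast
  by_cases h : t = a
  · subst h; simp
  · rw [if_neg h, if_neg (Ne.symm h)]

namespace Seq

variable {ρ y : Ω} {x : ℕ → Ω} (h : P.Prim ρ) (hx : P.Seq ρ y x)
include h hx

theorem beta_eq {a : ℕ} {t w : Ω} (ht : ∀ m, a < m → ¬ P.Le (x m) t)
    (hw1 : P.cA (x a) w = e t) (hw2 : ∀ m, a < m → ¬ P.Le (x m) w) :
    e w = ∑ i ∈ range (P.deg t + 1), P.XX x (a + i) (P.adj (P.zz x i) (e t)) := by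
  have ht' : ∀ m, a < m → P.adj (e (x m)) (e t) = 0 := by
    intro m hm
    rw [adj_ee, cA_eq_zero (ht m hm)]
  set β := ∑ i ∈ range (P.deg t + 1), P.XX x (a + i) (P.adj (P.zz x i) (e t)) with hβ
  have h1 : P.adj (e (x a)) β = e t := by
    rw [hβ, hx.bernstein h ht' le_rfl, sub_self]
    simp [XX, hx.mul_zero h]
  have h2 : ∀ m, a < m → P.adj (e (x m)) β = 0 := by
    intro m hm
    rw [hβ, hx.bernstein h ht' hm.le]
    rw [XX, if_neg (by omega)]; rfl
  have h3 : ∀ g : Ω →₀ ℤ, (∀ m, a < m → P.adj (e (x m)) g = 0) →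
      ip β g = P.adj (e (x a)) g t := by
    intro g hg
    rw [hβ, map_sum, LinearMap.sum_apply, Finset.sum_range_succ', Finset.sum_eq_zero, zero_add]
    · rw [ip_comm, XX, if_pos (by positivity), ← adj_ip, zz_zero, adj_one, ip_e']
      simp
    · intro i _
      rw [ip_comm, XX, if_pos (by positivity), ← adj_ip, hg _ (by omega)]
      simp
  have h4 : ip β β = 1 := by
    rw [h3 β h2, h1]; simp
  have h5 : ip β (e w) = 1 := by
    rw [h3 (e w) (by
      intro m hm
      rw [adj_ee, cA_eq_zero (hw2 m hm)]), adj_ee, hw1]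
    simp
  apply eq_of_norm
  simp only [map_sub, LinearMap.sub_apply]
  rw [h4, h5, ip_comm (e w) β, h5, ip_e]
  simp

theorem zz_hom (n : ℕ) : ∀ w, P.zz x n w ≠ 0 → P.deg w = n * P.deg ρ := by
  induction n using Nat.strong_induction_on with
  | _ n ih =>
    intro w hw
    cases n with
    | zero =>
      rw [zz_zero] at hw
      have : w = P.one := by
        by_contra h3
        exact hw (Finsupp.single_eq_of_ne h3)
      rw [this, P.deg_one]; ring
    | succ n =>
      rw [zz_succ, Finsupp.neg_apply, Finsupp.finsetSum_apply, neg_ne_zero] at hw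
      obtain ⟨k, hk, h1⟩ := Finset.exists_ne_zero_of_sum_ne_zero hw
      rw [Finset.mem_range] at hk
      obtain ⟨a, b, ha, hb, hc⟩ := mul_ne _ h1
      have ha' : a = x (n + 1 - k) := by
        by_contra h3
        exact ha (Finsupp.single_eq_of_ne h3)
      subst ha'
      rw [P.deg_c _ _ _ hc, hx.deg_x h, ih k (by omega) b hb, ← add_mul]
      congr 1; omega

theorem adj_x_one (m : ℕ) : P.adj (e (x (m + 1))) (e P.one) = 0 := by
  rw [adj_ee, cA_eq_zero]
  intro hc
  have h1 := hc.deg_le
  have h2 := hx.le_deg_x h (m + 1)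
  rw [P.deg_one] at h1
  omega

theorem zz_adj (n : ℕ) : ∀ m, P.adj (e (x (m + 1))) (P.zz x n)
    = if m = 0 ∧ n ≠ 0 then -P.zz x (n - 1) else 0 := by
  induction n using Nat.strong_induction_on with
  | _ n ih =>
    intro m
    cases n with
    | zero => rw [zz_zero, hx.adj_x_one h]; simp
    | succ n =>
      have e1 : P.adj (e (x (m + 1))) (P.zz x (n + 1)) =
          -(∑ k ∈ range (n + 1), P.mul (e (x (n - k + 1))) (P.adj (e (x (m + 1))) (P.zz x k))
            + P.adj (e (x m)) (∑ k ∈ range (n + 1), P.mul (e (x (n - k))) (P.zz x k))) := by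
        rw [zz_succ, map_neg, map_sum, map_sum, ← Finset.sum_add_distrib]
        congr 1
        refine Finset.sum_congr rfl fun k hk => ?_
        rw [Finset.mem_range] at hk
        rw [show n + 1 - k = n - k + 1 by omega, hx.comm_rel h]
      rw [e1]
      rcases Nat.eq_zero_or_pos m with rfl | hm
      · rw [if_pos ⟨rfl, by omega⟩, Nat.add_sub_cancel]
        rw [hx.adj_zero h]
        congr 1
        rw [Finset.sum_range_succ']
        have e2 : ∀ k ∈ range n, P.mul (e (x (n - (k + 1) + 1)))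
            (P.adj (e (x (0 + 1))) (P.zz x (k + 1))) = -P.mul (e (x (n - k))) (P.zz x k) := by
          intro k hk
          rw [Finset.mem_range] at hk
          rw [ih (k + 1) (by omega), if_pos ⟨rfl, by omega⟩, Nat.add_sub_cancel, map_neg,
            show n - (k + 1) + 1 = n - k by omega]
        rw [Finset.sum_congr rfl e2, ih 0 (by omega), if_neg (by simp), map_zero, add_zero,
          Finset.sum_neg_distrib, Finset.sum_range_succ, Nat.sub_self, hx.mul_zero h]
        abel
      · rw [if_neg (by omega)]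
        have e2 : ∀ k ∈ range (n + 1), P.mul (e (x (n - k + 1)))
            (P.adj (e (x (m + 1))) (P.zz x k)) = 0 := by
          intro k hk
          rw [Finset.mem_range] at hk
          rw [ih k (by omega), if_neg (by omega), map_zero]
        rw [Finset.sum_eq_zero e2, zero_add]
        obtain ⟨m', rfl⟩ : ∃ m', m = m' + 1 := ⟨m - 1, by omega⟩
        by_cases hn : n = 0
        · subst hn
          rw [Finset.sum_range_one, Nat.sub_self, hx.mul_zero h, zz_zero, hx.adj_x_one h, neg_zero]
        · rw [hx.zz_sum h n hn, map_zero, neg_zero]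

theorem zz_norm (n : ℕ) : ip (P.zz x n) (P.zz x n) = 1 := by
  induction n with
  | zero => rw [zz_zero]; simp
  | succ n ih =>
    have e1 : ip (P.zz x (n + 1)) (P.zz x (n + 1)) = -∑ k ∈ range (n + 1),
        ip (P.adj (e (x (n - k + 1))) (P.zz x (n + 1))) (P.zz x k) := by
      have e0 : ip (P.zz x (n + 1)) (P.zz x (n + 1)) = ip (-∑ k ∈ range (n + 1),
          P.mul (e (x (n + 1 - k))) (P.zz x k)) (P.zz x (n + 1)) := by rw [← zz_succ]
      rw [e0, map_neg, LinearMap.neg_apply, map_sum, LinearMap.sum_apply]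
      congr 1
      refine Finset.sum_congr rfl fun k hk => ?_
      rw [Finset.mem_range] at hk
      rw [adj_ip, ip_comm, show n + 1 - k = n - k + 1 by omega]
    rw [e1, Finset.sum_range_succ, Finset.sum_eq_zero, zero_add, Nat.sub_self, hx.zz_adj h,
      if_pos ⟨rfl, by omega⟩, Nat.add_sub_cancel, map_neg, LinearMap.neg_apply, ih]
    · ring
    · intro k hk
      rw [Finset.mem_range] at hk
      rw [hx.zz_adj h, if_neg (by omega)]; simp

theorem exists_y : ∃ yy : ℕ → Ω, ∀ n, P.zz x n = e (yy n) ∨ P.zz x n = -e (yy n) := by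
  choose yy hyy using fun n => norm_one (hx.zz_norm h n)
  exact ⟨yy, hyy⟩

theorem theta_row {N : ℕ} (θ : Ω → ℤ)
    (hθ : ∀ a b, 0 < P.deg a → 0 < P.deg b → P.deg a + P.deg b = N →
      ∑ w ∈ P.W N, (P.c a b w : ℤ) * θ w = 0) {a : ℕ} (ha : 0 < a) {t w : Ω}
    (ht : ∀ m, a < m → ¬ P.Le (x m) t)
    (hw1 : P.cA (x a) w = e t) (hw2 : ∀ m, a < m → ¬ P.Le (x m) w) (hw : P.deg w = N) :
    θ w = ∑ i ∈ range (P.deg t + 1),
      if i * P.deg ρ = P.deg t then P.zz x i t * θ (x (a + i)) else 0 := by
  let Θ : (Ω →₀ ℤ) →ₗ[ℤ] ℤ := Finsupp.linearCombination ℤ θ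
  have hΘ : ∀ v, Θ (e v) = θ v := fun v => by simp [Θ, Finsupp.linearCombination_single]
  have hN : N = a * P.deg ρ + P.deg t := by
    have h1 := DFunLike.congr_fun hw1 t
    rw [cA_apply, Finsupp.single_eq_same] at h1
    have h2 : P.c (x a) t w ≠ 0 := by
      have : P.c (x a) t w = 1 := by exact_mod_cast h1
      omega
    rw [← hw, P.deg_c _ _ _ h2, hx.deg_x h]
  have key : ∀ v b, 0 < P.deg v → 0 < P.deg b → P.deg v + P.deg b = N → Θ (P.cZ v b) = 0 := by
    intro v b hv hb hvb
    rw [P.cZ_eq v b (N := N) hvb.le, map_sum, ← hθ v b hv hb hvb]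
    refine Finset.sum_congr rfl fun w _ => ?_
    rw [map_smul, hΘ, smul_eq_mul]
  rw [← hΘ w, hx.beta_eq h ht hw1 hw2, map_sum]
  refine Finset.sum_congr rfl fun i _ => ?_
  rw [XX, if_pos (by positivity), show ((a : ℤ) + i).toNat = a + i by omega]
  -- the support of `zz_i^* t`
  have hsup : ∀ b, P.adj (P.zz x i) (e t) b ≠ 0 → i * P.deg ρ + P.deg b = P.deg t := by
    intro b hb
    obtain ⟨c, w', hc, hw', hcb⟩ := adj_ne hb
    have hw'' : w' = t := by
      by_contra h3
      exact hw' (Finsupp.single_eq_of_ne h3)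
    subst hw''
    rw [P.deg_c _ _ _ hcb, hx.zz_hom h i c hc]
  have hexp : P.adj (P.zz x i) (e t) = ∑ b ∈ (P.adj (P.zz x i) (e t)).support,
      (P.adj (P.zz x i) (e t) b) • e b := by
    conv_lhs => rw [← Finsupp.sum_single (P.adj (P.zz x i) (e t))]
    rw [Finsupp.sum]
    refine Finset.sum_congr rfl fun a _ => ?_
    simp [e]
  split_ifs with hi
  · have h1 : P.adj (P.zz x i) (e t) = P.zz x i t • e P.one := by
      ext b
      rw [Finsupp.smul_apply, Finsupp.single_apply, smul_eq_mul]
      split_ifs with hb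
      · rw [← hb, adj_apply_one, mul_one]
      · rw [MulZeroClass.mul_zero]
        by_contra hne
        have := hsup b hne
        exact hb (P.eq_one b (by omega)).symm
    rw [h1, map_smul, map_smul, mul_comm', mul_one', hΘ, smul_eq_mul]
  · rw [hexp, map_sum, map_sum]
    refine Finset.sum_eq_zero fun b hb => ?_
    have hb' := hsup b (by simpa using hb)
    rw [map_smul, map_smul, mul_ee, key _ _ _ _ _, smul_zero]
    · rw [hx.deg_x h]
      have := h.pos
      positivity
    · have : P.deg b ≠ 0 := fun h0 => hi (by omega)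
      omega
    · rw [hx.deg_x h, hN, ← hb']; ring

end Seq

/-- **Lemma P.** A primitive functional is small on the elements with many boxes. -/
theorem exists_box {N : ℕ} (hN : 0 < N) (θ : Ω → ℤ)
    (hθ : ∀ a b, 0 < P.deg a → 0 < P.deg b → P.deg a + P.deg b = N →
      ∑ w ∈ P.W N, (P.c a b w : ℤ) * θ w = 0)
    {χ : Ω} (hχ : P.deg χ = N) (h0 : θ χ ≠ 0) :
    ∃ (ρ : Ω) (n : ℕ), P.Prim ρ ∧ n * P.deg ρ = N ∧
      P.cnt N (List.replicate n ρ) P.one χ ≠ 0 ∧
      (n : ℤ) * θ χ ^ 2 ≤ ∑ w ∈ (P.W N).filter (fun w => P.deg w = N), θ w ^ 2 := by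
  obtain ⟨ρ, h, hρχ⟩ := exists_prim_le (P := P) N χ hχ hN
  obtain ⟨y, x, hx⟩ := h.exists_seq
  obtain ⟨yy, hyy⟩ := hx.exists_y h
  have hpos := h.pos
  -- properties of `yy`
  have hyd : ∀ n, P.deg (yy n) = n * P.deg ρ := by
    intro n
    apply hx.zz_hom h n
    rcases hyy n with h1 | h1 <;> rw [h1] <;> simp
  have hyt : ∀ n m, P.zz x n m ≠ 0 → m = yy n := by
    intro n m hm
    by_contra hne
    apply hm
    rcases hyy n with h1 | h1 <;> rw [h1] <;> simp [Ne.symm hne]
  have hysq : ∀ n, P.zz x n (yy n) ^ 2 = 1 := by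
    intro n
    rcases hyy n with h1 | h1 <;> rw [h1] <;> simp
  have hyl : ∀ n m, 1 < m → ¬ P.Le (x m) (yy n) := by
    intro n m hm
    apply not_le_of_cA
    obtain ⟨m', rfl⟩ : ∃ m', m = m' + 1 := ⟨m - 1, by omega⟩
    have h1 := hx.zz_adj h n m'
    rw [if_neg (by omega)] at h1
    rcases hyy n with h2 | h2
    · rw [h2, adj_ee] at h1; exact h1
    · rw [h2, map_neg, neg_eq_zero, adj_ee] at h1; exact h1
  have hyl0 : ∀ m, 0 < m → ¬ P.Le (x m) (yy 0) := by
    intro m hm hc
    have h1 := hc.deg_le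
    rw [hyd, hx.deg_x h] at h1
    have : 0 < m * P.deg ρ := by positivity
    omega
  -- the first row of `χ`
  set a := P.top x χ with ha
  set t := P.dn x χ with ht
  have ha1 : 0 < a := by
    by_contra h1
    have h2 : P.Le (x 1) χ := by rw [hx.one]; exact hρχ
    exact hx.not_le_of_top h (by omega) h2
  have hχ1 : P.cA (x a) χ = e t := hx.dn_spec h χ
  have hct : P.c (x a) t χ ≠ 0 := by
    have h1 := DFunLike.congr_fun hχ1 t
    rw [cA_apply, Finsupp.single_eq_same] at h1
    have : P.c (x a) t χ = 1 := by exact_mod_cast h1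
    omega
  have htl : ∀ m, a < m → ¬ P.Le (x m) t := fun m hm hc =>
    hx.not_le_of_top h hm (hc.trans (Le.of_right hct))
  have hr := hx.theta_row h θ hθ ha1 htl hχ1 (fun m hm => hx.not_le_of_top h hm) hχ
  rw [hr] at h0
  obtain ⟨i, hi, hne⟩ := Finset.exists_ne_zero_of_sum_ne_zero h0
  rw [← hr] at h0
  have hit : i * P.deg ρ = P.deg t := by
    by_contra h1; rw [if_neg h1] at hne; exact hne rfl
  rw [if_pos hit] at hne
  have hty : t = yy i := hyt i t (left_ne_zero_of_mul hne)
  have hNn : (a + i) * P.deg ρ = N := by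
    rw [← hχ, P.deg_c _ _ _ hct, hx.deg_x h, ← hit]; ring
  -- the value on a row
  have val : ∀ b j (w : Ω), 0 < b → b + j = a + i → P.cA (x b) w = e (yy j) →
      (∀ m, b < m → ¬ P.Le (x m) w) → θ w = P.zz x j (yy j) * θ (x (a + i)) := by
    intro b j w hb hbj hw1 hw2
    have hdw : P.deg w = N := by
      have h1 := DFunLike.congr_fun hw1 (yy j)
      rw [cA_apply, Finsupp.single_eq_same] at h1
      have h2 : P.c (x b) (yy j) w ≠ 0 := by
        have : P.c (x b) (yy j) w = 1 := by exact_mod_cast h1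
        omega
      rw [P.deg_c _ _ _ h2, hx.deg_x h, hyd, ← add_mul, hbj, hNn]
    rw [hx.theta_row h θ hθ hb (fun m hm => by
      rcases Nat.lt_or_ge 1 m with h1 | h1
      · exact hyl j m h1
      · omega) hw1 hw2 hdw, Finset.sum_eq_single j]
    · rw [if_pos (hyd j).symm, hbj]
    · intro k _ hk
      rw [if_neg]
      intro h1
      rw [hyd] at h1
      exact hk (Nat.eq_of_mul_eq_mul_right hpos h1)
    · intro hj
      exfalso
      apply hj
      rw [Finset.mem_range, hyd]
      have := Nat.le_mul_of_pos_right j hpos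
      omega
  refine ⟨ρ, a + i, h, hNn, ?_, ?_⟩
  · -- `χ` is contained in `ρ ^ n`
    have cx : ∀ n, n * P.deg ρ ≤ N → P.cnt N (List.replicate n ρ) P.one (x n) ≠ 0 := by
      intro n
      induction n with
      | zero => intro _; rw [List.replicate_zero, cnt_nil, hx.zero]; simp
      | succ n ih =>
        intro hn
        have hn' : n * P.deg ρ ≤ N := (Nat.mul_le_mul_right _ (Nat.le_succ n)).trans hn
        rw [List.replicate_succ, cnt_cons]
        have h5 := Finset.single_le_sum
          (f := fun s => P.c ρ s (x (n + 1)) * P.cnt N (List.replicate n ρ) P.one s)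
          (fun _ _ => Nat.zero_le _) ((P.mem_W N (x n)).2 (by rw [hx.deg_x h]; exact hn'))
        have h6 : 0 < P.c ρ (x n) (x (n + 1)) * P.cnt N (List.replicate n ρ) P.one (x n) := by
          rw [hx.c_succ h, one_mul]; exact Nat.pos_of_ne_zero (ih hn')
        have h7 : 0 < ∑ s ∈ P.W N, P.c ρ s (x (n + 1)) *
            P.cnt N (List.replicate n ρ) P.one s := lt_of_lt_of_le h6 h5
        omega
    have cy : ∀ n, n * P.deg ρ ≤ N → P.cnt N (List.replicate n ρ) P.one (yy n) ≠ 0 := by
      intro n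
      induction n with
      | zero =>
        intro _
        rw [List.replicate_zero, cnt_nil]
        have : yy 0 = P.one := P.eq_one _ (by rw [hyd]; ring)
        rw [this]; simp
      | succ n ih =>
        intro hn
        have hn' : n * P.deg ρ ≤ N := (Nat.mul_le_mul_right _ (Nat.le_succ n)).trans hn
        -- `c ρ (yy n) (yy (n+1)) ≠ 0`
        have hcy : P.c ρ (yy n) (yy (n + 1)) ≠ 0 := by
          have h1 := hx.zz_adj h (n + 1) 0
          rw [if_pos ⟨rfl, by omega⟩, Nat.add_sub_cancel, zero_add, hx.one] at h1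
          have h2 := DFunLike.congr_fun h1 (yy n)
          have h3 : (-P.zz x n) (yy n) ≠ 0 := by
            rw [Finsupp.neg_apply, neg_ne_zero]
            intro h4
            have := hysq n
            rw [h4] at this
            norm_num at this
          rw [← h2] at h3
          rcases hyy (n + 1) with h4 | h4
          · rw [h4, adj_ee, cA_apply] at h3
            exact_mod_cast h3
          · rw [h4, map_neg, Finsupp.neg_apply, neg_ne_zero, adj_ee, cA_apply] at h3
            exact_mod_cast h3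
        rw [List.replicate_succ, cnt_cons]
        have h5 := Finset.single_le_sum
          (f := fun s => P.c ρ s (yy (n + 1)) * P.cnt N (List.replicate n ρ) P.one s)
          (fun _ _ => Nat.zero_le _) ((P.mem_W N (yy n)).2 (by rw [hyd]; exact hn'))
        have h6 : 0 < P.c ρ (yy n) (yy (n + 1)) * P.cnt N (List.replicate n ρ) P.one (yy n) :=
          Nat.mul_pos (Nat.pos_of_ne_zero hcy) (Nat.pos_of_ne_zero (ih hn'))
        have h7 : 0 < ∑ s ∈ P.W N, P.c ρ s (yy (n + 1)) *
            P.cnt N (List.replicate n ρ) P.one s := lt_of_lt_of_le h6 h5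
        omega
    have hle1 : a * P.deg ρ ≤ N := by
      rw [← hNn]; exact Nat.mul_le_mul_right _ (Nat.le_add_right _ _)
    have hle2 : i * P.deg ρ ≤ N := by
      rw [← hNn]; exact Nat.mul_le_mul_right _ (Nat.le_add_left _ _)
    have h8 := c_le_cnt (P := P) (by rw [hx.deg_x h]; exact hle1) (cx a hle1) N (yy i) χ hχ.le
    rw [← hty] at h8
    rw [List.replicate_add, cnt_append N _ _ P.one χ hχ.le]
    have h5 := Finset.single_le_sum
      (f := fun s => P.cnt N (List.replicate a ρ) s χ * P.cnt N (List.replicate i ρ) P.one s)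
      (fun _ _ => Nat.zero_le _) ((P.mem_W N t).2 (by rw [← hit]; exact hle2))
    have h6 : 0 < P.cnt N (List.replicate a ρ) t χ * P.cnt N (List.replicate i ρ) P.one t := by
      apply Nat.mul_pos
      · exact lt_of_lt_of_le (Nat.pos_of_ne_zero hct) h8
      · rw [hty]; exact Nat.pos_of_ne_zero (cy i hle2)
    have h7 : 0 < ∑ s ∈ P.W N, P.cnt N (List.replicate a ρ) s χ *
        P.cnt N (List.replicate i ρ) P.one s := lt_of_lt_of_le h6 h5
    omega
  · -- the `n` elements
    have hw : ∀ b : Fin (a + i), ∃ w, P.cA (x (b + 1)) w = e (yy (a + i - (b + 1))) ∧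
        (∀ m, (b : ℕ) + 1 < m → ¬ P.Le (x m) w) := by
      intro b
      obtain ⟨w, h1, h2, _⟩ := hx.add_row h (a := b + 1) (t := yy (a + i - (b + 1)))
        (fun m hm => hyl _ m (by omega))
      exact ⟨w, h1, h2⟩
    choose ww hww1 hww2 using hw
    have hcw : ∀ b : Fin (a + i), P.c (x (b + 1)) (yy (a + i - (b + 1))) (ww b) ≠ 0 := by
      intro b
      have h1 := DFunLike.congr_fun (hww1 b) (yy (a + i - (b + 1)))
      rw [cA_apply, Finsupp.single_eq_same] at h1
      have : P.c (x (b + 1)) (yy (a + i - (b + 1))) (ww b) = 1 := by exact_mod_cast h1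
      omega
    have htop : ∀ b : Fin (a + i), P.top x (ww b) = b + 1 := fun b =>
      hx.top_eq h (Le.of_left (hcw b)) (hww2 b)
    have hinj : Function.Injective ww := by
      intro b b' hbb
      have h1 := htop b
      rw [hbb, htop b'] at h1
      exact Fin.ext (by omega)
    have hdeg : ∀ b : Fin (a + i), P.deg (ww b) = N := by
      intro b
      rw [P.deg_c _ _ _ (hcw b), hx.deg_x h, hyd, ← add_mul, ← hNn]
      congr 1
      have := b.2
      omega
    have hval : ∀ b : Fin (a + i), θ (ww b) ^ 2 = θ χ ^ 2 := by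
      intro b
      rw [val (b + 1) (a + i - (b + 1)) (ww b) (by omega) (by have := b.2; omega) (hww1 b)
        (hww2 b), val a i χ ha1 rfl (by rw [hχ1, hty]) (fun m hm => hx.not_le_of_top h hm),
        mul_pow, mul_pow, hysq, hysq]
    have h1 : ∑ w ∈ Finset.univ.image ww, θ w ^ 2 = ((a + i : ℕ) : ℤ) * θ χ ^ 2 := by
      rw [Finset.sum_image (fun b _ b' _ hbb => hinj hbb)]
      rw [Finset.sum_congr rfl fun b _ => hval b, Finset.sum_const, Finset.card_univ,
        Fintype.card_fin, nsmul_eq_mul]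
    rw [← h1]
    apply Finset.sum_le_sum_of_subset_of_nonneg
    · intro w hw
      obtain ⟨b, _, rfl⟩ := Finset.mem_image.1 hw
      rw [Finset.mem_filter, P.mem_W]
      exact ⟨(hdeg b).le, hdeg b⟩
    · intro w _ _
      positivity

end PSH

end Vale.Agent.P180.H568
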