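import Vale.Agent.P180.H568.Inst
import Vale.Agent.P180.H568.A3e

/-!
P180 H568: the box theorem for characters of general linear groups, abstract form.
-/

set_option linter.all false

namespace Vale.Agent.P180.H568

open Vale.Agent.P180.H393 Vale.Agent.P180.H337 Vale.Agent.P180.H568.Dc Module Finset
open Vale.Agent.P180.R2.H471.Hc

universe u

variable {K : Type u} [Field K] [IsAlgClosed K] [CharZero K] {F : Type} [Field F] [Finite F]
variable {V : Type} [AddCommGroup V] [Module F V] [Finite V]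

/-- **The box theorem, abstract form**: `S` is the part of the irreducible character `X σ V` on the
`p`-singular elements. -/
theorem box_of [DecidableEq (Om K F)] (hV : 0 < finrank F V) {S : (V ≃ₗ[F] V) → K} (hS : IsCF S)
    (hres : ∀ (A B : Type) [AddCommGroup A] [Module F A] [AddCommGroup B] [Module F B] [Finite A]
      [Finite B] (_ : 0 < finrank F A) (_ : 0 < finrank F B) (e : (A × B) ≃ₗ[F] V)
      (g : A ≃ₗ[F] A) (h : B ≃ₗ[F] B), Res (fun x => S (cg e x)) g h = 0)
    {N : ℕ} (hint : ∀ w ∈ OmS K F (finrank F V), ∃ z : ℤ, (N : K) * ip S (X w V) = z)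
    {σ : Om K F} (hσ : σ.deg = finrank F V) (hself : ip S S = ip S (X σ V))
    (hne : (N : K) * ip S (X σ V) ≠ 0) :
    ∃ (ρ : Om K F) (n : ℕ), (glPSH K F).Prim ρ ∧ n ≤ N ∧ n * ρ.deg = σ.deg ∧
      (glPSH K F).cnt σ.deg (List.replicate n ρ) (glPSH K F).one σ ≠ 0 := by
  classical
  set d := finrank F V with hd
  choose! z hz using hint
  set θ : Om K F → ℤ := fun w => if w ∈ OmS K F d then z w else 0 with hθ
  have hθ1 : ∀ w ∈ OmS K F d, (θ w : K) = N * ip S (X w V) := by
    intro w hw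
    simp only [hθ]
    rw [if_pos hw, hz w hw]
  have hexp : ∀ x, S x = ∑ w ∈ OmS K F d, ip S (X w V) * X w V x := fun x => expand hS x
  have hW : ∀ (M : Type u) [AddCommMonoid M] (f : Om K F → M), (∀ w, f w ≠ 0 → w.deg = d) →
      ∑ w ∈ OmW K F d, f w = ∑ w ∈ OmS K F d, f w := fun M _ f hf => sum_OmW le_rfl hf
  -- `θ` kills the products
  have hθ0 : ∀ a b : Om K F, 0 < a.deg → 0 < b.deg → a.deg + b.deg = d →
      ∑ w ∈ OmW K F d, ((cc a b w : ℕ) : ℤ) * θ w = 0 := by
    intro a b ha hb hab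
    have fA : finrank F (Fin a.deg → F) = a.deg := finrank_fin_fun F
    have fB : finrank F (Fin b.deg → F) = b.deg := finrank_fin_fun F
    have : Module.Finite F V := Module.Finite.of_finite
    have e : ((Fin a.deg → F) × (Fin b.deg → F)) ≃ₗ[F] V :=
      LinearEquiv.ofFinrankEq _ _ (by rw [finrank_prod', fA, fB, hab])
    have h1 : mu (X a (Fin a.deg → F)) (X b (Fin b.deg → F)) (fun x => S (cg e x)) = 0 := by
      rw [mu]
      have h2 : ∀ (g : (Fin a.deg → F) ≃ₗ[F] (Fin a.deg → F))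
          (h : (Fin b.deg → F) ≃ₗ[F] (Fin b.deg → F)), Res (fun x => S (cg e x)) g h = 0 :=
        fun g h => hres _ _ (by rw [fA]; exact ha) (by rw [fB]; exact hb) e g h
      simp only [h2, zero_mul, Finset.sum_const_zero, mul_zero]
    have h2 : mu (X a (Fin a.deg → F)) (X b (Fin b.deg → F)) (fun x => S (cg e x)) =
        ∑ w ∈ OmS K F d, ip S (X w V) * (cc a b w : K) := by
      rw [mu_sum]
      have h3 : ∀ x : ((Fin a.deg → F) × (Fin b.deg → F)) ≃ₗ[F] ((Fin a.deg → F) × (Fin b.deg → F)),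
          S (cg e x⁻¹) * infl (X a (Fin a.deg → F)) (X b (Fin b.deg → F)) x =
          ∑ w ∈ OmS K F d, ip S (X w V) * (X w ((Fin a.deg → F) × (Fin b.deg → F)) x⁻¹ *
            infl (X a (Fin a.deg → F)) (X b (Fin b.deg → F)) x) := by
        intro x
        rw [hexp, Finset.sum_mul]
        refine Finset.sum_congr rfl fun w _ => ?_
        rw [X_cg]
        ring
      rw [Finset.sum_congr rfl fun x _ => h3 x, Finset.sum_comm, Finset.mul_sum]
      refine Finset.sum_congr rfl fun w _ => ?_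
      rw [← Finset.mul_sum, cc_eq w fA fB, mu_sum]
      ring
    rw [h1] at h2
    have h3 : ((∑ w ∈ OmW K F d, ((cc a b w : ℕ) : ℤ) * θ w : ℤ) : K) = 0 := by
      rw [sum_OmW le_rfl (fun w hw => by
        have h4 := cc_deg (fun h0 => hw (by rw [h0]; simp) : cc a b w ≠ 0)
        rw [h4, hab])]
      push_cast
      rw [show (0 : K) = (N : K) * 0 by simp, h2, Finset.mul_sum]
      refine Finset.sum_congr rfl fun w hw => ?_
      rw [hθ1 w hw]
      ring
    exact_mod_cast h3
  have hσm : σ ∈ OmS K F d := mem_OmS.mpr hσ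
  have hθσ : θ σ ≠ 0 := by
    intro h0
    have h1 := hθ1 σ hσm
    rw [h0] at h1
    exact hne (by rw [← h1]; simp)
  obtain ⟨ρ, n, h1, h2, h3, h4⟩ := PSH.exists_box (P := glPSH K F) hV θ hθ0 hσ hθσ
  -- the square sum
  have h5 : ∑ w ∈ ((glPSH K F).W d).filter (fun w => (glPSH K F).deg w = d), θ w ^ 2 =
      (N : ℤ) * θ σ := by
    have e1 : ((glPSH K F).W d).filter (fun w => (glPSH K F).deg w = d) = OmS K F d := by
      ext w
      rw [Finset.mem_filter, (glPSH K F).mem_W, mem_OmS]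
      exact ⟨fun h => h.2, fun h => ⟨le_of_eq h, h⟩⟩
    rw [e1]
    have e2 : ((∑ w ∈ OmS K F d, θ w ^ 2 : ℤ) : K) = ((N * θ σ : ℤ) : K) := by
      push_cast
      rw [hθ1 σ hσm, ← hself, parseval' hS, Finset.mul_sum, Finset.mul_sum]
      refine Finset.sum_congr rfl fun w hw => ?_
      rw [hθ1 w hw, ip_comm (X w V) S]
      ring
    exact_mod_cast e2
  rw [h5] at h4
  have hN0 : (0 : ℤ) ≤ N := Int.natCast_nonneg N
  have hn0 : 0 < n := by
    rcases Nat.eq_zero_or_pos n with h6 | h6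
    · rw [h6, zero_mul] at h2; omega
    · exact h6
  have hpos : 0 < θ σ := by
    have h6 : 0 < θ σ ^ 2 := by positivity
    have h7 : 0 < (n : ℤ) * θ σ ^ 2 := by positivity
    have h8 : 0 < (N : ℤ) * θ σ := lt_of_lt_of_le h7 h4
    by_contra h9
    push Not at h9
    have := mul_nonpos_of_nonneg_of_nonpos hN0 h9
    omega
  have hnN : n ≤ N := by
    have h6 : (n : ℤ) * θ σ ≤ (N : ℤ) := by
      have h7 : ((n : ℤ) * θ σ) * θ σ ≤ (N : ℤ) * θ σ := by
        calc ((n : ℤ) * θ σ) * θ σ = (n : ℤ) * θ σ ^ 2 := by ring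
          _ ≤ _ := h4
      exact le_of_mul_le_mul_right h7 hpos
    have h7 : (n : ℤ) ≤ (n : ℤ) * θ σ := by
      have : (1 : ℤ) ≤ θ σ := hpos
      nlinarith
    have h8 : (n : ℤ) ≤ N := h7.trans h6
    exact_mod_cast h8
  refine ⟨ρ, n, h1, hnN, ?_, ?_⟩
  · rw [hσ]; exact h2
  · rw [hσ]; exact h3

end Vale.Agent.P180.H568
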