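import Vale.Agent.P180.H568.B5
import Vale.Agent.P180.H568.Tp
import Vale.Agent.P180.H951.OneGLB
import Vale.Agent.P180.H386.Sg

/-!
P180 H568: the box theorem for a block of a general linear group.
-/

set_option linter.all false

namespace Vale.Agent.P180.H568

open Vale.Agent.P180 Vale.Agent.P180.H768.Gd Vale.Agent.P180.H393 Vale.Agent.P180.H337
  Vale.Agent.P180.H568.Dc Module Finset
open Vale.Agent.P180.R2.H471.Hc Vale.Agent.P180.H568.Tp
open Vale.Agent.P180.R2.H954.Hc (KK toKK charZero_KK)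
open Vale.Agent.P180.H951 (HomOn tE tE_apply BoxStmt)
open Vale.Agent.P180.H897 (Boxed)
open Vale.Agent.P180.H386 (sg)

universe u

section Sg

variable {K : Type u} [Field K] {G : Type} [Group G]

theorem sg_cf {p : ℕ} {χ : G → K} (h : IsCF χ) : IsCF (sg p χ) := by
  intro x y
  unfold sg
  have h1 : orderOf (x * y * x⁻¹) = orderOf y := by
    rw [← MulAut.conj_apply]
    exact orderOf_injective (MulAut.conj x).toMonoidHom (MulAut.conj x).injective y
  rw [h1, h]

theorem sg_self [Fintype G] {p : ℕ} (χ : G → K) : ip (sg p χ) (sg p χ) = ip (sg p χ) χ := by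
  unfold ip
  congr 1
  refine Finset.sum_congr rfl fun g _ => ?_
  unfold sg
  rw [orderOf_inv]
  split_ifs
  · rfl
  · rw [zero_mul, zero_mul]

end Sg

variable {k : Type u} [Field k] [IsAlgClosed k] {p : ℕ} [Fact p.Prime] [CharP k p]
  {F : Type} [Field F] [Finite F]

/-- the data of a block of `GL(W)` with homogeneous abelian defect group -/
structure BD (W : Type) [AddCommGroup W] [Module F W] [Finite W] [Fintype (W ≃ₗ[F] W)]
    (R : Subgroup (W ≃ₗ[F] W)) (g a : MonoidAlgebra k (W ≃ₗ[F] W))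
    (E : MonoidAlgebra (WittVector p k) (W ≃ₗ[F] W)) (σ : Om (KK k p) F) : Prop where
  pg : IsPGroup p R
  nt : R ≠ ⊥
  ab : ∀ x ∈ R, ∀ y ∈ R, x * y = y * x
  hom : HomOn R ⊤
  blk : IsBlockOf (⊤ : Subgroup (W ≃ₗ[F] W)) g
  fix : a ∈ Fix (cj k (W ≃ₗ[F] W)) R
  tra : g = tr (cj k (W ≃ₗ[F] W)) R ⊤ a
  bra : br R g ≠ 0
  cen : ∀ x, x * E = E * x
  idm : E * E = E
  red : MonoidAlgebra.mapRingHom (W ≃ₗ[F] W)
    (WittVector.constantCoeff (p := p) (R := k)) E = g
  deg : σ.deg = finrank F W
  evn : ev (X σ W) (MonoidAlgebra.mapRingHom (W ≃ₗ[F] W) (toKK k p) E) ≠ 0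

theorem BD.transport {W W' : Type} [AddCommGroup W] [Module F W] [Finite W]
    [Fintype (W ≃ₗ[F] W)] [AddCommGroup W'] [Module F W'] [Finite W'] [Fintype (W' ≃ₗ[F] W')]
    {R : Subgroup (W ≃ₗ[F] W)} {g a : MonoidAlgebra k (W ≃ₗ[F] W)}
    {E : MonoidAlgebra (WittVector p k) (W ≃ₗ[F] W)} {σ : Om (KK k p) F}
    (h : BD W R g a E σ) (e : W ≃ₗ[F] W') :
    BD W' (R.map (cg e).toMonoidHom) (T (cg e) g) (T (cg e) a) (T (cg e) E) σ where
  pg := h.pg.map _
  nt := by
    intro hc
    apply h.nt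
    rw [Subgroup.map_eq_bot_iff] at hc
    have h1 : (cg e).toMonoidHom.ker = ⊥ :=
      (MonoidHom.ker_eq_bot_iff _).2 (cg e).injective
    rw [h1] at hc
    exact le_bot_iff.1 hc
  ab := by
    rintro _ ⟨x, hx, rfl⟩ _ ⟨y, hy, rfl⟩
    rw [← map_mul, ← map_mul, h.ab x hx y hy]
  hom := by
    refine ⟨fun _ _ _ _ => trivial, fun x hx => ?_⟩
    -- conjugation of endomorphisms
    let C : End F W' →ₗ[F] End F W :=
      { toFun := fun z => (e.symm : W' →ₗ[F] W) ∘ₗ z ∘ₗ (e : W →ₗ[F] W')
        map_add' := fun a b => by ext y; simp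
        map_smul' := fun c a => by ext y; simp }
    have hC : C x ∈ Submodule.span F (Set.range fun q : R => tE (q : W ≃ₗ[F] W)) := by
      have h1 : Submodule.span F (Set.range fun q : (R.map (cg e).toMonoidHom : Subgroup _) =>
          tE (q : W' ≃ₗ[F] W')) ≤ (Submodule.span F (Set.range fun q : R =>
            tE (q : W ≃ₗ[F] W))).comap C := by
        rw [Submodule.span_le]
        rintro _ ⟨⟨_, q, hq, rfl⟩, rfl⟩
        apply Submodule.subset_span
        refine ⟨⟨q, hq⟩, ?_⟩
        ext y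
        change q y = e.symm (e (q (e.symm (e y))))
        simp
      exact h1 hx
    have hCx : ∀ w, C x w = e.symm (x (e w)) := fun w => rfl
    rcases h.hom.2 _ hC with h1 | h1
    · left
      intro w _
      have h2 := h1 (e.symm w) trivial
      rw [hCx, LinearEquiv.apply_symm_apply] at h2
      simpa using h2
    · right
      intro w _ hw
      have h2 := h1 (e.symm w) trivial (by
        rw [hCx, LinearEquiv.apply_symm_apply, hw, map_zero])
      simpa using h2
  blk := T_block _ h.blk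
  fix := T_Fix _ h.fix
  tra := by
    rw [h.tra]
    exact T_tr _ h.fix
  bra := by
    rw [← T_br]
    intro hc
    exact h.bra ((map_eq_zero_iff _ (T (R := k) (cg e)).injective).mp hc)
  cen := T_central _ h.cen
  idm := T_idem _ h.idm
  red := by rw [← T_map, h.red]
  deg := by rw [h.deg]; exact e.finrank_eq
  evn := by
    rw [← T_map, ev_T]
    have h1 : (fun g => X σ W' (cg e g)) = X σ W := funext fun g => X_cg σ e g
    rw [h1]
    exact h.evn

/-- **The box theorem**, from the statements B3 (`HR`) and B4 (`HI`). -/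
theorem boxStmt_of [CharZero (KK k p)] [DecidableEq (Om (KK k p) F)]
    (HR : ∀ (A B : Type) [AddCommGroup A] [Module F A] [AddCommGroup B] [Module F B] [Finite A]
      [Finite B] (_ : 0 < finrank F A) (_ : 0 < finrank F B)
      (R : Subgroup ((A × B) ≃ₗ[F] (A × B))) (g a : MonoidAlgebra k ((A × B) ≃ₗ[F] (A × B)))
      (E : MonoidAlgebra (WittVector p k) ((A × B) ≃ₗ[F] (A × B))) (σ : Om (KK k p) F),
      BD (A × B) R g a E σ → ∀ x y, Res (sg p (X σ (A × B))) x y = 0)
    (HI : ∀ (W : Type) [AddCommGroup W] [Module F W] [Finite W]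
      (R : Subgroup (W ≃ₗ[F] W)) (g a : MonoidAlgebra k (W ≃ₗ[F] W))
      (E : MonoidAlgebra (WittVector p k) (W ≃ₗ[F] W)) (σ : Om (KK k p) F),
      BD W R g a E σ → (∀ w ∈ OmS (KK k p) F (finrank F W), ∃ z : ℤ,
        (Nat.card R : KK k p) * ip (sg p (X σ W)) (X w W) = z) ∧
        ip (sg p (X σ W)) (X σ W) ≠ 0)
    : BoxStmt k p F := by
  intro W _ _ _ instF R g a E σ h1 h2 h3 h4 h5 h6 h7 h8 h9 h10 h11 h12 h13
  have inst : instF = fintGL := Subsingleton.elim _ _
  subst inst
  have hBD : BD W R g a E σ := ⟨h1, h2, h3, h4, h5, h6, h7, h8, h9, h10, h11, h12, h13⟩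
  obtain ⟨hi, hn⟩ := HI W R g a E σ hBD
  have hR0 : (Nat.card R : KK k p) ≠ 0 := card_ne' R
  have hV : 0 < finrank F W := by
    rw [Nat.pos_iff_ne_zero]
    intro h0
    have : Module.Finite F W := Module.Finite.of_finite
    have hsub : Subsingleton W := finrank_zero_iff.mp h0
    apply h2
    rw [eq_bot_iff]
    intro x _
    rw [Subgroup.mem_bot]
    ext w
    exact Subsingleton.elim _ _
  obtain ⟨ρ, n, e1, e2, e3, e4⟩ := box_of (K := KK k p) hV (S := sg p (X σ W))
    (sg_cf (IsCh.cf (X_isCh σ))) (by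
      intro A B _ _ _ _ _ _ hA hB e x y
      have h20 : (fun z => sg p (X σ W) (cg e z)) = sg p (X σ (A × B)) := by
        funext z
        unfold sg
        rw [X_cg]
        have h21 : orderOf (cg e z) = orderOf z :=
          orderOf_injective (cg e).toMonoidHom (cg e).injective z
        rw [h21]
      rw [h20]
      exact HR A B hA hB _ _ _ _ σ (hBD.transport e.symm) x y) (N := Nat.card R) hi h12
    (sg_self _) (mul_ne_zero hR0 hn)
  exact ⟨List.replicate n ρ, fun τ hτ => by rw [List.eq_of_mem_replicate hτ]; exact e1,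
    by rw [List.length_replicate]; exact e2, e4⟩

end Vale.Agent.P180.H568
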