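import Vale.Agent.P180.H392.CorB
import Vale.Agent.P180.R2.H365.LocY
import Vale.Agent.P180.R2.H47.AcW

/-!
P180 H568: the corner property of the quotients of special linear groups by scalars, with field
automorphisms.
-/

set_option linter.all false

namespace Vale.Agent.P180.H568

open Module Subgroup Vale.Agent.P180 Vale.Agent.P180.H768.Gd Vale.Agent.P180.R2.H471.Hc
  Vale.Agent.P180.R2 Vale.Agent.P180.R2.H365 Vale.Agent.P180.R2.H471.He
open Vale.Agent.P180.R2.H259.Cyc (cycB cycB_mono)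

universe u

/-- `L` is the quotient of `SL_d(K)`, `K` a finite field and `3 ≤ d`, by a group of scalars; `p` is
odd and does not divide `|K| gcd(d, |K| - 1)`; `Γ` consists of inner automorphisms of `L`, or `p`
does not divide the order of the group of automorphisms of `K`, or `Γ` acts trivially on `A` modulo
`Z(L)`; and `A` is commutative. -/
def LinAbF (p : ℕ) (L : Type) [Group L] (Γ : Subgroup (MulAut L)) (A : Subgroup L) : Prop :=
  ∃ (K : Type) (_ : Field K) (_ : Finite K) (d : ℕ), 3 ≤ d ∧ p ≠ 2 ∧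
    ¬ p ∣ Nat.card K ∧ ¬ p ∣ Nat.gcd d (Nat.card K - 1) ∧ LinOn K (Fin d → K) L ∧
    (Γ ≤ (MulAut.conj : L →* MulAut L).range ∨ ¬ p ∣ Nat.card (K ≃+* K) ∨
      ∀ α ∈ Γ, ∀ y ∈ A, α y * y⁻¹ ∈ Subgroup.center L) ∧
    ∀ x ∈ A, ∀ y ∈ A, x * y = y * x

section Cen

variable {p d : ℕ} [Fact p.Prime] {K : Type} [Field K] [Finite K] {L : Type} [Group L]
  {π : SpecialLinearGroup K (Fin d → K) →* L}

theorem not_dvd_ker (hg : ¬ p ∣ Nat.gcd d (Nat.card K - 1)) (hd : 2 ≤ d)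
    (hk : π.ker ≤ Subgroup.center _) : ¬ p ∣ Nat.card π.ker := by
  have hfin : Finite (SpecialLinearGroup K (Fin d → K)) := H799.BN.finite_sl
  intro h
  obtain ⟨z, hz⟩ := exists_prime_orderOf_dvd_card' p h
  have h1 : (z : SpecialLinearGroup K (Fin d → K)) ^ p ^ 1 = 1 := by
    have h2 : z ^ p = 1 := by rw [← hz]; exact pow_orderOf_eq_one z
    rw [pow_one]
    exact congrArg Subtype.val h2
  have h3 : (z : SpecialLinearGroup K (Fin d → K)) = 1 := Y.cen_one hg hd h1 (hk z.2)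
  have h4 : z = 1 := Subtype.ext h3
  rw [h4, orderOf_one] at hz
  exact (Fact.out : p.Prime).one_lt.ne hz

theorem cen_quot (hg : ¬ p ∣ Nat.gcd d (Nat.card K - 1)) (hd : 2 ≤ d)
    (hπ : Function.Surjective π) (hk : π.ker ≤ Subgroup.center _) (hL : commutator L = ⊤)
    {y : L} {i : ℕ} (hy : y ^ p ^ i = 1) (hyc : y ∈ Subgroup.center L) : y = 1 := by
  have hfin : Finite (SpecialLinearGroup K (Fin d → K)) := H799.BN.finite_sl
  have hfL : Finite L := Finite.of_surjective π hπ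
  have hP : IsPGroup p (Subgroup.zpowers y) := by
    rintro ⟨_, j, rfl⟩
    refine ⟨i, Subtype.ext ?_⟩
    change (y ^ j) ^ p ^ i = 1
    rw [← zpow_natCast, ← zpow_mul, mul_comm, zpow_mul, zpow_natCast, hy, one_zpow]
  obtain ⟨Q, hQ, hQy⟩ := H799.BN.exists_lift (p := p) π hπ hP
  have h1 : y ∈ Q.map π := by rw [hQy]; exact Subgroup.mem_zpowers y
  obtain ⟨x, hx, rfl⟩ := h1
  obtain ⟨j, hj⟩ := hQ ⟨x, hx⟩
  have h2 : x ^ p ^ j = 1 := congrArg Subtype.val hj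
  have h3 : x ∈ Subgroup.center _ := H47.center_of_quot π hπ hk hL hyc
  rw [Y.cen_one hg hd h2 h3, map_one]

end Cen

/-- The corner property. -/
theorem corP_f_of {k : Type u} [Field k] [IsAlgClosed k] {p : ℕ} [Fact p.Prime] [CharP k p]
    {C n : ℕ} {G : Type} [Group G] [Finite G] {D L : Subgroup G} (hD : IsPGroup p D)
    (hDn : Nat.card D ≤ n) (hL : commutator L = ⊤)
    (h : LinAbF p L (Gam D L) (D.subgroupOf L))
    (hO : ∀ (K : Type) [Field K] [Finite K] (d : ℕ) [Finite (SpecialLinearGroup K (Fin d → K))],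
      3 ≤ d → p ≠ 2 → ¬ p ∣ Nat.card K → ¬ p ∣ Nat.gcd d (Nat.card K - 1) →
      ∀ Q : Subgroup (SpecialLinearGroup K (Fin d → K)), IsPGroup p Q → Nat.card Q ≤ n →
      (∀ x ∈ Q, ∀ y ∈ Q, x * y = y * x) → OneBd k Q C)
    (hA : ∀ (K : Type) [Field K] [Finite K] (d : ℕ) (π : SpecialLinearGroup K (Fin d → K) →* L),
      3 ≤ d → p ≠ 2 → ¬ p ∣ Nat.card K → ¬ p ∣ Nat.gcd d (Nat.card K - 1) →
      Function.Surjective π → π.ker ≤ Subgroup.center _ →
      ∀ R : Subgroup G, IsPGroup p R → R ≤ Subgroup.normalizer (L : Set G) →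
      (∀ x ∈ R, ∀ y ∈ R, y ∈ L → x * y = y * x) →
      ∀ e z : MonoidAlgebra k G, IsBlockOf L e → br R e ≠ 0 →
      z ∈ SubAlg k L → z ∈ Fix (cj k G) (L ⊓ R) → e = tr (cj k G) (L ⊓ R) L z →
      R ≤ L ⊔ Subgroup.centralizer (L : Set G) ∨ CycOn R L)
    (b : MonoidAlgebra k G) : CorP p (max C (cycB p n)) b D L := by
  obtain ⟨K, _, _, d, hd, hp2, hpK, hg, ⟨π, hπ, hk⟩, hin, hab⟩ := h
  have hfin : Finite (SpecialLinearGroup K (Fin d → K)) := H799.BN.finite_sl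
  have hkp := not_dvd_ker hg (by omega) hk
  -- the statement for `L`
  have hOL : ∀ Q : Subgroup L, IsPGroup p Q → Nat.card Q ≤ n → (∀ x ∈ Q, ∀ y ∈ Q, x * y = y * x) →
      OneBd k Q C := fun Q hQ hQn hQab => H471.Hd.oneBd_lift π hπ
    (fun x hx g => (Subgroup.mem_center_iff.mp (hk (MonoidHom.mem_ker.mpr hx)) g).symm) hkp hQ hQn
    hQab (fun Q hQ hQn hab => hO K d hd hp2 hpK hg Q hQ hQn hab)
  have habG : ∀ x ∈ D, x ∈ L → ∀ y ∈ D, y ∈ L → x * y = y * x := fun x hx hxL y hy hyL =>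
    congrArg Subtype.val (hab ⟨x, hxL⟩ hx ⟨y, hyL⟩ hy)
  by_cases hin' : D ⊓ Subgroup.normalizer (L : Set G) ≤ L ⊔ Subgroup.centralizer (L : Set G)
  · exact (H471.Hd.corP_of_oneBd hD hDn habG hin' hOL b).mono (le_max_left _ _)
  rcases hin with h | h | hcen
  · exact absurd (Oc.sup_of_Gam h) hin'
  · exfalso
    apply hin'
    rintro r ⟨hrD, hrN⟩
    obtain ⟨i, hi⟩ := hD ⟨r, hrD⟩
    have hi : r ^ p ^ i = 1 := congrArg Subtype.val hi
    exact Inn.inn_of_noaut hp2 hd hg h hπ hk hrN hi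
  rintro R hRD hn e he heR hbr ⟨z, hz, hzF, hez⟩ hez'
  have hR : IsPGroup p R := hD.to_le hRD
  have hRn : Nat.card R ≤ n :=
    (Nat.card_le_card_of_injective _ (Subgroup.inclusion_injective hRD)).trans hDn
  have hRN : ∀ r ∈ R, r ∈ Subgroup.normalizer (L : Set G) := by
    intro r hr
    rw [Subgroup.mem_normalizer_iff]
    intro s
    constructor
    · exact hn r hr s
    · intro hs
      have := hn r⁻¹ (R.inv_mem hr) _ hs
      simpa [mul_assoc] using this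
  -- `R` centralises `L ⊓ R`
  have hcomm : ∀ r ∈ R, ∀ x ∈ L ⊓ R, r * x = x * r := by
    rintro r hr x ⟨hxL, hxR⟩
    have h1 := hcen (L.normalizerMonoidHom ⟨r, hRN r hr⟩) ⟨⟨r, hRN r hr⟩, hRD hr, rfl⟩
      ⟨x, hxL⟩ (hRD hxR)
    have h2 : (((L.normalizerMonoidHom ⟨r, hRN r hr⟩) ⟨x, hxL⟩ * (⟨x, hxL⟩ : L)⁻¹ : L) : G) =
        r * x * r⁻¹ * x⁻¹ := rfl
    set y : L := (L.normalizerMonoidHom ⟨r, hRN r hr⟩) ⟨x, hxL⟩ * (⟨x, hxL⟩ : L)⁻¹ with hy
    have h3 : (y : G) ∈ R := by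
      rw [h2]
      exact R.mul_mem (R.mul_mem (R.mul_mem hr hxR) (R.inv_mem hr)) (R.inv_mem hxR)
    obtain ⟨i, hi⟩ := hR ⟨(y : G), h3⟩
    have h4 : y ^ p ^ i = 1 := by
      apply Subtype.ext
      have h5 : (y : G) ^ p ^ i = 1 := congrArg Subtype.val hi
      rw [Subgroup.coe_pow, h5]
      rfl
    have h6 : y = 1 := cen_quot hg (by omega) hπ hk hL h4 h1
    have h7 : r * x * r⁻¹ * x⁻¹ = 1 := by rw [← h2, h6]; rfl
    calc r * x = r * x * r⁻¹ * x⁻¹ * (x * r) := by group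
      _ = x * r := by rw [h7, one_mul]
  have hcomm' : ∀ x ∈ R, ∀ y ∈ R, y ∈ L → x * y = y * x := fun x hx y hy hyL =>
    hcomm x hx y ⟨hyL, hy⟩
  rcases hA K d π hd hp2 hpK hg hπ hk R hR hRN hcomm' e z he.block hbr hz hzF hez with h1 | h1
  · have hin2 : ∀ r ∈ R, ∃ s ∈ L, ∃ c ∈ Subgroup.centralizer (L : Set G), r = s * c := by
      intro r hr
      obtain ⟨s, hs, c, hc, h⟩ := mem_sup_of_commute
        (fun s hs c hc => Subgroup.mem_centralizer_iff.mp hc s hs) (h1 hr)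
      exact ⟨s, hs, c, hc, h.symm⟩
    have h2 : OneBd k (R.subgroupOf L) C := by
      refine hOL _ (hR.comap_of_injective L.subtype L.subtype_injective) ?_ ?_
      · refine le_trans ?_ hRn
        refine Nat.card_le_card_of_injective
          (fun x : R.subgroupOf L => (⟨((x : L) : G), x.2⟩ : R)) ?_
        intro x y hxy
        have h' : ((x : L) : G) = ((y : L) : G) := congrArg (fun w : R => (w : G)) hxy
        exact Subtype.ext (Subtype.ext h')
      · intro x hx y hy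
        exact Subtype.ext (habG x (hRD hx) x.2 y (hRD hy) y.2)
    obtain ⟨m, f, hf, hsp⟩ := cor_of_one hR hn hin2 he.block heR hbr hz hzF hez hez' h2
    exact ⟨m, f, fun j => ⟨(hf j).1, (hf j).2.1, (hf j).2.2.1,
      (hf j).2.2.2.trans (le_max_left _ _)⟩, hsp⟩
  · obtain ⟨m, f, hf, hsp⟩ := cor_of_cycOn hR h1 hn he.block heR hbr ⟨z, hz, hzF, hez⟩ hez'
    exact ⟨m, f, fun j => ⟨(hf j).1, (hf j).2.1, (hf j).2.2.1,
      ((hf j).2.2.2.trans (cycB_mono hRn)).trans (le_max_right _ _)⟩, hsp⟩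

end Vale.Agent.P180.H568
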