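import Vale.Agent.P180.H393.Pv

/-!
P180 H568: isomorphisms `A × B ≃ A' × B'` modulo the parabolic subgroups.
-/

set_option linter.all false

namespace Vale.Agent.P180.H568.Dc

open Vale.Agent.P180.H393 Module Finset

universe u

section Adapted

variable {F : Type} [Field F]
variable {W : Type} [AddCommGroup W] [Module F W] [FiniteDimensional F W]

theorem rel_compl (L X : Submodule F W) (h : L ≤ X) (C : Submodule F W) (hC : IsCompl L C) :
    L ⊔ C ⊓ X = X ∧ L ⊓ (C ⊓ X) = ⊥ := by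
  constructor
  · rw [← sup_inf_assoc_of_le C h, hC.sup_eq_top, top_inf_eq]
  · rw [← inf_assoc, hC.inf_eq_bot, bot_inf_eq]

theorem exists_adapted (X Y : Submodule F W) {i j k l : ℕ}
    (hl : finrank F (X ⊓ Y : Submodule F W) = l) (hX : finrank F X = k + l)
    (hY : finrank F Y = j + l) (hW : finrank F W = i + j + k + l) :
    ∃ θ : W ≃ₗ[F] (((Fin i → F) × (Fin k → F)) × ((Fin j → F) × (Fin l → F))),
      (∀ w, w ∈ Y ↔ (θ w).1 = 0) ∧ (∀ w, w ∈ X ↔ (θ w).1.1 = 0 ∧ (θ w).2.1 = 0) := by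
  obtain ⟨C, hC⟩ := Submodule.exists_isCompl (X ⊓ Y)
  obtain ⟨hK1, hK2⟩ := rel_compl (X ⊓ Y) X inf_le_left C hC
  obtain ⟨hJ1, hJ2⟩ := rel_compl (X ⊓ Y) Y inf_le_right C hC
  obtain ⟨I, hI⟩ := Submodule.exists_isCompl (X ⊔ Y)
  set L := X ⊓ Y with hL
  set K := C ⊓ X with hK
  set J := C ⊓ Y with hJ
  have dK : finrank F K = k := by
    have := Submodule.finrank_sup_add_finrank_inf_eq L K
    rw [hK1, hK2, finrank_bot] at this
    omega
  have dJ : finrank F J = j := by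
    have := Submodule.finrank_sup_add_finrank_inf_eq L J
    rw [hJ1, hJ2, finrank_bot] at this
    omega
  have dI : finrank F I = i := by
    have h1 := Submodule.finrank_sup_add_finrank_inf_eq X Y
    have h2 := Submodule.finrank_sup_add_finrank_inf_eq (X ⊔ Y) I
    rw [hI.sup_eq_top, hI.inf_eq_bot, finrank_bot, finrank_top] at h2
    rw [← hL] at h1
    omega
  let eI : (Fin i → F) ≃ₗ[F] I := LinearEquiv.ofFinrankEq _ _ (by rw [finrank_fin_fun, dI])
  let eJ : (Fin j → F) ≃ₗ[F] J := LinearEquiv.ofFinrankEq _ _ (by rw [finrank_fin_fun, dJ])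
  let eK : (Fin k → F) ≃ₗ[F] K := LinearEquiv.ofFinrankEq _ _ (by rw [finrank_fin_fun, dK])
  let eL : (Fin l → F) ≃ₗ[F] L := LinearEquiv.ofFinrankEq _ _ (by rw [finrank_fin_fun, hl])
  let Φ : (((Fin i → F) × (Fin k → F)) × ((Fin j → F) × (Fin l → F))) →ₗ[F] W :=
    ((I.subtype ∘ₗ (eI : _ →ₗ[F] I)).coprod (K.subtype ∘ₗ (eK : _ →ₗ[F] K))).coprod
    ((J.subtype ∘ₗ (eJ : _ →ₗ[F] J)).coprod (L.subtype ∘ₗ (eL : _ →ₗ[F] L)))
  have hΦ : ∀ a b c d, Φ ((a, b), (c, d)) = ((eI a : W) + eK b) + ((eJ c : W) + eL d) := by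
    intro a b c d; rfl
  have rng : ∀ w, w ∈ Y → ∃ c d, Φ ((0, 0), (c, d)) = w := by
    intro w hw
    rw [← hJ1, sup_comm] at hw
    obtain ⟨c, hc, d, hd, rfl⟩ := Submodule.mem_sup.1 hw
    refine ⟨eJ.symm ⟨c, hc⟩, eL.symm ⟨d, hd⟩, ?_⟩
    rw [hΦ]; simp
  have rngX : ∀ w, w ∈ X → ∃ b d, Φ ((0, b), (0, d)) = w := by
    intro w hw
    rw [← hK1, sup_comm] at hw
    obtain ⟨c, hc, d, hd, rfl⟩ := Submodule.mem_sup.1 hw
    refine ⟨eK.symm ⟨c, hc⟩, eL.symm ⟨d, hd⟩, ?_⟩
    rw [hΦ]; simp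
  have hsurj : Function.Surjective Φ := by
    intro w
    have hw : w ∈ (X ⊔ Y) ⊔ I := by rw [hI.sup_eq_top]; trivial
    obtain ⟨u, hu, v, hv, rfl⟩ := Submodule.mem_sup.1 hw
    obtain ⟨x, hx, y, hy, rfl⟩ := Submodule.mem_sup.1 hu
    obtain ⟨b, d, rfl⟩ := rngX x hx
    obtain ⟨c, d', rfl⟩ := rng y hy
    refine ⟨((eI.symm ⟨v, hv⟩, b), (c, d + d')), ?_⟩
    rw [hΦ, hΦ, hΦ]
    simp only [map_zero, map_add, Submodule.coe_zero, Submodule.coe_add,
      LinearEquiv.apply_symm_apply]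
    abel
  have hfin : finrank F (((Fin i → F) × (Fin k → F)) × ((Fin j → F) × (Fin l → F)))
      = finrank F W := by
    rw [finrank_prod, finrank_prod, finrank_prod, finrank_fin_fun, finrank_fin_fun,
      finrank_fin_fun, finrank_fin_fun, hW]
    omega
  have hinj : Function.Injective Φ :=
    (LinearMap.injective_iff_surjective_of_finrank_eq_finrank hfin).2 hsurj
  let E := LinearEquiv.ofBijective Φ ⟨hinj, hsurj⟩
  have hE : ∀ v, E v = Φ v := fun v => rfl
  have key : ∀ w, Φ (E.symm w) = w := fun w => by rw [← hE]; simp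
  refine ⟨E.symm, fun w => ⟨fun hw => ?_, fun hw => ?_⟩, fun w => ⟨fun hw => ?_, fun hw => ?_⟩⟩
  · obtain ⟨c, d, h1⟩ := rng w hw
    have h2 : E.symm w = ((0, 0), (c, d)) := hinj (by rw [key, h1])
    rw [h2]; rfl
  · have h1 := key w
    rcases hv : E.symm w with ⟨⟨a, b⟩, ⟨c, d⟩⟩
    rw [hv] at h1 hw
    obtain ⟨rfl, rfl⟩ : a = 0 ∧ b = 0 := by simpa using hw
    rw [← h1, hΦ]
    simp only [map_zero, Submodule.coe_zero, zero_add]
    exact Y.add_mem (eJ c).2.2 (eL d).2.2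
  · obtain ⟨b, d, h1⟩ := rngX w hw
    have h2 : E.symm w = ((0, b), (0, d)) := hinj (by rw [key, h1])
    rw [h2]; exact ⟨rfl, rfl⟩
  · have h1 := key w
    rcases hv : E.symm w with ⟨⟨a, b⟩, ⟨c, d⟩⟩
    rw [hv] at h1 hw
    obtain ⟨rfl, rfl⟩ : a = 0 ∧ c = 0 := by simpa using hw
    rw [← h1, hΦ]
    simp only [map_zero, Submodule.coe_zero, zero_add]
    exact X.add_mem (eK b).2.2 (eL d).2.1

end Adapted

section PB

variable {F : Type} [Field F]
variable {A B A' B' : Type} [AddCommGroup A] [Module F A] [AddCommGroup B] [Module F B]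
  [AddCommGroup A'] [Module F A'] [AddCommGroup B'] [Module F B']
  [Finite A] [Finite B] [Finite A'] [Finite B']

theorem mem_PB {g : (A × B) ≃ₗ[F] (A × B)} (h : ∀ y, (g (0, y)).1 = 0) : g ∈ PB A B := by
  let b0 : B →ₗ[F] B := LinearMap.snd F A B ∘ₗ (g : (A × B) →ₗ[F] (A × B)) ∘ₗ LinearMap.inr F A B
  let a0 : A →ₗ[F] A := LinearMap.fst F A B ∘ₗ (g : (A × B) →ₗ[F] (A × B)) ∘ₗ LinearMap.inl F A B
  let f : A →ₗ[F] B := LinearMap.snd F A B ∘ₗ (g : (A × B) →ₗ[F] (A × B)) ∘ₗ LinearMap.inl F A B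
  have hb : Function.Injective b0 := by
    rw [← LinearMap.ker_eq_bot, LinearMap.ker_eq_bot']
    intro y hy
    have h1 : g (0, y) = 0 := Prod.ext (h y) hy
    have h2 : ((0, y) : A × B) = 0 := by simpa using h1
    exact (Prod.ext_iff.1 h2).2
  have hb' : Function.Surjective b0 := Finite.surjective_of_injective hb
  have ha' : Function.Surjective a0 := by
    intro x
    obtain ⟨⟨u, v⟩, huv⟩ := g.surjective (x, 0)
    refine ⟨u, ?_⟩
    change (g (u, 0)).1 = x
    have h1 : g (u, v) = g (u, 0) + g (0, v) := by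
      rw [← map_add]; simp
    rw [h1] at huv
    have h2 := (Prod.ext_iff.1 huv).1
    rw [Prod.fst_add, h v, add_zero] at h2
    exact h2
  have ha : Function.Injective a0 := Finite.injective_iff_surjective.2 ha'
  refine ⟨LinearEquiv.ofBijective a0 ⟨ha, ha'⟩, LinearEquiv.ofBijective b0 ⟨hb, hb'⟩, f, ?_⟩
  apply LinearEquiv.ext
  rintro ⟨x, y⟩
  rw [sk_apply]
  have h1 : g (x, y) = g (x, 0) + g (0, y) := by
    rw [← map_add]; simp
  rw [h1]
  refine Prod.ext ?_ ?_
  · change (g (x, 0)).1 + (g (0, y)).1 = (g (x, 0)).1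
    rw [h y, add_zero]
  · change (g (x, 0)).2 + (g (0, y)).2 = (g (0, y)).2 + (g (x, 0)).2
    rw [add_comm]

theorem of_mem_PB {g : (A × B) ≃ₗ[F] (A × B)} (h : g ∈ PB A B) (y : B) : (g (0, y)).1 = 0 := by
  obtain ⟨a, b, f, rfl⟩ := h
  rw [sk_apply]; simp

variable (F A B) in
/-- the subspace `0 × B` -/
def low : Submodule F (A × B) := LinearMap.ker (LinearMap.fst F A B)

theorem mem_low (x : A × B) : x ∈ low F A B ↔ x.1 = 0 := by
  rw [low, LinearMap.mem_ker, LinearMap.fst_apply]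

theorem mem_PB_iff {g : (A × B) ≃ₗ[F] (A × B)} :
    g ∈ PB A B ↔ ∀ x, x ∈ low F A B → g x ∈ low F A B := by
  constructor
  · rintro h ⟨x, y⟩ hx
    rw [mem_low] at hx ⊢
    obtain rfl : x = 0 := hx
    exact of_mem_PB h y
  · intro h
    apply mem_PB
    intro y
    have := h (0, y) (by rw [mem_low])
    rwa [mem_low] at this

theorem finrank_low : finrank F (low F A B) = finrank F B := by
  have : Module.Finite F A := Module.Finite.of_finite
  have : Module.Finite F B := Module.Finite.of_finite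
  have h1 := LinearMap.finrank_range_add_finrank_ker (LinearMap.fst F A B)
  rw [LinearMap.range_eq_top.2 LinearMap.fst_surjective, finrank_top, finrank_prod] at h1
  change finrank F A + finrank F (low F A B) = _ at h1
  omega

/-- the invariant of a double coset -/
noncomputable def lev (h : (A × B) ≃ₗ[F] (A' × B')) : ℕ :=
  finrank F ((low F A B).map (h : (A × B) →ₗ[F] (A' × B')) ⊓ low F A' B' : Submodule F (A' × B'))

theorem finrank_map_low (h : (A × B) ≃ₗ[F] (A' × B')) :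
    finrank F ((low F A B).map (h : (A × B) →ₗ[F] (A' × B'))) = finrank F B := by
  rw [LinearEquiv.finrank_map_eq h, finrank_low]

theorem lev_le (h : (A × B) ≃ₗ[F] (A' × B')) : lev h ≤ finrank F B ∧ lev h ≤ finrank F B' ∧
    finrank F B + finrank F B' ≤ lev h + finrank F (A' × B') := by
  have : Module.Finite F A' := Module.Finite.of_finite
  have : Module.Finite F B' := Module.Finite.of_finite
  refine ⟨?_, ?_, ?_⟩
  · rw [← finrank_map_low h]
    exact Submodule.finrank_mono inf_le_left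
  · rw [← finrank_low (F := F) (A := A') (B := B')]
    exact Submodule.finrank_mono inf_le_right
  · have h1 := Submodule.finrank_sup_add_finrank_inf_eq
      ((low F A B).map (h : (A × B) →ₗ[F] (A' × B'))) (low F A' B')
    rw [finrank_map_low, finrank_low] at h1
    have h2 := Submodule.finrank_le
      ((low F A B).map (h : (A × B) →ₗ[F] (A' × B')) ⊔ low F A' B')
    change _ + lev h = _ at h1
    omega

theorem exists_orbit {h h' : (A × B) ≃ₗ[F] (A' × B')} (hl : lev h = lev h') :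
    ∃ p ∈ PB (F := F) A B, ∃ p' ∈ PB (F := F) A' B', h' = (p.trans h).trans p' := by
  have : Module.Finite F A' := Module.Finite.of_finite
  have : Module.Finite F B' := Module.Finite.of_finite
  obtain ⟨h1, h2, h3⟩ := lev_le h
  obtain ⟨k, hk⟩ : ∃ k, finrank F B = k + lev h := ⟨finrank F B - lev h, by omega⟩
  obtain ⟨j, hj⟩ : ∃ j, finrank F B' = j + lev h := ⟨finrank F B' - lev h, by omega⟩
  obtain ⟨i, hi⟩ : ∃ i, finrank F (A' × B') = i + j + k + lev h :=
    ⟨finrank F (A' × B') - (j + k + lev h), by omega⟩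
  obtain ⟨θ, hθ1, hθ2⟩ := exists_adapted ((low F A B).map (h : (A × B) →ₗ[F] (A' × B')))
    (low F A' B') (i := i) (j := j) (k := k) (l := lev h) rfl (by rw [finrank_map_low, hk])
    (by rw [finrank_low, hj]) hi
  obtain ⟨θ', hθ1', hθ2'⟩ := exists_adapted ((low F A B).map (h' : (A × B) →ₗ[F] (A' × B')))
    (low F A' B') (i := i) (j := j) (k := k) (l := lev h) hl.symm (by rw [finrank_map_low, hk])
    (by rw [finrank_low, hj]) hi
  let p' : (A' × B') ≃ₗ[F] (A' × B') := θ.trans θ'.symm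
  let p : (A × B) ≃ₗ[F] (A × B) := (h'.trans p'.symm).trans h.symm
  refine ⟨p, ?_, p', ?_, ?_⟩
  · rw [mem_PB_iff]
    intro x hx
    have h4 : h' x ∈ (low F A B).map (h' : (A × B) →ₗ[F] (A' × B')) := ⟨x, hx, rfl⟩
    rw [hθ2'] at h4
    have h5 : θ (p'.symm (h' x)) = θ' (h' x) := by
      change θ (θ.symm (θ' (h' x))) = _
      rw [LinearEquiv.apply_symm_apply]
    rw [← h5] at h4
    rw [← hθ2] at h4
    obtain ⟨y, hy, hyx⟩ := h4
    change h.symm (p'.symm (h' x)) ∈ _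
    rw [← hyx]
    change h.symm (h y) ∈ _
    rw [LinearEquiv.symm_apply_apply]
    exact hy
  · rw [mem_PB_iff]
    intro x hx
    rw [hθ1] at hx
    rw [hθ1']
    change (θ' (θ'.symm (θ x))).1 = 0
    rw [LinearEquiv.apply_symm_apply]
    exact hx
  · apply LinearEquiv.ext
    intro x
    change h' x = p' (h (h.symm (p'.symm (h' x))))
    simp

/-- the invariant is constant on double cosets -/
theorem lev_orbit (h : (A × B) ≃ₗ[F] (A' × B')) {p : (A × B) ≃ₗ[F] (A × B)}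
    (hp : p ∈ PB (F := F) A B) {p' : (A' × B') ≃ₗ[F] (A' × B')} (hp' : p' ∈ PB (F := F) A' B') :
    lev ((p.trans h).trans p') = lev h := by
  have e1 : ∀ {C D : Type} [AddCommGroup C] [Module F C] [AddCommGroup D] [Module F D] [Finite C]
      [Finite D] {q : (C × D) ≃ₗ[F] (C × D)} (hq : q ∈ PB (F := F) C D),
      (low F C D).map (q : (C × D) →ₗ[F] (C × D)) = low F C D := by
    intro C D _ _ _ _ _ _ q hq
    apply le_antisymm
    · rintro _ ⟨x, hx, rfl⟩
      exact mem_PB_iff.1 hq x hx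
    · intro x hx
      refine ⟨q⁻¹ x, mem_PB_iff.1 (inv_mem hq) x hx, ?_⟩
      exact q.apply_symm_apply x
  have e2 : (low F A B).map (((p.trans h).trans p' : (A × B) ≃ₗ[F] (A' × B')) :
      (A × B) →ₗ[F] (A' × B')) ⊓ low F A' B' =
      ((low F A B).map (h : (A × B) →ₗ[F] (A' × B')) ⊓ low F A' B').map
        (p' : (A' × B') →ₗ[F] (A' × B')) := by
    rw [Submodule.map_inf _ p'.injective, e1 hp']
    congr 1
    rw [LinearEquiv.coe_trans, LinearEquiv.coe_trans, Submodule.map_comp, Submodule.map_comp,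
      e1 hp]
  rw [lev, lev, e2, LinearEquiv.finrank_map_eq p']

/-- the stabiliser of an isomorphism under the two parabolic subgroups -/
def Pt (h : (A × B) ≃ₗ[F] (A' × B')) : Subgroup ((A × B) ≃ₗ[F] (A × B)) :=
  PB A B ⊓ (PB A' B').comap (cg h).toMonoidHom

theorem mem_Pt {h : (A × B) ≃ₗ[F] (A' × B')} {x : (A × B) ≃ₗ[F] (A × B)} :
    x ∈ Pt h ↔ x ∈ PB (F := F) A B ∧ cg h x ∈ PB (F := F) A' B' := Iff.rfl

theorem card_dc (h₀ : (A × B) ≃ₗ[F] (A' × B')) :
    Nat.card {h : (A × B) ≃ₗ[F] (A' × B') // lev h = lev h₀} * Nat.card (Pt h₀) =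
      Nat.card (PB (F := F) A B) * Nat.card (PB (F := F) A' B') := by
  have hex : ∀ h : {h : (A × B) ≃ₗ[F] (A' × B') // lev h = lev h₀},
      ∃ p : PB (F := F) A B, ∃ p' : PB (F := F) A' B', h.1 = (p.1.trans h₀).trans p'.1 := by
    intro h
    obtain ⟨p, hp, p', hp', he⟩ := exists_orbit (h := h₀) (h' := h.1) h.2.symm
    exact ⟨⟨p, hp⟩, ⟨p', hp'⟩, he⟩
  choose s s' hs using hex
  let φ : PB (F := F) A B → PB (F := F) A' B' → {h : (A × B) ≃ₗ[F] (A' × B') // lev h = lev h₀} :=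
    fun p p' => ⟨(p.1.trans h₀).trans p'.1, lev_orbit h₀ p.2 p'.2⟩
  -- the fibres
  have key : ∀ p p', (s' (φ p p')).1⁻¹ * p'.1 = cg h₀ ((s (φ p p')).1 * p.1⁻¹) := by
    intro p p'
    have h1 := hs (φ p p')
    change (p.1.trans h₀).trans p'.1 = _ at h1
    rw [inv_mul_eq_iff_eq_mul]
    apply LinearEquiv.ext
    intro x
    have h2 := congrArg (fun g : (A × B) ≃ₗ[F] (A' × B') => g (p.1⁻¹ (h₀.symm x))) h1
    change p'.1 (h₀ (p.1 (p.1⁻¹ (h₀.symm x)))) =
      (s' (φ p p')).1 (h₀ ((s (φ p p')).1 (p.1⁻¹ (h₀.symm x)))) at h2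
    have h3 : p.1 (p.1⁻¹ (h₀.symm x)) = h₀.symm x := p.1.apply_symm_apply _
    rw [h3, LinearEquiv.apply_symm_apply] at h2
    exact h2
  have e : (PB (F := F) A B × PB (F := F) A' B') ≃
      ({h : (A × B) ≃ₗ[F] (A' × B') // lev h = lev h₀} × Pt h₀) :=
    { toFun := fun x => (φ x.1 x.2, ⟨(s (φ x.1 x.2)).1 * x.1.1⁻¹,
        (PB (F := F) A B).mul_mem (s (φ x.1 x.2)).2 ((PB (F := F) A B).inv_mem x.1.2), by
          change cg h₀ _ ∈ PB (F := F) A' B'
          rw [← key]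
          exact mul_mem (inv_mem (s' _).2) x.2.2⟩)
      invFun := fun y => (⟨y.2.1⁻¹ * (s y.1).1, (PB (F := F) A B).mul_mem
          ((PB (F := F) A B).inv_mem (mem_Pt.1 y.2.2).1) (s y.1).2⟩,
        ⟨(s' y.1).1 * cg h₀ y.2.1, (PB (F := F) A' B').mul_mem (s' y.1).2 (mem_Pt.1 y.2.2).2⟩)
      left_inv := by
        rintro ⟨p, p'⟩
        refine Prod.ext (Subtype.ext ?_) (Subtype.ext ?_)
        · change ((s (φ p p')).1 * p.1⁻¹)⁻¹ * (s (φ p p')).1 = p.1
          group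
        · change (s' (φ p p')).1 * cg h₀ ((s (φ p p')).1 * p.1⁻¹) = p'.1
          rw [← key]
          group
      right_inv := by
        rintro ⟨h, x⟩
        have h1 : φ ⟨x.1⁻¹ * (s h).1, (PB (F := F) A B).mul_mem
            ((PB (F := F) A B).inv_mem (mem_Pt.1 x.2).1) (s h).2⟩
            ⟨(s' h).1 * cg h₀ x.1, (PB (F := F) A' B').mul_mem (s' h).2 (mem_Pt.1 x.2).2⟩
              = h := by
          apply Subtype.ext
          rw [hs h]
          apply LinearEquiv.ext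
          intro z
          change (s' h).1 (h₀ (x.1 (h₀.symm (h₀ (x.1⁻¹ ((s h).1 z)))))) =
            (s' h).1 (h₀ ((s h).1 z))
          rw [LinearEquiv.symm_apply_apply]
          congr 2
          exact x.1.apply_symm_apply _
        refine Prod.ext h1 (Subtype.ext ?_)
        change (s (φ _ _)).1 * (x.1⁻¹ * (s h).1)⁻¹ = x.1
        rw [h1]
        group }
  rw [← Nat.card_prod, ← Nat.card_prod, Nat.card_congr e]

/-- **Sums over double cosets.** -/
theorem sum_dc {K : Type u} [Field K] [CharZero K] {ι : Type*} (T : Finset ι)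
    (ht : ι → ((A × B) ≃ₗ[F] (A' × B')))
    (hinj : ∀ t ∈ T, ∀ t' ∈ T, lev (ht t) = lev (ht t') → t = t')
    (hsurj : ∀ h : (A × B) ≃ₗ[F] (A' × B'), ∃ t ∈ T, lev (ht t) = lev h)
    (G : ((A × B) ≃ₗ[F] (A' × B')) → K)
    (hG : ∀ p ∈ PB (F := F) A B, ∀ p' ∈ PB (F := F) A' B', ∀ h,
      G ((p.trans h).trans p') = G h) :
    (cP F A B : K)⁻¹ * (cP F A' B' : K)⁻¹ * ∑ h, G h =
      ∑ t ∈ T, (Nat.card (Pt (ht t)) : K)⁻¹ * G (ht t) := by
  classical
  have h1 : ∑ h, G h = ∑ t ∈ T, ∑ h, if lev h = lev (ht t) then G h else 0 := by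
    rw [Finset.sum_comm]
    refine Finset.sum_congr rfl fun h _ => ?_
    obtain ⟨t, htT, htl⟩ := hsurj h
    rw [Finset.sum_eq_single_of_mem t htT, if_pos htl.symm]
    intro t' ht' hne
    rw [if_neg]
    intro hc
    exact hne (hinj t' ht' t htT (by rw [← hc, htl]))
  rw [h1, Finset.mul_sum]
  refine Finset.sum_congr rfl fun t _ => ?_
  have h2 : ∀ h, (if lev h = lev (ht t) then G h else 0) =
      if lev h = lev (ht t) then G (ht t) else 0 := by
    intro h
    split_ifs with hl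
    · obtain ⟨p, hp, p', hp', rfl⟩ := exists_orbit (h := ht t) (h' := h) hl.symm
      exact hG p hp p' hp' _
    · rfl
  rw [Finset.sum_congr rfl fun h _ => h2 h, ← Finset.sum_filter, Finset.sum_const, nsmul_eq_mul]
  have h3 : ((Finset.univ.filter fun h : (A × B) ≃ₗ[F] (A' × B') => lev h = lev (ht t)).card : K) *
      (Nat.card (Pt (ht t)) : K) = (cP F A B : K) * (cP F A' B' : K) := by
    rw [← card_PB, ← card_PB, ← Nat.cast_mul, ← Nat.cast_mul, ← card_dc (ht t)]
    congr 2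
    rw [Nat.card_eq_fintype_card, Fintype.card_subtype]
  have h4 : (Nat.card (Pt (ht t)) : K) ≠ 0 := card_ne' _
  have h5 : (cP F A B : K) ≠ 0 := by rw [← card_PB]; exact card_ne' _
  have h6 : (cP F A' B' : K) ≠ 0 := by rw [← card_PB]; exact card_ne' _
  rw [← mul_assoc]
  congr 1
  rw [eq_comm, inv_eq_iff_eq_inv] 
  field_simp
  rw [← h3]
  ring

end PB

section Swap

variable {F : Type} [Field F]
variable {A B A' B' A₁ A₂ B₁ B₂ : Type} [AddCommGroup A] [Module F A] [AddCommGroup B]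
  [Module F B] [AddCommGroup A'] [Module F A'] [AddCommGroup B'] [Module F B']
  [AddCommGroup A₁] [Module F A₁] [AddCommGroup A₂] [Module F A₂]
  [AddCommGroup B₁] [Module F B₁] [AddCommGroup B₂] [Module F B₂]
  [Finite A] [Finite B] [Finite A'] [Finite B'] [Finite A₁] [Finite A₂] [Finite B₁] [Finite B₂]

/-- the representative of a double coset -/
noncomputable def sw (eA : A ≃ₗ[F] (A₁ × A₂)) (eB : B ≃ₗ[F] (B₁ × B₂)) (eA' : A' ≃ₗ[F] (A₁ × B₁))
    (eB' : B' ≃ₗ[F] (A₂ × B₂)) : (A × B) ≃ₗ[F] (A' × B') :=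
  ((eA.prodCongr eB).trans (LinearEquiv.prodProdProdComm F A₁ A₂ B₁ B₂)).trans
    (eA'.prodCongr eB').symm

theorem lev_sw (eA : A ≃ₗ[F] (A₁ × A₂)) (eB : B ≃ₗ[F] (B₁ × B₂)) (eA' : A' ≃ₗ[F] (A₁ × B₁))
    (eB' : B' ≃ₗ[F] (A₂ × B₂)) : lev (sw eA eB eA' eB') = finrank F B₂ := by
  let j : B₂ →ₗ[F] (A' × B') := LinearMap.inr F A' B' ∘ₗ (eB'.symm : (A₂ × B₂) →ₗ[F] B') ∘ₗ
    LinearMap.inr F A₂ B₂
  have hj : Function.Injective j := by
    intro x y hxy
    have h1 : eB'.symm (0, x) = eB'.symm (0, y) := (Prod.ext_iff.1 hxy).2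
    exact (Prod.ext_iff.1 (eB'.symm.injective h1)).2
  have e1 : ∀ x : A × B, sw eA eB eA' eB' x =
      (eA'.symm ((eA x.1).1, (eB x.2).1), eB'.symm ((eA x.1).2, (eB x.2).2)) := fun x => rfl
  have e2 : ((low F A B).map ((sw eA eB eA' eB' : (A × B) ≃ₗ[F] (A' × B')) :
      (A × B) →ₗ[F] (A' × B')) ⊓ low F A' B' : Submodule F (A' × B')) = LinearMap.range j := by
    ext z
    rw [Submodule.mem_inf]
    constructor
    · rintro ⟨⟨x, hx, rfl⟩, hz⟩
      rw [SetLike.mem_coe, mem_low] at hx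
      rw [mem_low] at hz
      refine ⟨(eB x.2).2, ?_⟩
      change _ = sw eA eB eA' eB' x
      change (sw eA eB eA' eB' x).1 = 0 at hz
      rw [e1] at hz ⊢
      refine Prod.ext hz.symm ?_
      change eB'.symm (0, (eB x.2).2) = eB'.symm ((eA x.1).2, (eB x.2).2)
      rw [hx, map_zero]
      rfl
    · rintro ⟨y, rfl⟩
      refine ⟨⟨(0, eB.symm (0, y)), ?_, ?_⟩, ?_⟩
      · rw [SetLike.mem_coe, mem_low]
      · change sw eA eB eA' eB' _ = _
        rw [e1]
        refine Prod.ext ?_ ?_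
        · change eA'.symm ((eA 0).1, (eB (eB.symm (0, y))).1) = 0
          rw [map_zero, LinearEquiv.apply_symm_apply]
          exact map_zero _
        · change eB'.symm ((eA 0).2, (eB (eB.symm (0, y))).2) = eB'.symm (0, y)
          rw [map_zero, LinearEquiv.apply_symm_apply]
          rfl
      · rw [mem_low]; rfl
  rw [lev, e2, LinearMap.finrank_range_of_inj hj]

end Swap

section Val

variable {F : Type} [Field F]
variable {A B A' B' : Type} [AddCommGroup A] [Module F A] [AddCommGroup B] [Module F B]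
  [AddCommGroup A'] [Module F A'] [AddCommGroup B'] [Module F B']
  [Finite A] [Finite B] [Finite A'] [Finite B'] [Finite F]

theorem exists_prod_equiv (V : Type) [AddCommGroup V] [Module F V] [Finite V] {i j : ℕ}
    (h : finrank F V = i + j) : Nonempty (V ≃ₗ[F] ((Fin i → F) × (Fin j → F))) := by
  have : Module.Finite F V := Module.Finite.of_finite
  exact ⟨LinearEquiv.ofFinrankEq _ _ (by
    rw [h, finrank_prod, finrank_fin_fun, finrank_fin_fun])⟩

/-- the types of double cosets -/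
def QQ (N a b a' b' : ℕ) : Finset (ℕ × ℕ × ℕ × ℕ) :=
  ((range (N + 1)) ×ˢ ((range (N + 1)) ×ˢ ((range (N + 1)) ×ˢ (range (N + 1))))).filter fun t =>
    t.1 + t.2.1 = a ∧ t.2.2.1 + t.2.2.2 = b ∧ t.1 + t.2.2.1 = a' ∧ t.2.1 + t.2.2.2 = b'

/-- **The double coset formula.** -/
theorem sum_dc_val {K : Type u} [Field K] [CharZero K]
    (G : ((A × B) ≃ₗ[F] (A' × B')) → K)
    (hG : ∀ p ∈ PB (F := F) A B, ∀ p' ∈ PB (F := F) A' B', ∀ h,
      G ((p.trans h).trans p') = G h) (Val : ℕ → ℕ → ℕ → ℕ → K)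
    (hVal : ∀ (i j k l : ℕ) (eA : A ≃ₗ[F] ((Fin i → F) × (Fin j → F)))
      (eB : B ≃ₗ[F] ((Fin k → F) × (Fin l → F))) (eA' : A' ≃ₗ[F] ((Fin i → F) × (Fin k → F)))
      (eB' : B' ≃ₗ[F] ((Fin j → F) × (Fin l → F))),
      (Nat.card (Pt (sw eA eB eA' eB')) : K)⁻¹ * G (sw eA eB eA' eB') = Val i j k l)
    (he : finrank F A + finrank F B = finrank F A' + finrank F B') {N : ℕ}
    (hN : finrank F A + finrank F B ≤ N) :
    (cP F A B : K)⁻¹ * (cP F A' B' : K)⁻¹ * ∑ h, G h =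
      ∑ t ∈ QQ N (finrank F A) (finrank F B) (finrank F A') (finrank F B'),
        Val t.1 t.2.1 t.2.2.1 t.2.2.2 := by
  classical
  set Q := QQ N (finrank F A) (finrank F B) (finrank F A') (finrank F B') with hQ
  have hQm : ∀ t, t ∈ Q → t.1 + t.2.1 = finrank F A ∧ t.2.2.1 + t.2.2.2 = finrank F B ∧
      t.1 + t.2.2.1 = finrank F A' ∧ t.2.1 + t.2.2.2 = finrank F B' := by
    intro t ht
    rw [hQ, QQ, Finset.mem_filter] at ht
    exact ht.2
  let ht : {t // t ∈ Q} → ((A × B) ≃ₗ[F] (A' × B')) := fun t =>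
    sw (exists_prod_equiv A (hQm t.1 t.2).1.symm).some
      (exists_prod_equiv B (hQm t.1 t.2).2.1.symm).some
      (exists_prod_equiv A' (hQm t.1 t.2).2.2.1.symm).some
      (exists_prod_equiv B' (hQm t.1 t.2).2.2.2.symm).some
  have hlev : ∀ t, lev (ht t) = t.1.2.2.2 := by
    intro t
    rw [lev_sw, finrank_fin_fun]
  have h1 := sum_dc (K := K) Finset.univ ht (by
    intro t _ t' _ h
    rw [hlev, hlev] at h
    have a1 := hQm t.1 t.2
    have a2 := hQm t'.1 t'.2
    apply Subtype.ext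
    refine Prod.ext (by omega) (Prod.ext (by omega) (Prod.ext (by omega) h))) (by
    intro h
    have b1 := lev_le h
    rw [finrank_prod'] at b1
    have hmem : (finrank F A' - (finrank F B - lev h), finrank F B' - lev h,
        finrank F B - lev h, lev h) ∈ Q := by
      rw [hQ, QQ, Finset.mem_filter]
      simp only [Finset.mem_product, Finset.mem_range]
      omega
    exact ⟨⟨_, hmem⟩, Finset.mem_univ _, hlev _⟩) G hG
  rw [h1, ← Finset.sum_coe_sort Q]
  exact Finset.sum_congr rfl fun t _ => hVal _ _ _ _ _ _ _ _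

end Val

end Vale.Agent.P180.H568.Dc
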