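import Vale.Agent.P180.R2.H471.Au11
import Vale.Agent.P180.R2.H365.Def10
import Vale.Agent.P180.H392.DefE

/-!
P180 (v6, row H3, helper568): commutative defect groups act on the quotients of `SL_d(K)` by central
subgroups of order prime to `p` as is asked by `FixE`.
-/

set_option linter.all false

namespace Vale.Agent.P180.H568.FixAb

open Subgroup Vale.Agent.P180 Vale.Agent.P180.R2.H365 Vale.Agent.P180.R2.H471.Au

section Aut

variable {K : Type} [Field K] [Finite K] {d : ℕ} {G : Type} [Group G] {L : Subgroup G}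
  {π : SpecialLinearGroup K (Fin d → K) →* L}

theorem finite_sl : Finite (SpecialLinearGroup K (Fin d → K)) := by
  haveI : Finite ((Fin d → K) ≃ₗ[K] (Fin d → K)) :=
    Finite.of_injective (fun g : (Fin d → K) ≃ₗ[K] (Fin d → K) => (g : (Fin d → K) → Fin d → K))
      DFunLike.coe_injective
  exact Finite.of_injective (fun x : SpecialLinearGroup K (Fin d → K) => x.1)
    Subtype.val_injective

/-- the automorphism of the special linear group -/
theorem exists_aut {r : G} {σ : RingAut K} {g : Equiv.Perm (Fin d → K)} (h : Acts π r σ g) :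
    ∃ β : MulAut (SpecialLinearGroup K (Fin d → K)),
      ∀ s, ((π (β s) : L) : G) = r * (π s : L) * r⁻¹ := by
  classical
  haveI := finite_sl (K := K) (d := d)
  choose f hf using h.2.2.1
  have huniq : ∀ y z : SpecialLinearGroup K (Fin d → K), (∀ v, y (g v) = z (g v)) → y = z := by
    intro y z hyz
    apply Subtype.ext
    apply LinearEquiv.ext
    intro v
    obtain ⟨v, rfl⟩ := g.surjective v
    exact hyz v
  let F : SpecialLinearGroup K (Fin d → K) →* SpecialLinearGroup K (Fin d → K) :=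
    MonoidHom.mk' f (fun x y => huniq _ _ fun v => by
      rw [← hf]
      change g (x (y v)) = f x (f y (g v))
      rw [← hf y, ← hf x])
  have hF : Function.Injective F := by
    intro x y hxy
    apply Subtype.ext
    apply LinearEquiv.ext
    intro v
    apply g.injective
    change g (x v) = g (y v)
    rw [hf x, hf y]
    exact congrArg (fun z : SpecialLinearGroup K (Fin d → K) => z (g v)) hxy
  refine ⟨MulEquiv.ofBijective F (Finite.injective_iff_bijective.mp hF), fun s => ?_⟩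
  exact (h.2.2.2 s (f s) (hf s)).symm

end Aut

section Fix

variable {p : ℕ} [Fact p.Prime] {G : Type} [Group G] {L : Subgroup G}

/-- a `p`-element of a group of order prime to `p` -/
theorem eq_one_of_ker {S : Type} [Group S] [Finite S] {N : Subgroup S} (hN : ¬ p ∣ Nat.card N)
    {x : S} (hx : x ∈ N) {j : ℕ} (hj : x ^ p ^ j = 1) : x = 1 := by
  have hp : p.Prime := Fact.out
  have h1 : (⟨x, hx⟩ : N) ^ p ^ j = 1 := Subtype.ext hj
  obtain ⟨i, -, h2⟩ := (Nat.dvd_prime_pow hp).mp (orderOf_dvd_of_pow_eq_one h1)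
  have h3 : i = 0 := by
    by_contra h0
    apply hN
    have h4 : orderOf (⟨x, hx⟩ : N) ∣ Nat.card N := orderOf_dvd_natCard _
    rw [h2] at h4
    exact (dvd_pow_self p h0).trans h4
  rw [h3, pow_zero, orderOf_eq_one_iff] at h2
  exact congrArg Subtype.val h2

/-- the `p`-elements over `D ∩ L` and the centre -/
theorem mem_of_sup {D : Subgroup G} (hD : IsPGroup p D)
    (hZ : ∀ z ∈ center L, (∃ j : ℕ, z ^ p ^ j = 1) → (z : G) ∈ D) {x : L}
    (hx : x ∈ D.subgroupOf L ⊔ center L) (hxp : ∃ j : ℕ, x ^ p ^ j = 1) : (x : G) ∈ D := by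
  rw [sup_comm, Subgroup.mem_sup_of_normal_left] at hx
  obtain ⟨z, hz, a, ha, rfl⟩ := hx
  have ha' : (a : G) ∈ D := ha
  obtain ⟨i, hi⟩ := hD ⟨(a : G), ha'⟩
  have hai0 : (a : G) ^ p ^ i = 1 := congrArg Subtype.val hi
  have hai : a ^ p ^ i = 1 := Subtype.ext hai0
  obtain ⟨j, hj⟩ := hxp
  have hc : Commute z a := (Subgroup.mem_center_iff.mp hz a).symm
  have hz1 : z ^ p ^ (i + j) = 1 := by
    have h1 : (z * a) ^ p ^ (i + j) = 1 := by
      rw [add_comm, pow_add, pow_mul, hj, one_pow]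
    rw [hc.mul_pow, pow_add p i j, pow_mul a, hai, one_pow, mul_one] at h1
    rw [pow_add]
    exact h1
  exact D.mul_mem (hZ z hz ⟨_, hz1⟩) ha'

variable {K : Type} [Field K] [Finite K] {d : ℕ}
  {π : SpecialLinearGroup K (Fin d → K) →* L}

/-- **Commutative defect groups.** -/
theorem fix_of_abelian (h2 : p ≠ 2) (hd : 3 ≤ d) {D : Subgroup G} (hD : IsPGroup p D)
    (hab : ∀ x ∈ D, ∀ y ∈ D, x * y = y * x)
    (hZ : ∀ z ∈ center L, (∃ j : ℕ, z ^ p ^ j = 1) → (z : G) ∈ D)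
    (hπ : Function.Surjective π) (hk : π.ker ≤ center _) (hkp : ¬ p ∣ Nat.card π.ker) :
    ∀ α ∈ Gam D L, ∃ β : MulAut (SpecialLinearGroup K (Fin d → K)),
      (∀ s, π (β s) = α (π s)) ∧ ∀ s, (∃ j : ℕ, s ^ p ^ j = 1) →
        π s ∈ D.subgroupOf L ⊔ center L → β s = s := by
  classical
  haveI := finite_sl (K := K) (d := d)
  rintro _ ⟨⟨r, hrN⟩, hr, rfl⟩
  have hrD : r ∈ D := hr
  obtain ⟨i, hi⟩ := hD ⟨r, hrD⟩
  have hri : r ^ p ^ i = 1 := congrArg Subtype.val hi
  obtain ⟨σ, g, hg⟩ := exists_acts hd hπ hk hrN (((Fact.out : p.Prime).odd_of_ne_two h2).pow) hri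
  obtain ⟨β, hβ⟩ := exists_aut hg
  refine ⟨β, fun s => Subtype.ext (hβ s), ?_⟩
  rintro s ⟨j, hj⟩ hs
  have h1 : ((π s : L) : G) ∈ D := mem_of_sup hD hZ hs ⟨j, by rw [← map_pow, hj, map_one]⟩
  have h3 : π (β s) = π s := by
    apply Subtype.ext
    rw [hβ, hab r hrD _ h1, mul_inv_cancel_right]
  have h4 : s⁻¹ * β s ∈ π.ker := by
    rw [MonoidHom.mem_ker, map_mul, map_inv, h3, inv_mul_cancel]
  have h5 : Commute s (s⁻¹ * β s) := Subgroup.mem_center_iff.mp (hk h4) s
  have h6 : (s⁻¹ * β s) ^ p ^ j = 1 := by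
    have h7 : (s * (s⁻¹ * β s)) ^ p ^ j = 1 := by
      rw [mul_inv_cancel_left, ← map_pow, hj, map_one]
    rwa [h5.mul_pow, hj, one_mul] at h7
  have h8 := eq_one_of_ker hkp h4 h6
  exact (inv_mul_eq_one.mp h8).symm

/-- the preimage is commutative -/
theorem comm_of_abelian {D : Subgroup G} (hD : IsPGroup p D)
    (hab : ∀ x ∈ D, ∀ y ∈ D, x * y = y * x) (hk : π.ker ≤ center _)
    (hkp : ¬ p ∣ Nat.card π.ker) {x y : SpecialLinearGroup K (Fin d → K)}
    (hx : ((π x : L) : G) ∈ D) (hy : ((π y : L) : G) ∈ D) : x * y * x⁻¹ * y⁻¹ = 1 := by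
  haveI := finite_sl (K := K) (d := d)
  obtain ⟨i, hi⟩ := hD ⟨_, hx⟩
  have hxi0 : ((π x : L) : G) ^ p ^ i = 1 := congrArg Subtype.val hi
  have hxi : π x ^ p ^ i = 1 := Subtype.ext hxi0
  have hc : x * y * x⁻¹ * y⁻¹ ∈ π.ker := by
    rw [MonoidHom.mem_ker, map_mul, map_mul, map_mul, map_inv, map_inv]
    apply Subtype.ext
    have h1 := hab _ hx _ hy
    change ((π x : L) : G) * (π y : L) * ((π x : L) : G)⁻¹ * ((π y : L) : G)⁻¹ = 1
    rw [h1, mul_inv_cancel_right, mul_inv_cancel]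
  have hxc : x ^ p ^ i ∈ center (SpecialLinearGroup K (Fin d → K)) := by
    apply hk
    rw [MonoidHom.mem_ker, map_pow, hxi]
  have hcc := hk hc
  -- `y x⁻¹ y⁻¹ = x⁻¹ c`
  have h1 : y * x * y⁻¹ = (x * y * x⁻¹ * y⁻¹)⁻¹ * x := by group
  have h2 : ∀ n : ℕ, y * x ^ n * y⁻¹ = ((x * y * x⁻¹ * y⁻¹)⁻¹) ^ n * x ^ n := by
    intro n
    have h3 : Commute ((x * y * x⁻¹ * y⁻¹)⁻¹) x :=
      ((Subgroup.mem_center_iff.mp (Subgroup.inv_mem _ hcc) x).symm)
    rw [← h3.mul_pow, ← h1, conj_pow]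
  have h4 := h2 (p ^ i)
  rw [(Subgroup.mem_center_iff.mp hxc y), mul_inv_cancel_right] at h4
  have h5 : ((x * y * x⁻¹ * y⁻¹)⁻¹) ^ p ^ i = 1 :=
    mul_right_cancel (h4.symm.trans (one_mul _).symm)
  have h6 : (x * y * x⁻¹ * y⁻¹) ^ p ^ i = 1 := by rwa [inv_pow, inv_eq_one] at h5
  exact eq_one_of_ker hkp hc h6

/-- the condition on commutators -/
theorem eng_of_abelian {D : Subgroup G} (hD : IsPGroup p D)
    (hab : ∀ x ∈ D, ∀ y ∈ D, x * y = y * x) (hk : π.ker ≤ center _)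
    (hkp : ¬ p ∣ Nat.card π.ker) {r : ℕ} (hr : 1 ≤ r) : Eng r ((D.subgroupOf L).comap π) := by
  intro x hx y hy
  obtain ⟨s, rfl⟩ : ∃ s, r = s + 1 := ⟨r - 1, by omega⟩
  have h1 : x * y * x⁻¹ * y⁻¹ = 1 := comm_of_abelian hD hab hk hkp hx hy
  rw [Function.iterate_succ_apply]
  change (fun t => x * t * x⁻¹ * t⁻¹)^[s] (x * y * x⁻¹ * y⁻¹) = 1
  rw [h1]
  apply Function.iterate_fixed
  change x * 1 * x⁻¹ * 1⁻¹ = 1
  group

/-- the `p`-part of the centre -/
theorem gcd_of_abelian [Finite G] {D : Subgroup G}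
    (hZ : ∀ z ∈ center L, (∃ j : ℕ, z ^ p ^ j = 1) → (z : G) ∈ D) (hd0 : 0 < d)
    (hπ : Function.Surjective π) (hkp : ¬ p ∣ Nat.card π.ker) {j : ℕ}
    (h1 : p ^ j ∣ d) (h2 : p ^ j ∣ Nat.card K - 1) : p ^ j ≤ Nat.card D := by
  classical
  haveI := finite_sl (K := K) (d := d)
  have hp : p.Prime := Fact.out
  -- a scalar of order `p ^ j`
  obtain ⟨a, ha⟩ := IsCyclic.exists_generator (α := Kˣ)
  have hao : orderOf a = Nat.card K - 1 := by
    rw [orderOf_eq_card_of_forall_mem_zpowers ha, Nat.card_units]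
  obtain ⟨t, ht⟩ := h2
  have hq1 : Nat.card K - 1 ≠ 0 := by
    have := Finite.one_lt_card (α := K)
    omega
  have ht0 : t ≠ 0 := by
    rintro rfl
    rw [mul_zero] at ht
    exact hq1 ht
  have hcj : orderOf (a ^ t) = p ^ j := by
    rw [orderOf_pow' a ht0, hao, ht, Nat.gcd_eq_right (Dvd.intro_left _ rfl)]
    exact Nat.mul_div_cancel _ (Nat.pos_of_ne_zero ht0)
  set c : Kˣ := a ^ t with hc
  have hcd : c ^ d = 1 := by
    apply orderOf_dvd_iff_pow_eq_one.mp
    rw [hcj]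
    exact h1
  let g : (Fin d → K) ≃ₗ[K] (Fin d → K) := LinearEquiv.smulOfUnit c
  have hg : ∀ v, g v = (c : K) • v := fun v => rfl
  have hgd : LinearEquiv.det g = 1 := by
    apply Units.ext
    rw [LinearEquiv.coe_det]
    have h3 : (g : (Fin d → K) →ₗ[K] (Fin d → K)) = (c : K) • LinearMap.id := by
      apply LinearMap.ext
      intro v
      exact hg v
    rw [h3, LinearMap.det_smul, LinearMap.det_id, mul_one, Module.finrank_fin_fun,
      ← Units.val_pow_eq_pow_val, hcd]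
  let s : SpecialLinearGroup K (Fin d → K) := ⟨g, hgd⟩
  have hpow : ∀ (n : ℕ) (v : Fin d → K), (s ^ n).1 v = ((c ^ n : Kˣ) : K) • v := by
    intro n
    induction n with
    | zero =>
      intro v
      rw [pow_zero, pow_zero, Units.val_one, one_smul]
      rfl
    | succ n ih =>
      intro v
      rw [pow_succ', pow_succ']
      change g ((s ^ n).1 v) = _
      rw [ih, hg, smul_smul, Units.val_mul]
  have hsc : s ∈ center (SpecialLinearGroup K (Fin d → K)) := by
    rw [Subgroup.mem_center_iff]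
    intro y
    apply Subtype.ext
    apply LinearEquiv.ext
    intro v
    change y.1 (g v) = g (y.1 v)
    rw [hg, hg, map_smul]
  have hs1 : s ^ p ^ j = 1 := by
    apply Subtype.ext
    apply LinearEquiv.ext
    intro v
    rw [hpow, ← hcj, pow_orderOf_eq_one, Units.val_one, one_smul]
    rfl
  have hπs : π s ∈ center L := by
    rw [Subgroup.mem_center_iff]
    intro l
    obtain ⟨y, rfl⟩ := hπ l
    rw [← map_mul, ← map_mul, Subgroup.mem_center_iff.mp hsc y]
  have hD1 : ((π s : L) : G) ∈ D := hZ _ hπs ⟨j, by rw [← map_pow, hs1, map_one]⟩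
  -- the order of `π s`
  have hinj : ∀ n : ℕ, π s ^ n = 1 → c ^ n = 1 := by
    intro n hn
    have h3 : s ^ n ∈ π.ker := by rw [MonoidHom.mem_ker, map_pow, hn]
    have h4 : (s ^ n) ^ p ^ j = 1 := by rw [← pow_mul, mul_comm, pow_mul, hs1, one_pow]
    have h5 := eq_one_of_ker hkp h3 h4
    have h6 := hpow n (fun _ => 1)
    rw [h5] at h6
    have h7 := congrFun h6 ⟨0, hd0⟩
    apply Units.ext
    have h8 : (1 : K) = ((c ^ n : Kˣ) : K) * 1 := h7
    rw [mul_one] at h8
    rw [Units.val_one]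
    exact h8.symm
  have ho : p ^ j ∣ orderOf (⟨(π s : L), hD1⟩ : D) := by
    rw [← hcj]
    apply orderOf_dvd_of_pow_eq_one
    apply hinj
    have h9 := pow_orderOf_eq_one (⟨(π s : L), hD1⟩ : D)
    have h10 : ((π s : L) : G) ^ orderOf (⟨(π s : L), hD1⟩ : D) = 1 := congrArg Subtype.val h9
    exact Subtype.ext h10
  exact Nat.le_of_dvd Nat.card_pos (ho.trans (orderOf_dvd_natCard _))

end Fix

end Vale.Agent.P180.H568.FixAb
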