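import Vale.Agent.P180.H568.FixAb
import Vale.Agent.P180.H392.DefF

/-!
P180 (v6, helper568): the quotients of `SL_d(K)` by central subgroups of order prime to `p` satisfy
`LinF` for all commutative defect groups.
-/

set_option linter.all false

namespace Vale.Agent.P180.H568.FixAb

open Subgroup Vale.Agent.P180 Vale.Agent.P180.R2.H365 Vale.Agent.P180.R2.H471.Au

variable {p : ℕ} [Fact p.Prime] {G : Type} [Group G] [Finite G] {L : Subgroup G}
  {K : Type} [Field K] [Finite K] {d m : ℕ} {π : SpecialLinearGroup K (Fin d → K) →* L}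

/-- **Commutative defect groups.** -/
theorem outF_of_abelian (h2 : p ≠ 2) (hd : 3 ≤ d) {D : Subgroup G} (hD : IsPGroup p D)
    (hDm : Nat.card D ≤ m) (hab : ∀ x ∈ D, ∀ y ∈ D, x * y = y * x)
    (hZ : ∀ z ∈ center L, (∃ j : ℕ, z ^ p ^ j = 1) → (z : G) ∈ D)
    (hπ : Function.Surjective π) (hk : π.ker ≤ center _) (hkp : ¬ p ∣ Nat.card π.ker) :
    OutF p m d K (Fin d → K) L (Gam D L) (D.subgroupOf L) :=
  ⟨π, hπ, hk, eng_of_abelian hD hab hk hkp (le_max_left _ _),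
    Or.inr (Or.inr ⟨h2, fix_of_abelian h2 hd hD hab hZ hπ hk hkp⟩),
    fun j h3 h4 => (gcd_of_abelian hZ (by omega) hπ hkp h3 h4).trans hDm⟩

/-- **Commutative defect groups.** -/
theorem linF_of_abelian (h2 : p ≠ 2) (hd : 3 ≤ d) (hpK : ¬ p ∣ Nat.card K) {D : Subgroup G}
    (hD : IsPGroup p D) (hDm : Nat.card D ≤ m) (hab : ∀ x ∈ D, ∀ y ∈ D, x * y = y * x)
    (hZ : ∀ z ∈ center L, (∃ j : ℕ, z ^ p ^ j = 1) → (z : G) ∈ D)
    (hπ : Function.Surjective π) (hk : π.ker ≤ center _) (hkp : ¬ p ∣ Nat.card π.ker) :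
    LinF p m L (Gam D L) (D.subgroupOf L) :=
  ⟨K, inferInstance, inferInstance, d, hd, hpK, Or.inr (outF_of_abelian h2 hd hD hDm hab hZ hπ hk
    hkp)⟩

end Vale.Agent.P180.H568.FixAb
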