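import Vale.Agent.P180.H568.Dc

/-!
P180 H568: evaluation of the double sum at the representatives of the double cosets.
-/

set_option linter.all false

namespace Vale.Agent.P180.H568.Dc

open Vale.Agent.P180.H393 Module Finset

universe u

section H3

variable {F : Type} [Field F]
variable {A B A' B' A₁ A₂ B₁ B₂ : Type} [AddCommGroup A] [Module F A] [AddCommGroup B]
  [Module F B] [AddCommGroup A'] [Module F A'] [AddCommGroup B'] [Module F B']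
  [AddCommGroup A₁] [Module F A₁] [AddCommGroup A₂] [Module F A₂]
  [AddCommGroup B₁] [Module F B₁] [AddCommGroup B₂] [Module F B₂]

variable (F A₁ A₂ B₁ B₂) in
/-- the nine parameters -/
abbrev DD : Type := (((A₁ ≃ₗ[F] A₁) × (A₂ ≃ₗ[F] A₂)) × ((B₁ ≃ₗ[F] B₁) × (B₂ ≃ₗ[F] B₂))) ×
  ((((A₁ →ₗ[F] A₂) × (B₁ →ₗ[F] B₂)) × ((A₁ →ₗ[F] B₁) × (A₂ →ₗ[F] B₂))) × (A₁ →ₗ[F] B₂))

/-- `(x, y) ↦ (f x, g x + h y)` -/
def dmap {C₁ C₂ E₁ E₂ : Type} [AddCommGroup C₁] [Module F C₁] [AddCommGroup C₂] [Module F C₂]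
    [AddCommGroup E₁] [Module F E₁] [AddCommGroup E₂] [Module F E₂]
    (f : C₁ →ₗ[F] E₁) (g : C₁ →ₗ[F] E₂) (h : C₂ →ₗ[F] E₂) : (C₁ × C₂) →ₗ[F] (E₁ × E₂) :=
  (f ∘ₗ LinearMap.fst F C₁ C₂).prod (g.coprod h)

theorem dmap_apply {C₁ C₂ E₁ E₂ : Type} [AddCommGroup C₁] [Module F C₁] [AddCommGroup C₂]
    [Module F C₂] [AddCommGroup E₁] [Module F E₁] [AddCommGroup E₂] [Module F E₂]
    (f : C₁ →ₗ[F] E₁) (g : C₁ →ₗ[F] E₂) (h : C₂ →ₗ[F] E₂) (x : C₁ × C₂) :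
    dmap f g h x = (f x.1, g x.1 + h x.2) := rfl

/-- the parametrisation of the stabiliser -/
def Psi (eA : A ≃ₗ[F] (A₁ × A₂)) (eB : B ≃ₗ[F] (B₁ × B₂)) (d : DD F A₁ A₂ B₁ B₂) :
    (A × B) ≃ₗ[F] (A × B) :=
  sk (cg eA.symm (sk d.1.1.1 d.1.1.2 d.2.1.1.1)) (cg eB.symm (sk d.1.2.1 d.1.2.2 d.2.1.1.2))
    ((eB.symm : (B₁ × B₂) →ₗ[F] B) ∘ₗ dmap d.2.1.2.1 d.2.2 d.2.1.2.2 ∘ₗ (eA : A →ₗ[F] (A₁ × A₂)))

theorem cg_Psi (eA : A ≃ₗ[F] (A₁ × A₂)) (eB : B ≃ₗ[F] (B₁ × B₂)) (eA' : A' ≃ₗ[F] (A₁ × B₁))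
    (eB' : B' ≃ₗ[F] (A₂ × B₂)) (d : DD F A₁ A₂ B₁ B₂) :
    cg (sw eA eB eA' eB') (Psi eA eB d) =
      sk (cg eA'.symm (sk d.1.1.1 d.1.2.1 d.2.1.2.1)) (cg eB'.symm (sk d.1.1.2 d.1.2.2 d.2.1.2.2))
        ((eB'.symm : (A₂ × B₂) →ₗ[F] B') ∘ₗ dmap d.2.1.1.1 d.2.2 d.2.1.1.2 ∘ₗ
          (eA' : A' →ₗ[F] (A₁ × B₁))) := by
  obtain ⟨⟨⟨a1, a2⟩, b1, b2⟩, ⟨⟨fA, fB⟩, f11, f22⟩, f12⟩ := d
  apply LinearEquiv.ext
  intro z
  obtain ⟨⟨u, v⟩, rfl⟩ := (sw eA eB eA' eB').surjective z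
  obtain ⟨⟨x1, x2⟩, rfl⟩ := eA.symm.surjective u
  obtain ⟨⟨y1, y2⟩, rfl⟩ := eB.symm.surjective v
  have e1 : ∀ x : A × B, sw eA eB eA' eB' x =
      (eA'.symm ((eA x.1).1, (eB x.2).1), eB'.symm ((eA x.1).2, (eB x.2).2)) := fun x => rfl
  rw [cg_apply, LinearEquiv.symm_apply_apply, Psi, sk_apply, e1, e1, sk_apply]
  simp only [cg_apply, sk_apply, LinearEquiv.symm_symm, LinearEquiv.apply_symm_apply,
    LinearMap.comp_apply, LinearEquiv.coe_coe, dmap_apply, map_add, Prod.fst_add, Prod.snd_add]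
  refine Prod.ext rfl ?_
  dsimp only
  rw [← map_add]
  congr 1
  refine Prod.ext rfl ?_
  change b2 y2 + fB y1 + (f12 x1 + f22 x2) = (b2 y2 + f22 x2) + (f12 x1 + fB y1)
  abel

theorem Psi_inj (eA : A ≃ₗ[F] (A₁ × A₂)) (eB : B ≃ₗ[F] (B₁ × B₂)) :
    Function.Injective (Psi eA eB) := by
  rintro ⟨⟨⟨a1, a2⟩, b1, b2⟩, ⟨⟨fA, fB⟩, f11, f22⟩, f12⟩
    ⟨⟨⟨a1', a2'⟩, b1', b2'⟩, ⟨⟨fA', fB'⟩, f11', f22'⟩, f12'⟩ h
  obtain ⟨h1, h2, h3⟩ := sk_inj h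
  obtain ⟨rfl, rfl, rfl⟩ := sk_inj ((cg eA.symm).injective h1)
  obtain ⟨rfl, rfl, rfl⟩ := sk_inj ((cg eB.symm).injective h2)
  have h4 : ∀ x, dmap f11 f12 f22 x = dmap f11' f12' f22' x := by
    intro x
    have h5 := congrArg (fun g : A →ₗ[F] B => g (eA.symm x)) h3
    change eB.symm (dmap f11 f12 f22 (eA (eA.symm x))) =
      eB.symm (dmap f11' f12' f22' (eA (eA.symm x))) at h5
    rw [LinearEquiv.apply_symm_apply] at h5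
    exact eB.symm.injective h5
  have h5 : f11 = f11' := by
    ext x; exact (Prod.ext_iff.1 (h4 (x, 0))).1
  have h6 : f12 = f12' := by
    ext x
    have := (Prod.ext_iff.1 (h4 (x, 0))).2
    simpa [dmap_apply] using this
  have h7 : f22 = f22' := by
    ext x
    have := (Prod.ext_iff.1 (h4 (0, x))).2
    simpa [dmap_apply] using this
  rw [h5, h6, h7]

variable [Finite A] [Finite B] [Finite A'] [Finite B'] [Finite A₁] [Finite A₂] [Finite B₁]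
  [Finite B₂]

theorem mem_range_Psi (eA : A ≃ₗ[F] (A₁ × A₂)) (eB : B ≃ₗ[F] (B₁ × B₂)) (eA' : A' ≃ₗ[F] (A₁ × B₁))
    (eB' : B' ≃ₗ[F] (A₂ × B₂)) {x : (A × B) ≃ₗ[F] (A × B)}
    (hx : x ∈ Pt (sw eA eB eA' eB')) : x ∈ Set.range (Psi eA eB) := by
  obtain ⟨⟨a, b, f, rfl⟩, hx2⟩ := hx
  change cg (sw eA eB eA' eB') (sk a b f) ∈ PB (F := F) A' B' at hx2
  have e1 : ∀ x : A × B, sw eA eB eA' eB' x =
      (eA'.symm ((eA x.1).1, (eB x.2).1), eB'.symm ((eA x.1).2, (eB x.2).2)) := fun x => rfl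
  have key : ∀ x2 y2, (eA (a (eA.symm (0, x2)))).1 = 0 ∧
      (eB (b (eB.symm (0, y2)))).1 + (eB (f (eA.symm (0, x2)))).1 = 0 := by
    intro x2 y2
    have h1 := of_mem_PB hx2 (eB'.symm (x2, y2))
    have h2 : (0, eB'.symm (x2, y2)) = sw eA eB eA' eB' (eA.symm (0, x2), eB.symm (0, y2)) := by
      rw [e1]
      simp only [LinearEquiv.apply_symm_apply]
      refine Prod.ext ?_ rfl
      change 0 = eA'.symm 0
      rw [map_zero]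
    rw [h2, cg_apply, LinearEquiv.symm_apply_apply, sk_apply, e1] at h1
    have h3 := eA'.symm.map_eq_zero_iff.1 h1
    have h4 := Prod.ext_iff.1 h3
    refine ⟨h4.1, ?_⟩
    have h5 := h4.2
    rw [map_add] at h5
    exact h5
  have hA : cg eA a ∈ PB (F := F) A₁ A₂ := by
    apply mem_PB
    intro y
    rw [cg_apply]
    exact (key y 0).1
  have hf : ∀ x2, (eB (f (eA.symm (0, x2)))).1 = 0 := by
    intro x2
    have h1 := (key x2 0).2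
    have h2 : eB.symm ((0, 0) : B₁ × B₂) = 0 := by
      change eB.symm 0 = 0
      rw [map_zero]
    rw [h2, map_zero, map_zero] at h1
    simpa using h1
  have hB : cg eB b ∈ PB (F := F) B₁ B₂ := by
    apply mem_PB
    intro y
    rw [cg_apply]
    have h1 := (key 0 y).2
    rw [hf 0, add_zero] at h1
    exact h1
  obtain ⟨a1, a2, fA, ha⟩ := hA
  obtain ⟨b1, b2, fB, hb⟩ := hB
  let f' : (A₁ × A₂) →ₗ[F] (B₁ × B₂) :=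
    (eB : B →ₗ[F] (B₁ × B₂)) ∘ₗ f ∘ₗ (eA.symm : (A₁ × A₂) →ₗ[F] A)
  refine ⟨(((a1, a2), (b1, b2)), (((fA, fB), (LinearMap.fst F B₁ B₂ ∘ₗ f' ∘ₗ
    LinearMap.inl F A₁ A₂, LinearMap.snd F B₁ B₂ ∘ₗ f' ∘ₗ LinearMap.inr F A₁ A₂)),
    LinearMap.snd F B₁ B₂ ∘ₗ f' ∘ₗ LinearMap.inl F A₁ A₂)), ?_⟩
  rw [Psi]
  dsimp only
  rw [← ha, ← hb, cg_symm', cg_symm']
  congr 1
  ext x
  change eB.symm (dmap _ _ _ (eA x)) = f x
  rw [LinearEquiv.symm_apply_eq, dmap_apply]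
  have h1 : eA x = ((eA x).1, 0) + (0, (eA x).2) := by simp
  have h2 : f x = f (eA.symm ((eA x).1, 0)) + f (eA.symm (0, (eA x).2)) := by
    rw [← map_add, ← map_add, ← h1, LinearEquiv.symm_apply_apply]
  rw [h2, map_add]
  refine Prod.ext ?_ ?_
  · change (eB (f (eA.symm ((eA x).1, 0)))).1 = _
    rw [Prod.fst_add, hf, add_zero]
  · rfl

theorem Psi_mem (eA : A ≃ₗ[F] (A₁ × A₂)) (eB : B ≃ₗ[F] (B₁ × B₂)) (eA' : A' ≃ₗ[F] (A₁ × B₁))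
    (eB' : B' ≃ₗ[F] (A₂ × B₂)) (d : DD F A₁ A₂ B₁ B₂) :
    Psi eA eB d ∈ Pt (sw eA eB eA' eB') := by
  rw [mem_Pt]
  exact ⟨⟨_, _, _, rfl⟩, by rw [cg_Psi]; exact ⟨_, _, _, rfl⟩⟩

theorem card_Pt (eA : A ≃ₗ[F] (A₁ × A₂)) (eB : B ≃ₗ[F] (B₁ × B₂)) (eA' : A' ≃ₗ[F] (A₁ × B₁))
    (eB' : B' ≃ₗ[F] (A₂ × B₂)) :
    Nat.card (Pt (sw eA eB eA' eB')) = Nat.card (DD F A₁ A₂ B₁ B₂) := by
  symm
  refine Nat.card_congr (Equiv.ofBijective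
    (fun d => (⟨Psi eA eB d, Psi_mem eA eB eA' eB' d⟩ : Pt (sw eA eB eA' eB'))) ⟨?_, ?_⟩)
  · intro d d' h
    exact Psi_inj eA eB (congrArg Subtype.val h)
  · rintro ⟨x, hx⟩
    obtain ⟨d, rfl⟩ := mem_range_Psi eA eB eA' eB' hx
    exact ⟨d, rfl⟩

variable {K : Type u} [Field K]

theorem infl_sk_inv (α : (A ≃ₗ[F] A) → K) (β : (B ≃ₗ[F] B) → K) (a : A ≃ₗ[F] A) (b : B ≃ₗ[F] B)
    (f : A →ₗ[F] B) : infl α β (sk a b f)⁻¹ = α a⁻¹ * β b⁻¹ := by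
  rw [sk_inv, infl_sk]

theorem FF_sw (eA : A ≃ₗ[F] (A₁ × A₂)) (eB : B ≃ₗ[F] (B₁ × B₂)) (eA' : A' ≃ₗ[F] (A₁ × B₁))
    (eB' : B' ≃ₗ[F] (A₂ × B₂)) (α : (A ≃ₗ[F] A) → K) (β : (B ≃ₗ[F] B) → K)
    (α' : (A' ≃ₗ[F] A') → K) (β' : (B' ≃ₗ[F] B') → K) :
    FF α β α' β' (sw eA eB eA' eB') = ∑ d : DD F A₁ A₂ B₁ B₂,
      (α (cg eA.symm (sk d.1.1.1 d.1.1.2 d.2.1.1.1)) *
        β (cg eB.symm (sk d.1.2.1 d.1.2.2 d.2.1.1.2))) *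
      (α' (cg eA'.symm (sk d.1.1.1 d.1.2.1 d.2.1.2.1)⁻¹) *
        β' (cg eB'.symm (sk d.1.1.2 d.1.2.2 d.2.1.2.2)⁻¹)) := by
  classical
  rw [FF]
  symm
  refine Fintype.sum_of_injective (Psi eA eB) (Psi_inj eA eB) _ _ ?_ ?_
  · intro x hx
    by_cases h1 : x ∈ PB (F := F) A B
    · have h2 : cg (sw eA eB eA' eB') x⁻¹ ∉ PB (F := F) A' B' := by
        intro h3
        rw [map_inv] at h3
        exact hx (mem_range_Psi eA eB eA' eB' (mem_Pt.2 ⟨h1, by simpa using inv_mem h3⟩))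
      rw [infl_zero α' β' h2, mul_zero]
    · rw [infl_zero α β h1, zero_mul]
  · intro d
    have h1 : cg (sw eA eB eA' eB') (Psi eA eB d)⁻¹ = (cg (sw eA eB eA' eB') (Psi eA eB d))⁻¹ :=
      map_inv _ _
    rw [h1, cg_Psi, infl_sk_inv, ← map_inv, ← map_inv, Psi, infl_sk]

/-- the average of `γ ((sk a b f)⁻¹)` over `f` -/
theorem sum_inv_Res [CharZero K] (γ : ((A × B) ≃ₗ[F] (A × B)) → K) (a : A ≃ₗ[F] A)
    (b : B ≃ₗ[F] B) :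
    ∑ f : A →ₗ[F] B, γ (sk a b f)⁻¹ = (Nat.card (A →ₗ[F] B) : K) * Res γ a⁻¹ b⁻¹ := by
  rw [Res, ← mul_assoc, mul_inv_cancel₀ (card_ne' _), one_mul]
  let E : (A →ₗ[F] B) ≃ (A →ₗ[F] B) :=
    { toFun := fun f => -(((b⁻¹ : B ≃ₗ[F] B) : B →ₗ[F] B) ∘ₗ f ∘ₗ
        ((a⁻¹ : A ≃ₗ[F] A) : A →ₗ[F] A))
      invFun := fun f => -((b : B →ₗ[F] B) ∘ₗ f ∘ₗ (a : A →ₗ[F] A))
      left_inv := fun f => by
        ext y
        change -(b (-(b⁻¹ (f (a⁻¹ (a y)))))) = f y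
        rw [map_neg, neg_neg]
        have h1 : a⁻¹ (a y) = y := a.symm_apply_apply y
        rw [h1]
        exact b.apply_symm_apply _
      right_inv := fun f => by
        ext y
        change -(b⁻¹ (-(b (f (a (a⁻¹ y)))))) = f y
        rw [map_neg, neg_neg]
        have h1 : a (a⁻¹ y) = y := a.apply_symm_apply y
        rw [h1]
        exact b.symm_apply_apply _ }
  rw [← Equiv.sum_comp E (fun f => γ (sk a⁻¹ b⁻¹ f))]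
  refine Finset.sum_congr rfl fun f _ => ?_
  rw [sk_inv]
  rfl

theorem sum_Res [CharZero K] (γ : ((A × B) ≃ₗ[F] (A × B)) → K) (a : A ≃ₗ[F] A)
    (b : B ≃ₗ[F] B) :
    ∑ f : A →ₗ[F] B, γ (sk a b f) = (Nat.card (A →ₗ[F] B) : K) * Res γ a b := by
  rw [Res, ← mul_assoc, mul_inv_cancel₀ (card_ne' _), one_mul]

variable (F A₁ A₂ B₁ B₂) in
/-- the number of the five unipotent parameters -/
noncomputable def nH : ℕ := Nat.card (A₁ →ₗ[F] A₂) * Nat.card (B₁ →ₗ[F] B₂) *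
  (Nat.card (A₁ →ₗ[F] B₁) * Nat.card (A₂ →ₗ[F] B₂)) * Nat.card (A₁ →ₗ[F] B₂)

/-- H3a: the sum over the nine parameters -/
theorem sum_DD [CharZero K] (α : ((A₁ × A₂) ≃ₗ[F] (A₁ × A₂)) → K)
    (β : ((B₁ × B₂) ≃ₗ[F] (B₁ × B₂)) → K) (α' : ((A₁ × B₁) ≃ₗ[F] (A₁ × B₁)) → K)
    (β' : ((A₂ × B₂) ≃ₗ[F] (A₂ × B₂)) → K) :
    ∑ d : DD F A₁ A₂ B₁ B₂, (α (sk d.1.1.1 d.1.1.2 d.2.1.1.1) *
        β (sk d.1.2.1 d.1.2.2 d.2.1.1.2)) *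
      (α' (sk d.1.1.1 d.1.2.1 d.2.1.2.1)⁻¹ * β' (sk d.1.1.2 d.1.2.2 d.2.1.2.2)⁻¹) =
    (nH F A₁ A₂ B₁ B₂ : K) * ∑ a1 : A₁ ≃ₗ[F] A₁, ∑ a2 : A₂ ≃ₗ[F] A₂, ∑ b1 : B₁ ≃ₗ[F] B₁,
      ∑ b2 : B₂ ≃ₗ[F] B₂, (Res α a1 a2 * Res β b1 b2) *
        (Res α' a1⁻¹ b1⁻¹ * Res β' a2⁻¹ b2⁻¹) := by
  rw [Fintype.sum_prod_type, Finset.mul_sum]
  rw [Fintype.sum_prod_type, Fintype.sum_prod_type]
  refine Finset.sum_congr rfl fun a1 _ => ?_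
  rw [Finset.mul_sum]
  refine Finset.sum_congr rfl fun a2 _ => ?_
  rw [Fintype.sum_prod_type, Finset.mul_sum]
  refine Finset.sum_congr rfl fun b1 _ => ?_
  rw [Finset.mul_sum]
  refine Finset.sum_congr rfl fun b2 _ => ?_
  rw [Fintype.sum_prod_type, Fintype.sum_prod_type, Fintype.sum_prod_type]
  dsimp only
  have h1 : ∀ (fA : A₁ →ₗ[F] A₂) (fB : B₁ →ₗ[F] B₂),
      ∑ y : (A₁ →ₗ[F] B₁) × (A₂ →ₗ[F] B₂), ∑ f12 : A₁ →ₗ[F] B₂,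
        α (sk a1 a2 fA) * β (sk b1 b2 fB) * (α' (sk a1 b1 y.1)⁻¹ * β' (sk a2 b2 y.2)⁻¹) =
      α (sk a1 a2 fA) * β (sk b1 b2 fB) * ((Nat.card (A₁ →ₗ[F] B₂) : K) *
        (((Nat.card (A₁ →ₗ[F] B₁) : K) * Res α' a1⁻¹ b1⁻¹) *
          ((Nat.card (A₂ →ₗ[F] B₂) : K) * Res β' a2⁻¹ b2⁻¹))) := by
    intro fA fB
    rw [← sum_inv_Res, ← sum_inv_Res, Finset.sum_mul_sum, ← Fintype.sum_prod_type'
      (f := fun x y => α' (sk a1 b1 x)⁻¹ * β' (sk a2 b2 y)⁻¹), Finset.mul_sum, Finset.mul_sum]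
    refine Finset.sum_congr rfl fun y _ => ?_
    rw [Finset.sum_const, Finset.card_univ, nsmul_eq_mul, Nat.card_eq_fintype_card]
    ring
  simp only [h1]
  simp only [← Finset.sum_mul, ← Finset.mul_sum]
  rw [sum_Res, sum_Res, nH]
  push_cast
  ring

end H3

section Alg

variable {K : Type*} [CommSemiring K]

theorem sum_comm4 {X I₁ I₂ I₃ I₄ : Type*} (x : Finset X) (P : Finset I₁) (Q : Finset I₂)
    (R : Finset I₃) (S : Finset I₄) (f : X → I₁ → I₂ → I₃ → I₄ → K) :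
    ∑ a ∈ x, ∑ p ∈ P, ∑ q ∈ Q, ∑ r ∈ R, ∑ s ∈ S, f a p q r s =
      ∑ p ∈ P, ∑ q ∈ Q, ∑ r ∈ R, ∑ s ∈ S, ∑ a ∈ x, f a p q r s := by
  rw [Finset.sum_comm]
  refine Finset.sum_congr rfl fun p _ => ?_
  rw [Finset.sum_comm]
  refine Finset.sum_congr rfl fun q _ => ?_
  rw [Finset.sum_comm]
  refine Finset.sum_congr rfl fun r _ => ?_
  rw [Finset.sum_comm]

theorem factor4 {A₁ A₂ B₁ B₂ I₁ I₂ I₃ I₄ : Type*} [Fintype A₁] [Fintype A₂] [Fintype B₁]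
    [Fintype B₂] (P : Finset I₁) (Q : Finset I₂) (R : Finset I₃) (S : Finset I₄)
    (R1 : A₁ → A₂ → K) (R2 : B₁ → B₂ → K) (R3 : A₁ → B₁ → K) (R4 : A₂ → B₂ → K)
    (c1 : I₁ → I₂ → K) (c2 : I₃ → I₄ → K) (u : I₁ → A₁ → K) (v : I₂ → A₂ → K)
    (w : I₃ → B₁ → K) (z : I₄ → B₂ → K)
    (h1 : ∀ a1 a2, R1 a1 a2 = ∑ p ∈ P, ∑ q ∈ Q, c1 p q * u p a1 * v q a2)
    (h2 : ∀ b1 b2, R2 b1 b2 = ∑ r ∈ R, ∑ s ∈ S, c2 r s * w r b1 * z s b2) :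
    ∑ a1, ∑ a2, ∑ b1, ∑ b2, (R1 a1 a2 * R2 b1 b2) * (R3 a1 b1 * R4 a2 b2) =
      ∑ p ∈ P, ∑ q ∈ Q, ∑ r ∈ R, ∑ s ∈ S, (c1 p q * c2 r s) *
        ((∑ a1, ∑ b1, R3 a1 b1 * u p a1 * w r b1) * (∑ a2, ∑ b2, R4 a2 b2 * v q a2 * z s b2)) := by
  have e0 : ∀ a1 a2 b1 b2, (R1 a1 a2 * R2 b1 b2) * (R3 a1 b1 * R4 a2 b2) =
      ∑ p ∈ P, ∑ q ∈ Q, ∑ r ∈ R, ∑ s ∈ S, (c1 p q * c2 r s) *
        ((R3 a1 b1 * u p a1 * w r b1) * (R4 a2 b2 * v q a2 * z s b2)) := by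
    intro a1 a2 b1 b2
    rw [h1, h2, Finset.sum_mul, Finset.sum_mul]
    refine Finset.sum_congr rfl fun p _ => ?_
    rw [Finset.sum_mul, Finset.sum_mul]
    refine Finset.sum_congr rfl fun q _ => ?_
    rw [Finset.mul_sum, Finset.sum_mul]
    refine Finset.sum_congr rfl fun r _ => ?_
    rw [Finset.mul_sum, Finset.sum_mul]
    refine Finset.sum_congr rfl fun s _ => ?_
    ring
  have e1 : ∑ a1, ∑ a2, ∑ b1, ∑ b2, (R1 a1 a2 * R2 b1 b2) * (R3 a1 b1 * R4 a2 b2) =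
      ∑ p ∈ P, ∑ q ∈ Q, ∑ r ∈ R, ∑ s ∈ S, ∑ a1, ∑ a2, ∑ b1, ∑ b2, (c1 p q * c2 r s) *
        ((R3 a1 b1 * u p a1 * w r b1) * (R4 a2 b2 * v q a2 * z s b2)) := by
    rw [← sum_comm4]
    refine Finset.sum_congr rfl fun a1 _ => ?_
    rw [← sum_comm4]
    refine Finset.sum_congr rfl fun a2 _ => ?_
    rw [← sum_comm4]
    refine Finset.sum_congr rfl fun b1 _ => ?_
    rw [← sum_comm4]
    refine Finset.sum_congr rfl fun b2 _ => ?_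
    exact e0 a1 a2 b1 b2
  rw [e1]
  refine Finset.sum_congr rfl fun p _ => Finset.sum_congr rfl fun q _ =>
    Finset.sum_congr rfl fun r _ => Finset.sum_congr rfl fun s _ => ?_
  simp only [← Finset.mul_sum]
  congr 1
  rw [Finset.sum_mul]
  refine Finset.sum_congr rfl fun a1 _ => ?_
  rw [Finset.sum_mul_sum]
  rw [Finset.sum_comm]

end Alg

section Val2

variable {K : Type u} [Field K] [IsAlgClosed K] [CharZero K] {F : Type} [Field F] [Finite F]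
variable {A B A' B' A₁ A₂ B₁ B₂ : Type} [AddCommGroup A] [Module F A] [AddCommGroup B]
  [Module F B] [AddCommGroup A'] [Module F A'] [AddCommGroup B'] [Module F B']
  [AddCommGroup A₁] [Module F A₁] [AddCommGroup A₂] [Module F A₂]
  [AddCommGroup B₁] [Module F B₁] [AddCommGroup B₂] [Module F B₂]
  [Finite A] [Finite B] [Finite A'] [Finite B'] [Finite A₁] [Finite A₂] [Finite B₁]
  [Finite B₂]

theorem mu_inv (α : (A ≃ₗ[F] A) → K) (β : (B ≃ₗ[F] B) → K) (γ : ((A × B) ≃ₗ[F] (A × B)) → K) :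
    ∑ a, ∑ b, Res γ a⁻¹ b⁻¹ * α a * β b =
      (Nat.card (A ≃ₗ[F] A) : K) * (Nat.card (B ≃ₗ[F] B) : K) * mu α β γ := by
  rw [mu, ← mul_assoc, mul_mul_mul_comm, mul_inv_cancel₀ (card_ne' _),
    mul_inv_cancel₀ (card_ne' _), one_mul, one_mul]
  rw [← Equiv.sum_comp (Equiv.inv (A ≃ₗ[F] A))]
  refine Finset.sum_congr rfl fun a _ => ?_
  rw [← Equiv.sum_comp (Equiv.inv (B ≃ₗ[F] B))]
  refine Finset.sum_congr rfl fun b _ => ?_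
  rw [Equiv.inv_apply, Equiv.inv_apply, inv_inv, inv_inv]

/-- **H3**: the value of the double sum at the representative of a double coset. -/
theorem FF_val (a b a' b' : Om K F) (eA : A ≃ₗ[F] (A₁ × A₂)) (eB : B ≃ₗ[F] (B₁ × B₂))
    (eA' : A' ≃ₗ[F] (A₁ × B₁)) (eB' : B' ≃ₗ[F] (A₂ × B₂)) :
    (Nat.card (Pt (sw eA eB eA' eB')) : K)⁻¹ *
      FF (X a A) (X b B) (X a' A') (X b' B') (sw eA eB eA' eB') =
    ∑ p ∈ OmS K F (finrank F A₁), ∑ q ∈ OmS K F (finrank F A₂), ∑ r ∈ OmS K F (finrank F B₁),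
      ∑ s ∈ OmS K F (finrank F B₂), ((cc p q a : K) * cc r s b) * ((cc p r a' : K) * cc q s b') := by
  rw [FF_sw]
  simp only [X_cg]
  rw [sum_DD, factor4 (OmS K F (finrank F A₁)) (OmS K F (finrank F A₂))
    (OmS K F (finrank F B₁)) (OmS K F (finrank F B₂)) _ _
    (fun a1 b1 => Res (X a' (A₁ × B₁)) a1⁻¹ b1⁻¹) (fun a2 b2 => Res (X b' (A₂ × B₂)) a2⁻¹ b2⁻¹)
    (fun p q => (cc p q a : K)) (fun r s => (cc r s b : K)) (fun p => X p A₁) (fun q => X q A₂)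
    (fun r => X r B₁) (fun s => X s B₂) (fun a1 a2 => res_eq a a1 a2)
    (fun b1 b2 => res_eq b b1 b2)]
  have hc : (Nat.card (Pt (sw eA eB eA' eB')) : K) = ((Nat.card (A₁ ≃ₗ[F] A₁) : K) *
      Nat.card (B₁ ≃ₗ[F] B₁)) * ((Nat.card (A₂ ≃ₗ[F] A₂) : K) * Nat.card (B₂ ≃ₗ[F] B₂)) *
      (nH F A₁ A₂ B₁ B₂ : K) := by
    rw [card_Pt, nH]
    simp only [Nat.card_prod]
    push_cast
    ring
  have hn : (nH F A₁ A₂ B₁ B₂ : K) ≠ 0 := by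
    rw [nH]
    push_cast
    exact mul_ne_zero (mul_ne_zero (mul_ne_zero (card_ne' _) (card_ne' _))
      (mul_ne_zero (card_ne' _) (card_ne' _))) (card_ne' _)
  have h1 : (Nat.card (A₁ ≃ₗ[F] A₁) : K) ≠ 0 := card_ne' _
  have h2 : (Nat.card (A₂ ≃ₗ[F] A₂) : K) ≠ 0 := card_ne' _
  have h3 : (Nat.card (B₁ ≃ₗ[F] B₁) : K) ≠ 0 := card_ne' _
  have h4 : (Nat.card (B₂ ≃ₗ[F] B₂) : K) ≠ 0 := card_ne' _
  rw [hc, Finset.mul_sum, Finset.mul_sum]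
  refine Finset.sum_congr rfl fun p hp => ?_
  rw [Finset.mul_sum, Finset.mul_sum]
  refine Finset.sum_congr rfl fun q hq => ?_
  rw [Finset.mul_sum, Finset.mul_sum]
  refine Finset.sum_congr rfl fun r hr => ?_
  rw [Finset.mul_sum, Finset.mul_sum]
  refine Finset.sum_congr rfl fun s hs => ?_
  rw [mu_inv, mu_inv, ← cc_eq (A := A₁) (B := B₁) a' (mem_OmS.mp hp).symm (mem_OmS.mp hr).symm,
    ← cc_eq (A := A₂) (B := B₂) b' (mem_OmS.mp hq).symm (mem_OmS.mp hs).symm]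
  field_simp

end Val2

end Vale.Agent.P180.H568.Dc
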