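import Vale.Agent.P180.H568.Tp
import Vale.Agent.P180.H393.OutD
import Vale.Agent.P180.R2.H471.Hc8
import Vale.Agent.P180.R2.H799.BNQ

/-!
P180 (v5, row F3, helper568): the corner property of a component on which a defect group acts as a
`p`-group of a group containing a copy of the component as a normal subgroup.
-/

set_option linter.all false

namespace Vale.Agent.P180.H568.Out

open Vale.Agent.P180 Vale.Agent.P180.H768.Gd Vale.Agent.P180.R2.H365 Vale.Agent.P180.R2.H799
  Vale.Agent.P180.R2.H954 Vale.Agent.P180.H568.Tp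
open Vale.Agent.P180.H393 (OutBd)
open Vale.Agent.P180.R2.H799.BN (exists_lift)

universe u

variable {k : Type u} [Field k]

section Alike

variable {G M : Type} [Group G] [Group M] {L : Subgroup G} {N : Subgroup M}

/-- `g` acts on `N` as `r` acts on `L` -/
def Alike (φ : N ≃* L) (r : G) (g : M) : Prop :=
  ∀ s t : N, (t : M) = g * s * g⁻¹ → ((φ t : L) : G) = r * (φ s : L) * r⁻¹

variable {φ : N ≃* L} [N.Normal] {r : G} {g : M}

theorem Alike.conj (h : Alike φ r g) (s : N) :
    ((φ (MulAut.conjNormal g s) : L) : G) = r * (φ s : L) * r⁻¹ :=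
  h s _ (MulAut.conjNormal_apply g s)

theorem alike_iff : Alike φ r g ↔
    ∀ s, ((φ (MulAut.conjNormal g s) : L) : G) = r * (φ s : L) * r⁻¹ := by
  refine ⟨fun h s => h.conj s, fun h s t hst => ?_⟩
  rw [← h s]
  congr 2
  apply Subtype.ext
  rw [hst, MulAut.conjNormal_apply]

theorem incl_conj (g : M) (a : MonoidAlgebra k N) :
    cj k M g (incl k N a) = incl k N (T (MulAut.conjNormal g : N ≃* N) a) := by
  induction a using MonoidAlgebra.induction_linear with
  | zero => simp only [map_zero]
  | add a b ha hb => simp only [map_add, ha, hb]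
  | single x c =>
    rw [incl_single, T_single, incl_single, cj_eq, MonoidAlgebra.single_mul_single,
      MonoidAlgebra.single_mul_single, one_mul, mul_one, MulAut.conjNormal_apply]

theorem Alike.incl (h : Alike φ r g) (a : MonoidAlgebra k N) :
    cj k G r (Vale.Agent.P180.incl k L (T φ a)) =
      Vale.Agent.P180.incl k L (T φ (T (MulAut.conjNormal g : N ≃* N) a)) := by
  induction a using MonoidAlgebra.induction_linear with
  | zero => simp only [map_zero]
  | add a b ha hb => simp only [map_add, ha, hb]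
  | single x c =>
    rw [T_single, T_single, T_single, incl_single, incl_single, cj_eq,
      MonoidAlgebra.single_mul_single, MonoidAlgebra.single_mul_single, one_mul, mul_one]
    congr 1
    exact (h.conj x).symm

/-- the elements fixed by `g` and by `r` -/
theorem Alike.fix_iff (h : Alike φ r g) (a : MonoidAlgebra k N) :
    cj k M g (Vale.Agent.P180.incl k N a) = Vale.Agent.P180.incl k N a ↔
      cj k G r (Vale.Agent.P180.incl k L (T φ a)) = Vale.Agent.P180.incl k L (T φ a) := by
  rw [incl_conj, h.incl]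
  constructor
  · intro h1
    rw [incl_injective (k := k) N h1]
  · intro h1
    rw [(T (R := k) φ).injective (incl_injective (k := k) L h1)]

theorem Alike.elt (h : Alike φ r g) (s : N) :
    g * (s : M) * g⁻¹ = s ↔ r * ((φ s : L) : G) * r⁻¹ = (φ s : L) := by
  rw [← h.conj s, ← MulAut.conjNormal_apply]
  constructor
  · intro h1
    rw [Subtype.ext h1]
  · intro h1
    rw [φ.injective (Subtype.ext h1)]

end Alike

variable {p : ℕ} [Fact p.Prime] [CharP k p]

/-- a `p`-group which acts alike -/
theorem exists_p {G M : Type} [Group G] [Finite G] [Group M] [Finite M] {L : Subgroup G}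
    {N : Subgroup M} [N.Normal] (φ : N ≃* L) {R : Subgroup G} (hR : IsPGroup p R)
    (hact : ∀ r ∈ R, ∃ g : M, Alike φ r g) :
    ∃ P : Subgroup M, IsPGroup p P ∧ (∀ g ∈ P, ∃ r ∈ R, Alike φ r g) ∧
      ∀ r ∈ R, ∃ g ∈ P, Alike φ r g := by
  classical
  let β : M →* MulAut N := MulAut.conjNormal
  -- the group of the automorphisms
  let A : Subgroup β.range :=
    { carrier := {σ | ∃ r ∈ R, ∀ s, ((φ (σ.1 s) : L) : G) = r * (φ s : L) * r⁻¹}
      one_mem' := ⟨1, R.one_mem, fun s => by
        rw [one_mul, inv_one, mul_one]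
        rfl⟩
      mul_mem' := by
        rintro σ τ ⟨r, hr, h1⟩ ⟨r', hr', h2⟩
        refine ⟨r * r', R.mul_mem hr hr', fun s => ?_⟩
        change ((φ (σ.1 (τ.1 s)) : L) : G) = _
        rw [h1, h2]
        group
      inv_mem' := by
        rintro σ ⟨r, hr, h1⟩
        refine ⟨r⁻¹, R.inv_mem hr, fun s => ?_⟩
        have h2 := h1 (σ.1⁻¹ s)
        have h3 : σ.1 (σ.1⁻¹ s) = s := MulAut.apply_inv_self _ _ s
        rw [h3] at h2
        change ((φ (σ.1⁻¹ s) : L) : G) = _
        rw [h2]
        group }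
  have hA : IsPGroup p A := by
    rintro ⟨σ, r, hr, h1⟩
    obtain ⟨n, hn⟩ := hR ⟨r, hr⟩
    have hrn : r ^ p ^ n = 1 := congrArg Subtype.val hn
    refine ⟨n, ?_⟩
    have h2 : ∀ j : ℕ, ∀ s, ((φ ((σ.1 ^ j) s) : L) : G) = r ^ j * (φ s : L) * (r ^ j)⁻¹ := by
      intro j
      induction j with
      | zero =>
        intro s
        rw [pow_zero, pow_zero, one_mul, inv_one, mul_one]
        rfl
      | succ j ih =>
        intro s
        rw [pow_succ', MulAut.mul_apply, h1, ih, pow_succ']
        group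
    apply Subtype.ext
    apply Subtype.ext
    change σ.1 ^ p ^ n = 1
    apply MulEquiv.ext
    intro s
    apply φ.injective
    apply Subtype.ext
    rw [h2, hrn, one_mul, inv_one, mul_one]
    rfl
  obtain ⟨P, hP, hPA⟩ := exists_lift (p := p) (π := β.rangeRestrict) β.rangeRestrict_surjective hA
  have key : ∀ g ∈ P, ∃ r ∈ R, Alike φ r g := by
    intro g hg
    have h1 : β.rangeRestrict g ∈ A := by
      rw [← hPA]
      exact ⟨g, hg, rfl⟩
    obtain ⟨r, hr, h⟩ := h1
    exact ⟨r, hr, alike_iff.mpr h⟩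
  refine ⟨P, hP, key, fun r hr => ?_⟩
  obtain ⟨g, hg⟩ := hact r hr
  have h1 : β.rangeRestrict g ∈ A := ⟨r, hr, fun s => hg.conj s⟩
  rw [← hPA] at h1
  obtain ⟨g', hg', h2⟩ := h1
  refine ⟨g', hg', alike_iff.mpr fun s => ?_⟩
  have h3 : β g' = β g := congrArg Subtype.val h2
  have h4 : MulAut.conjNormal g' s = MulAut.conjNormal g s := congrArg (fun σ : MulAut N => σ s) h3
  rw [h4]
  exact hg.conj s

/-- **The corner property, outer action.** -/
theorem corP_of_out {G M : Type} [Group G] [Finite G] [Group M] [Finite M] {D L : Subgroup G}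
    (hD : IsPGroup p D) {N : Subgroup M} [N.Normal] (φ : N ≃* L)
    (hact : ∀ r ∈ D ⊓ Subgroup.normalizer (L : Set G), ∃ g : M, Alike φ r g) {C : ℕ}
    (hO : ∀ P Q : Subgroup M, IsPGroup p P → IsPGroup p Q → Q ≤ N →
      (∀ s : N, (s : M) ∈ Q → ((φ s : L) : G) ∈ D) → OutBd k N P Q C) (b : MonoidAlgebra k G) :
    CorP p C b D L := by
  classical
  rintro R hRD hn e he heR hbr ⟨z, hz, hzF, hez⟩ hez'
  have hR : IsPGroup p R := hD.to_le hRD
  have hblk := he.block
  obtain ⟨P, hP, hPR, hRP⟩ := exists_p (p := p) φ hR (fun r hr => by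
    refine hact r (Subgroup.mem_inf.mpr ⟨hRD hr, ?_⟩)
    rw [Subgroup.mem_normalizer_iff]
    intro s
    constructor
    · exact hn r hr s
    · intro hs
      have := hn r⁻¹ (R.inv_mem hr) _ hs
      simpa [mul_assoc] using this)
  obtain ⟨c, hc, hec⟩ := exists_coeff_of_br hbr
  have hcL : c ∈ L := hblk.mem.1 c hec
  obtain ⟨e0, rfl⟩ := exists_incl L hblk.mem.1
  obtain ⟨z0, rfl⟩ := exists_incl L hz
  -- the transported elements
  obtain ⟨e1, rfl⟩ := (T (R := k) φ).surjective e0
  obtain ⟨z1, rfl⟩ := (T (R := k) φ).surjective z0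
  obtain ⟨c1, hc1⟩ := φ.surjective ⟨c, hcL⟩
  have hc1' : ((φ c1 : L) : G) = c := congrArg Subtype.val hc1
  set Q0 : Subgroup N := (R.subgroupOf L).map φ.symm.toMonoidHom with hQ0
  have hQ0' : Q0.map φ.toMonoidHom = R.subgroupOf L := by
    rw [hQ0, Subgroup.map_map]
    have : φ.toMonoidHom.comp φ.symm.toMonoidHom = MonoidHom.id L := by
      ext x
      exact congrArg Subtype.val (φ.apply_symm_apply x)
    rw [this, Subgroup.map_id]
  have hmap : (R.subgroupOf L).map L.subtype = L ⊓ R := by
    rw [Subgroup.subgroupOf_map_subtype, inf_comm]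
  have hz1 : z1 ∈ Fix (cj k N) Q0 := by
    rw [← hmap, incl_mem_Fix_iff, ← hQ0'] at hzF
    have h1 := T_symm_Fix φ hzF
    rwa [AlgEquiv.symm_apply_apply] at h1
  have he1 : e1 = tr (cj k N) Q0 ⊤ z1 := by
    apply (T (R := k) φ).injective
    apply incl_injective (k := k) L
    rw [T_tr φ hz1, hQ0', hez, incl_tr, hmap]
    rw [← hQ0']
    exact T_Fix φ hz1
  have hQ0R : ∀ s : N, s ∈ Q0 → ((φ s : L) : G) ∈ R := by
    intro s hs
    have h1 : φ s ∈ R.subgroupOf L := by
      rw [← hQ0']
      exact ⟨s, hs, rfl⟩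
    exact h1
  have hQp : IsPGroup p Q0 := (hR.comap_of_injective L.subtype L.subtype_injective).map _
  obtain ⟨i, hiN, hiP, hii, hei, hbi, hdim⟩ := hO P (Q0.map N.subtype) hP (hQp.map _)
    (by
      rintro _ ⟨s, hs, rfl⟩
      exact s.2)
    (by
      rintro s ⟨s', hs', hss⟩
      have h1 : s' = s := Subtype.ext hss
      exact hRD (hQ0R s (h1 ▸ hs')))
    (incl k N e1) (incl k N z1)
    (by
      rw [isBlockOf_incl_iff, ← ZAlg_top]
      have h1 : IsBlockOf (⊤ : Subgroup L) (T φ e1) := by
        unfold IsBlockOf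
        rw [ZAlg_top]
        exact (isBlockOf_incl_iff L _).mp hblk
      have h2 := T_block φ.symm h1
      have h3 : T φ.symm (T φ e1) = e1 := by
        apply MonoidAlgebra.coeff_injective
        ext s
        rw [T_coeff', T_coeff', MulEquiv.symm_symm, MulEquiv.symm_apply_apply]
      rw [h3] at h2
      exact h2)
    (incl_mem N z1) ((incl_mem_Fix_iff N Q0 z1).mpr hz1)
    (by rw [he1, incl_tr N Q0 hz1])
    (by
      refine br_ne_zero_of_coeff (c := (c1 : M)) ?_ ?_
      · rintro _ ⟨s, hs, rfl⟩
        have h1 := hc _ (hQ0R s hs)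
        rw [← hc1'] at h1
        have h2 : φ (s * c1 * s⁻¹) = φ c1 := by
          apply Subtype.ext
          rw [map_mul, map_mul, map_inv]
          exact h1
        exact congrArg Subtype.val (φ.injective h2)
      · rw [Vale.Agent.P180.R2.H799.incl_coeff]
        rw [← hc1', Vale.Agent.P180.R2.H799.incl_coeff, T_coeff] at hec
        exact hec)
    (by
      intro g hg
      obtain ⟨r, hr, h⟩ := hPR g hg
      exact (h.fix_iff e1).mpr (heR r hr))
    (by
      refine br_ne_zero_of_coeff (c := (c1 : M)) ?_ ?_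
      · intro g hg
        obtain ⟨r, hr, h⟩ := hPR g hg
        rw [h.elt, hc1']
        exact hc r hr
      · rw [Vale.Agent.P180.R2.H799.incl_coeff]
        rw [← hc1', Vale.Agent.P180.R2.H799.incl_coeff, T_coeff] at hec
        exact hec)
  obtain ⟨i1, rfl⟩ := exists_incl N hiN
  refine R2.H365.Src.cor_of_source hR hn hblk heR hez' (i := incl k L (T φ i1)) (incl_mem L _) ?_ ?_ ?_
    ?_ ?_
  · intro r hr
    obtain ⟨g, hg, h⟩ := hRP r hr
    exact (h.fix_iff i1).mp (hiP g hg)
  · rw [← map_mul] at hii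
    rw [← map_mul, ← map_mul, incl_injective (k := k) N hii]
  · rw [← map_mul] at hei
    rw [← map_mul, ← map_mul, incl_injective (k := k) N hei]
  · obtain ⟨d, hd, hid⟩ := exists_coeff_of_br hbi
    have hdN : d ∈ N := hiN d hid
    refine br_ne_zero_of_coeff (c := ((φ ⟨d, hdN⟩ : L) : G)) ?_ ?_
    · intro r hr
      obtain ⟨g, hg, h⟩ := hRP r hr
      exact (h.elt ⟨d, hdN⟩).mp (hd g hg)
    · rw [Vale.Agent.P180.R2.H799.incl_coeff, T_coeff]
      have h1 := Vale.Agent.P180.R2.H799.incl_coeff N i1 ⟨d, hdN⟩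
      rw [← h1]
      exact hid
  · have h1 := finrank_NN_hom (k := k) (φ := N.subtype) N.subtype_injective i1 i1
    rw [Subgroup.range_subtype] at h1
    let j : N →* G := L.subtype.comp φ.toMonoidHom
    have hj : Function.Injective j := L.subtype_injective.comp φ.injective
    have hr : j.range = L := by
      rw [MonoidHom.range_comp, MonoidHom.range_eq_top.mpr φ.surjective, ← MonoidHom.range_eq_map,
        Subgroup.range_subtype]
    have h2 := finrank_NN_hom (k := k) (φ := j) hj i1 i1
    rw [hr] at h2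
    have h3 : MonoidAlgebra.mapDomainAlgHom k k j i1 = incl k L (T φ i1) := by
      have h4 : ∀ a : MonoidAlgebra k N, MonoidAlgebra.mapDomainAlgHom k k j a =
          incl k L (T φ a) := by
        intro a
        induction a using MonoidAlgebra.induction_linear with
        | zero => simp only [map_zero]
        | add a b ha hb => simp only [map_add, ha, hb]
        | single x c =>
          rw [T_single, incl_single]
          simp [j]
      exact h4 i1
    rw [h3] at h2
    rw [h2, ← h1]
    exact hdim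

end Vale.Agent.P180.H568.Out
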