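import Vale.Agent.P180.H568.OutE
import Vale.Agent.P180.H19.OutN
import Vale.Agent.P180.H392.CorE

/-!
P180 (v5, row F4, helper568): the corner property of the components of type `SL_d(K)` on which a
defect group acts through `GL_d(K)`.
-/

set_option linter.all false

namespace Vale.Agent.P180.H568.Out

open Vale.Agent.P180 Vale.Agent.P180.H768.Gd Vale.Agent.P180.R2.H365

universe u

/-- the constant -/
noncomputable def oC (p n m : ℕ) : ℕ := H951.outC p (n ^ 2) m

/-- **Components of type `SL_d(K)` on which a defect group acts through `GL_d(K)`.** -/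
theorem outStmt : H392.OutStmt.{u} oC := by
  intro p n m _ k _ _ _ K _ _ d G _ _ D L π b _ hpK hm hD hDn hπ hk hact hA hr hbF hb
  haveI : Finite ((Fin d → K) ≃ₗ[K] (Fin d → K)) :=
    Finite.of_injective (fun g : (Fin d → K) ≃ₗ[K] (Fin d → K) => (g : (Fin d → K) → Fin d → K))
      DFunLike.coe_injective
  refine corP_outR hD hDn hπ hk hact hA (fun H _ _ q hq hqs hqd P Q hP hQ hQN hQn hab hnc => ?_)
    hr hbF hb
  exact H19.OutN.outBd_glN hpK (by rw [Module.finrank_fin_fun]; exact hm) q hq hqs hqd hP hQ hQN hQn
    hab hnc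

end Vale.Agent.P180.H568.Out
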