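import Vale.Agent.P180.R2.H799.BN3

/-!
P180: isometry towers: the relation `T X' T = X E'` (self-dual case) in a group algebra, from the
factorisation of the unipotent radical.
-/

set_option linter.all false

namespace Vale.Agent.P180.H568.XT

open Vale.Agent.P180 Vale.Agent.P180.H768.Gd Vale.Agent.P180.R2.H799 Vale.Agent.P180.R2.H799.BN

section

variable {K : Type*} [Field K] {G : Type*} [Group G] [Finite G]

/-- the group element `g` in the group algebra -/
noncomputable abbrev o (K : Type*) [Field K] {G : Type*} [Group G] (g : G) : MonoidAlgebra K G :=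
  MonoidAlgebra.single g 1

theorem o_mul {G : Type*} [Group G] (g h : G) : o K g * o K h = o K (g * h) := by
  unfold o
  rw [MonoidAlgebra.single_mul_single, one_mul]

theorem o_one {G : Type*} [Group G] : o K (1 : G) = 1 := rfl

theorem o_mul_inv {G : Type*} [Group G] (g : G) : o K g * o K g⁻¹ = 1 := by
  rw [o_mul, mul_inv_cancel]; rfl

theorem o_inv_mul {G : Type*} [Group G] (g : G) : o K g⁻¹ * o K g = 1 := by
  rw [o_mul, inv_mul_cancel]; rfl

theorem av_def (V : Subgroup G) [Fintype V] :
    av K V = (((Nat.card V : ℕ) : K)⁻¹) • ∑ v : V, o K (v : G) := by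
  unfold av
  congr 1
  refine Finset.sum_congr ?_ fun _ _ => rfl
  ext x
  simp

/-- An average between two factors. -/
theorem mul_av_mul {V : Subgroup G} (hV : ((Nat.card V : ℕ) : K) ≠ 0) {x y z : MonoidAlgebra K G}
    (h : ∀ v ∈ V, x * o K v * y = z) : x * av K V * y = z := by
  classical
  letI := Fintype.ofFinite V
  rw [av_def, mul_smul_comm, smul_mul_assoc, Finset.mul_sum, Finset.sum_mul,
    Finset.sum_congr rfl (fun (v : V) _ => h (v : G) v.2), Finset.sum_const, Finset.card_univ,
    ← Nat.card_eq_fintype_card, ← Nat.cast_smul_eq_nsmul K, smul_smul, inv_mul_cancel₀ hV,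
    one_smul]

/-- `L t av(U_B) y = L t av(U_0) y` -/
theorem fac_right {UB U0 H1 H2 : Subgroup G} (hB : ((Nat.card UB : ℕ) : K) ≠ 0)
    (h0 : ((Nat.card U0 : ℕ) : K) ≠ 0)
    (hfac : ∀ u ∈ UB, ∃ a ∈ H1, ∃ v ∈ U0, ∃ c ∈ H2, u = a * v * c) (h0B : U0 ≤ UB)
    (hc : ∀ c ∈ H2, ∀ v ∈ U0, c * v = v * c) {x y : MonoidAlgebra K G}
    (hx : ∀ a ∈ H1, x * o K a = x) (hy : ∀ c ∈ H2, o K c * y = y) :
    x * av K UB * y = x * av K U0 * y := by
  have h1 : av K UB = av K UB * av K U0 := (av_le_right h0 h0B).symm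
  have h2 : x * av K UB * (av K U0 * y) = x * av K U0 * y := by
    refine mul_av_mul hB fun u hu => ?_
    obtain ⟨a, ha, v, hv, c, hcc, rfl⟩ := hfac u hu
    have hcom : o K c * av K U0 = av K U0 * o K c := by
      refine av_comm (L := Subgroup.zpowers c) ?_ (single_mem_SubAlg (Subgroup.mem_zpowers c) 1)
      rw [Subgroup.zpowers_le]
      refine mem_Nm.mpr fun w => ?_
      constructor
      · intro hw
        rw [hc c hcc w hw, mul_assoc, mul_inv_cancel, mul_one]
        exact hw
      · intro hw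
        have e : w = c⁻¹ * (c * w * c⁻¹) * c := by group
        have e2 := hc c hcc _ hw
        have e3 : c⁻¹ * (c * w * c⁻¹) * c = c * w * c⁻¹ := by
          rw [mul_assoc, ← e2, ← mul_assoc, inv_mul_cancel, one_mul]
        rw [e, e3]
        exact hw
    calc x * o K (a * v * c) * (av K U0 * y)
        = x * o K a * o K v * o K c * (av K U0 * y) := by
          rw [← o_mul, ← o_mul]; simp only [mul_assoc]
      _ = x * o K a * (o K v * (o K c * av K U0) * y) := by simp only [mul_assoc]
      _ = x * (o K v * (av K U0 * o K c) * y) := by rw [hx a ha, hcom]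
      _ = x * ((o K v * av K U0) * (o K c * y)) := by simp only [mul_assoc]
      _ = x * av K U0 * y := by rw [av_left U0 hv, hy c hcc, mul_assoc]
  calc x * av K UB * y = x * (av K UB * av K U0) * y := by rw [← h1]
    _ = x * av K UB * (av K U0 * y) := by simp only [mul_assoc]
    _ = _ := h2

/-- `av(U_B) y = av(H_1) av(U_0) y` -/
theorem fac_left {UB U0 H1 H2 : Subgroup G} (hB : ((Nat.card UB : ℕ) : K) ≠ 0)
    (h0 : ((Nat.card U0 : ℕ) : K) ≠ 0) (h1' : ((Nat.card H1 : ℕ) : K) ≠ 0)
    (hfac : ∀ u ∈ UB, ∃ a ∈ H1, ∃ v ∈ U0, ∃ c ∈ H2, u = a * v * c) (h0B : U0 ≤ UB) (h1B : H1 ≤ UB)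
    (hc : ∀ c ∈ H2, ∀ v ∈ U0, c * v = v * c) {y : MonoidAlgebra K G}
    (hy : ∀ c ∈ H2, o K c * y = y) :
    av K UB * y = av K H1 * av K U0 * y := by
  have h := fac_right (x := av K H1) hB h0 hfac h0B hc (fun a ha => av_right H1 ha) hy
  rw [av_le_left h1' h1B] at h
  exact h

/-- The relation in a ring. -/
theorem txt_ring {R : Type*} [Ring R] {E E' s tA tB X' T : R} (hss : s * s = 1) (hEE : E * E = E)
    (hcE : E * E' = E' * E) (hct : E * tB = tB * E) (hts : s * tB * s = tA)
    (hA : E * (s * E' * s) = E) (hA' : (s * E' * s) * E = E)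
    (hX' : X' = E' * tB * E') (hT : T = E * s * E) : T * X' * T = E * tA * (s * E * s) * E := by
  have hc2 : (s * E' * s) * (s * E * s) = (s * E * s) * (s * E' * s) := by
    calc (s * E' * s) * (s * E * s) = s * E' * (s * s) * E * s := by simp only [mul_assoc]
      _ = s * (E * E') * s := by rw [hss, mul_one, mul_assoc s, ← hcE]
      _ = s * E * (s * s) * E' * s := by rw [hss, mul_one]; simp only [mul_assoc]
      _ = _ := by simp only [mul_assoc]
  calc T * X' * T = E * s * (E * E') * tB * E' * (E * s * E) := by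
        rw [hX', hT]; simp only [mul_assoc]
    _ = E * s * E' * (E * tB) * E' * (E * s * E) := by rw [hcE]; simp only [mul_assoc]
    _ = E * s * E' * tB * (E * E') * (E * s * E) := by rw [hct]; simp only [mul_assoc]
    _ = E * s * E' * tB * E' * ((E * E) * s * E) := by rw [hcE]; simp only [mul_assoc]
    _ = E * s * E' * tB * E' * (E * s * E) := by rw [hEE]
    _ = E * s * E' * (s * s) * tB * (s * s) * E' * (s * s) * E * s * E := by
        rw [hss]; simp only [mul_assoc, mul_one, one_mul]
    _ = (E * (s * E' * s)) * (s * tB * s) * ((s * E' * s) * (s * E * s)) * E := by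
        simp only [mul_assoc]
    _ = E * tA * ((s * E * s) * ((s * E' * s) * E)) := by
        rw [hA, hts, hc2]; simp only [mul_assoc]
    _ = E * tA * (s * E * s) * E := by rw [hA']; simp only [mul_assoc]

end

end Vale.Agent.P180.H568.XT
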