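import Mathlib

/-!
P180: normal elements of a finite dimensional algebra with a proper involution are diagonalisable.
-/

set_option linter.all false

namespace Vale.Agent.P180.H568.XT

open Polynomial

/-- A proper involution over a field with an involution. -/
structure PStar (F A : Type*) [Field F] [Ring A] [Algebra F A] where
  /-- the involution -/
  st : A → A
  /-- the involution of the field -/
  sig : F →+* F
  st_mul : ∀ a b, st (a * b) = st b * st a
  st_add : ∀ a b, st (a + b) = st a + st b
  st_smul : ∀ (c : F) a, st (c • a) = sig c • st a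
  st_st : ∀ a, st (st a) = a
  proper : ∀ a, a * st a = 0 → a = 0

namespace PStar

variable {F A : Type*} [Field F] [Ring A] [Algebra F A] (S : PStar F A)

theorem st_one : S.st 1 = 1 := by
  have h : S.st (S.st 1 * 1) = S.st 1 * S.st (S.st 1) := S.st_mul _ _
  rw [mul_one, S.st_st, mul_one] at h
  exact h.symm

theorem st_zero : S.st 0 = 0 := by
  have h := S.st_smul 0 (0 : A)
  rwa [zero_smul, map_zero, zero_smul] at h

theorem st_pow (a : A) (n : ℕ) : S.st (a ^ n) = S.st a ^ n := by
  induction n with
  | zero => rw [pow_zero, pow_zero, S.st_one]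
  | succ n ih => rw [pow_succ, S.st_mul, ih, ← pow_succ']

/-- a self-adjoint nilpotent element vanishes -/
theorem eq_zero_of_self {h : A} (hs : S.st h = h) {k : ℕ} (hk : h ^ 2 ^ k = 0) : h = 0 := by
  induction k with
  | zero => simpa using hk
  | succ k ih =>
    apply ih
    apply S.proper
    rw [S.st_pow, hs, ← pow_add, ← two_mul, ← pow_succ']
    exact hk

/-- a normal nilpotent element vanishes -/
theorem eq_zero_of_normal {y : A} (hc : Commute y (S.st y)) {n : ℕ} (hn : y ^ n = 0) : y = 0 := by
  have h1 : (y * S.st y) ^ n = 0 := by rw [hc.mul_pow, hn, zero_mul]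
  have h2 : (y * S.st y) ^ 2 ^ n = 0 := by
    obtain ⟨m, hm⟩ := Nat.exists_eq_add_of_le (Nat.lt_two_pow_self (n := n)).le
    rw [hm, pow_add, h1, zero_mul]
  apply S.proper
  refine S.eq_zero_of_self ?_ h2
  rw [S.st_mul, S.st_st]

theorem commute_st_aeval {x : A} {c : F} (hx : S.st x = c • x) (q : F[X]) :
    Commute x (S.st (aeval x q)) := by
  induction q using Polynomial.induction_on' with
  | add p q hp hq => rw [map_add, S.st_add]; exact hp.add_right hq
  | monomial n a =>
    have h1 : aeval x (monomial n a) = a • x ^ n := by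
      rw [← C_mul_X_pow_eq_monomial, map_mul, aeval_C, map_pow, aeval_X, Algebra.smul_def]
    rw [h1, S.st_smul, S.st_pow, hx, _root_.smul_pow]
    exact ((Commute.refl x).pow_right n).smul_right _ |>.smul_right _

theorem commute_aeval {x z : A} (h : Commute x z) (q : F[X]) : Commute (aeval x q) z := by
  induction q using Polynomial.induction_on' with
  | add p q hp hq => rw [map_add]; exact hp.add_left hq
  | monomial n a =>
    have h1 : aeval x (monomial n a) = a • x ^ n := by
      rw [← C_mul_X_pow_eq_monomial, map_mul, aeval_C, map_pow, aeval_X, Algebra.smul_def]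
    rw [h1]
    exact (h.pow_left n).smul_left _

/-- **Normal elements are diagonalisable.** -/
theorem diag [IsAlgClosed F] [FiniteDimensional F A] {x : A} {c : F} (hx : S.st x = c • x) :
    ∃ L : Finset F, aeval x (∏ l ∈ L, (X - C l)) = 0 := by
  classical
  have hi : IsIntegral F x := Algebra.IsIntegral.isIntegral x
  have hm : (minpoly F x).Monic := minpoly.monic hi
  have hsp : (minpoly F x).Splits := IsAlgClosed.splits _
  set r : F[X] := ∏ l ∈ (minpoly F x).roots.toFinset, (X - C l) with hr
  refine ⟨(minpoly F x).roots.toFinset, ?_⟩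
  have hd : minpoly F x ∣ r ^ (minpoly F x).roots.card := by
    have h1 : minpoly F x = ((minpoly F x).roots.map fun a => X - C a).prod := by
      have := hsp.eq_prod_roots
      rw [hm.leadingCoeff, C_1, one_mul] at this
      exact this
    have h2 : ∀ s : Multiset F, (∀ a ∈ s, X - C a ∣ r) → (s.map fun a => X - C a).prod ∣ r ^ s.card := by
      intro s
      induction s using Multiset.induction_on with
      | empty => intro _; simp
      | cons a s ih =>
        intro h
        rw [Multiset.map_cons, Multiset.prod_cons, Multiset.card_cons, pow_succ']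
        exact mul_dvd_mul (h a (Multiset.mem_cons_self a s))
          (ih fun b hb => h b (Multiset.mem_cons_of_mem hb))
    have h3 := h2 (minpoly F x).roots fun a ha =>
      Finset.dvd_prod_of_mem (fun l => X - C l) (Multiset.mem_toFinset.mpr ha)
    rwa [← h1] at h3
  obtain ⟨w, hw⟩ := hd
  have hn : (aeval x r) ^ (minpoly F x).roots.card = 0 := by
    rw [← map_pow, hw, map_mul, minpoly.aeval, zero_mul]
  exact S.eq_zero_of_normal (commute_aeval (S.commute_st_aeval hx r) r) hn

end PStar

/-- transfer along a ring homomorphism -/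
theorem diag_map {F A K B : Type*} [Field F] [Ring A] [Algebra F A] [Field K] [Ring B] [Algebra K B]
    (ι : F →+* K) (f : A →+* B) (hf : ∀ c a, f (c • a) = ι c • f a) {x : A}
    (h : ∃ L : Finset F, aeval x (∏ l ∈ L, (X - C l)) = 0) :
    ∃ L : Finset K, aeval (f x) (∏ l ∈ L, (X - C l)) = 0 := by
  classical
  obtain ⟨L, hL⟩ := h
  refine ⟨L.image ι, ?_⟩
  rw [Finset.prod_image (fun a _ b _ h => ι.injective h)]
  have h3 : ∀ p : F[X], aeval (f x) (p.map ι) = f (aeval x p) := by
    intro p
    induction p using Polynomial.induction_on' with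
    | add p q hp hq => rw [Polynomial.map_add, map_add, map_add, map_add, hp, hq]
    | monomial n a =>
      rw [Polynomial.map_monomial, ← C_mul_X_pow_eq_monomial, ← C_mul_X_pow_eq_monomial, map_mul,
        map_mul, aeval_C, aeval_C, map_pow, map_pow, aeval_X, aeval_X, map_mul,
        Algebra.algebraMap_eq_smul_one, Algebra.algebraMap_eq_smul_one, hf, map_one, map_pow]
  have h4 := h3 (∏ l ∈ L, (X - C l))
  rw [hL, map_zero, Polynomial.map_prod] at h4
  have h5 : ∏ l ∈ L, Polynomial.map ι (X - C l) = ∏ l ∈ L, (X - C (ι l)) :=
    Finset.prod_congr rfl fun l _ => by rw [Polynomial.map_sub, map_X, map_C]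
  rwa [h5] at h4

end Vale.Agent.P180.H568.XT
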