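import Vale.Agent.P180.H568.XC

/-!
P180: isometry towers: the relation `T X' T = c X E'` in the case which is not self-dual.
-/

set_option linter.all false

namespace Vale.Agent.P180.H568.XT

open Vale.Agent.P180 Vale.Agent.P180.H768.Gd Vale.Agent.P180.R2.H799 Vale.Agent.P180.R2.H799.BN
open Vale.Agent.P180.H19.Atwo

universe u

section Nsd

variable {F A : Type} [Field F] [Finite F] [AddCommGroup A] [Module F A] [Finite A] [Nontrivial A]
  [Finite (A ≃ₗ[F] A)] [Fintype (A ≃ₗ[F] A)] [Fintype (A →ₗ[F] A)]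
  {k : Type u} [Field k] [CharZero k] {G : Type} [Group G] [Finite G]
  {γ : ((A × A) ≃ₗ[F] (A × A)) →* G} {ε : MonoidAlgebra k (A ≃ₗ[F] A)}
  {U U0 : Subgroup G} {t : G}

/-- a lower unipotent element of intermediate rank is killed -/
theorem mid_zero (γ : ((A × A) ≃ₗ[F] (A × A)) →* G)
    (hcusp : ∀ A1 : Submodule F A, A1 ≠ ⊥ → A1 ≠ ⊤ → ε * av k (Rad A1) = 0)
    {u Z : MonoidAlgebra k G} (hu : ∀ x, u * o k (γ (up x)) = u)
    (hZ : ∀ x, o k (γ (up x)) * Z = Z)
    (hui : ∀ z, mp (γ.comp D1) z * u = u * mp (γ.comp D1) z)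
    {y : A →ₗ[F] A} (hy0 : y ≠ 0) (hyi : ¬ Function.Injective y) :
    u * mp (γ.comp D1) ε * o k (γ (lo y)) * Z = 0 := by
  classical
  haveI hfa : Finite (A →ₗ[F] A) := inferInstance
  haveI : Fintype {x : A →ₗ[F] A // ∀ v, y (x v) = 0} := Fintype.ofFinite _
  set i1 : MonoidAlgebra k (A ≃ₗ[F] A) →ₐ[k] MonoidAlgebra k G := mp (γ.comp D1) with hi1
  have key : ∀ x : {x : A →ₗ[F] A // ∀ v, y (x v) = 0},
      u * i1 ε * o k (γ (lo y)) * Z =
        i1 (ε * MonoidAlgebra.single (un (-(x.1 ∘ₗ y)) (nn x.2)) 1) * (u *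
          o k (γ (lo y)) * Z) := by
    intro x
    have e1 : o k (γ (lo y)) * o k (γ (up x.1)) =
        i1 (MonoidAlgebra.single (un (-(x.1 ∘ₗ y)) (nn x.2)) 1) *
          o k (γ (up x.1)) * o k (γ (lo y)) := by
      rw [hi1, mp_single, MonoidAlgebra.single_mul_single, MonoidAlgebra.single_mul_single,
        MonoidAlgebra.single_mul_single, one_mul, one_mul]
      congr 1
      change γ (lo y) * γ (up x.1) = γ (D1 _) * γ (up x.1) * γ (lo y)
      rw [← map_mul, lo_mul_up x.2, map_mul, map_mul]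
    calc u * i1 ε * o k (γ (lo y)) * Z
        = u * i1 ε * (o k (γ (lo y)) * o k (γ (up x.1))) * Z := by
          conv_lhs => rw [← hZ x.1]
          simp only [mul_assoc]
      _ = i1 ε * u * (i1 (MonoidAlgebra.single (un (-(x.1 ∘ₗ y)) (nn x.2)) 1) *
          o k (γ (up x.1)) * o k (γ (lo y))) * Z := by
          rw [e1, ← hui]
      _ = i1 ε * (u * i1 (MonoidAlgebra.single (un (-(x.1 ∘ₗ y)) (nn x.2)) 1)) *
          (o k (γ (up x.1)) * o k (γ (lo y))) * Z := by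
          simp only [mul_assoc]
      _ = i1 ε * i1 (MonoidAlgebra.single (un (-(x.1 ∘ₗ y)) (nn x.2)) 1) *
          (u * o k (γ (up x.1))) * o k (γ (lo y)) * Z := by
          rw [← hui]; simp only [mul_assoc]
      _ = _ := by
          rw [hu x.1, ← map_mul]; simp only [mul_assoc]
  have hsum : ∑ x : {x : A →ₗ[F] A // ∀ v, y (x v) = 0},
      (u * i1 ε * o k (γ (lo y)) * Z) = 0 := by
    rw [Finset.sum_congr rfl fun x _ => key x, ← Finset.sum_mul, ← map_sum, ← Finset.mul_sum,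
      cusp_sum hcusp hy0 hyi, map_zero, zero_mul]
  rw [Finset.sum_const, Finset.card_univ, ← Nat.cast_smul_eq_nsmul k, smul_eq_zero] at hsum
  refine hsum.resolve_left ?_
  haveI : Nonempty {x : A →ₗ[F] A // ∀ v, y (x v) = 0} := ⟨⟨0, fun v => map_zero y⟩⟩
  have : Fintype.card {x : A →ₗ[F] A // ∀ v, y (x v) = 0} ≠ 0 := Fintype.card_ne_zero
  exact_mod_cast this

/-- a lower unipotent element of full rank is killed -/
theorem full_zero (γ : ((A × A) ≃ₗ[F] (A × A)) →* G)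
    {u Z W : MonoidAlgebra k G} (hu : ∀ x, u * o k (γ (up x)) = u)
    (hZ : ∀ x, o k (γ (up x)) * Z = Z)
    (hui : ∀ z, mp (γ.comp D1) z * u = u * mp (γ.comp D1) z)
    (hZW : Z = W * Z) (hW1 : ∀ g, o k (γ (D1 g)) * W = W * o k (γ (D1 g)))
    (hW : ∀ g, mp (γ.comp D2) ε * o k (γ (D2 g)) * W = 0)
    (y : A ≃ₗ[F] A) :
    u * mp (γ.comp D1) ε * o k (γ (lo (y : A →ₗ[F] A))) * Z = 0 := by
  set i1 : MonoidAlgebra k (A ≃ₗ[F] A) →ₐ[k] MonoidAlgebra k G := mp (γ.comp D1) with hi1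
  set i2 : MonoidAlgebra k (A ≃ₗ[F] A) →ₐ[k] MonoidAlgebra k G := mp (γ.comp D2) with hi2
  have e1 : o k (γ (lo (y : A →ₗ[F] A))) =
      o k (γ (up ((y⁻¹ : A ≃ₗ[F] A) : A →ₗ[F] A))) * (o k (γ sw) *
        (o k (γ (D2 (LinearEquiv.neg F))) * o k (γ (D1 y)) * o k (γ (D2 y⁻¹)))) *
        o k (γ (up ((y⁻¹ : A ≃ₗ[F] A) : A →ₗ[F] A))) := by
    simp only [o_mul]
    congr 1
    simp only [← map_mul]
    rw [lo_eq]
    simp only [mul_assoc]
  have hs1 : i1 ε * o k (γ sw) = o k (γ sw) * i2 ε := by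
    refine mp_rel (fun g => ?_) ε
    rw [MonoidAlgebra.single_mul_single, MonoidAlgebra.single_mul_single]
    congr 1
    change γ (D1 g) * γ sw = γ sw * γ (D2 g)
    rw [← map_mul, ← map_mul, D1_mul_sw]
  have hd : o k (γ (D2 (LinearEquiv.neg F))) * o k (γ (D1 y)) * o k (γ (D2 y⁻¹)) =
      o k (γ (D2 (LinearEquiv.neg F * y⁻¹))) * o k (γ (D1 y)) := by
    simp only [o_mul]
    congr 1
    simp only [← map_mul]
    congr 1
  have h1 : ∀ z, i1 z * u = u * i1 z := hui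
  calc u * i1 ε * o k (γ (lo (y : A →ₗ[F] A))) * Z
      = i1 ε * (u * o k (γ (up ((y⁻¹ : A ≃ₗ[F] A) : A →ₗ[F] A)))) * (o k (γ sw) *
        (o k (γ (D2 (LinearEquiv.neg F))) * o k (γ (D1 y)) * o k (γ (D2 y⁻¹)))) *
        (o k (γ (up ((y⁻¹ : A ≃ₗ[F] A) : A →ₗ[F] A))) * Z) := by
        rw [e1, ← h1]; simp only [mul_assoc]
    _ = u * (i1 ε * o k (γ sw)) * (o k (γ (D2 (LinearEquiv.neg F))) * o k (γ (D1 y)) *
        o k (γ (D2 y⁻¹))) * Z := by
        rw [hu, hZ, h1]; simp only [mul_assoc]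
    _ = u * o k (γ sw) * (i2 ε * o k (γ (D2 (LinearEquiv.neg F * y⁻¹)))) *
        o k (γ (D1 y)) * (W * Z) := by
        rw [hs1, hd, ← hZW]; simp only [mul_assoc]
    _ = u * o k (γ sw) * (i2 ε * o k (γ (D2 (LinearEquiv.neg F * y⁻¹))) * W) *
        (o k (γ (D1 y)) * Z) := by
        rw [mul_assoc _ (o k (γ (D1 y))) (W * Z), ← mul_assoc (o k (γ (D1 y))) W Z, hW1]
        simp only [mul_assoc]
    _ = 0 := by rw [hW, mul_zero, zero_mul]

/-- conjugates of a homomorphism -/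
def cjh (γ : ((A × A) ≃ₗ[F] (A × A)) →* G) (c : G) : ((A × A) ≃ₗ[F] (A × A)) →* G :=
  (MulAut.conj c).toMonoidHom.comp γ

omit [Finite F] [Finite A] [Nontrivial A] [Finite (A ≃ₗ[F] A)] [Fintype (A ≃ₗ[F] A)]
  [Fintype (A →ₗ[F] A)] [Finite G] in
theorem cjh_apply (γ : ((A × A) ≃ₗ[F] (A × A)) →* G) (c : G) (g : (A × A) ≃ₗ[F] (A × A)) :
    cjh γ c g = c * γ g * c⁻¹ := rfl

/-- **the case which is not self-dual** -/
theorem txt_nsd (hεi : ε * ε = ε)
    (hcusp : ∀ A1 : Submodule F A, A1 ≠ ⊥ → A1 ≠ ⊤ → ε * av k (Rad A1) = 0)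
    (hγ : Function.Injective γ) (hD : PD γ U U0 t)
    (hnsd : ∀ g, mp (γ.comp D2) ε * o k (γ (D2 g)) * o k t * mp (γ.comp D2) ε = 0)
    {E E0 X X' T : MonoidAlgebra k G}
    (hE : E = Vale.Agent.P180.H19.Atwo.EA γ ε U) (hE0 : E0 = av k U0 * mp (γ.comp D2) ε)
    (hT : T = E * o k (γ sw) * E) (hX : X = E * av k (conjS (γ sw * t * γ sw) U) * E)
    (hX' : X' = E0 * av k (conjS t U0) * E0) :
    T * X' * T = (Nat.card (A →ₗ[F] A) : k) • (X * E0) := by
  classical
  have hc := exists_cf hεi hD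
  rw [← hE, ← hE0] at hc
  set i1 : MonoidAlgebra k (A ≃ₗ[F] A) →ₐ[k] MonoidAlgebra k G := mp (γ.comp D1) with hi1
  set i2 : MonoidAlgebra k (A ≃ₗ[F] A) →ₐ[k] MonoidAlgebra k G := mp (γ.comp D2) with hi2
  set EB : MonoidAlgebra k G := o k (γ sw) * E * o k (γ sw) with hEB
  -- the inner opposite radical
  have htU0 : conjS t U0 ≤ Nm U := by
    intro x hx
    rw [mem_conjS] at hx
    have h1 := hD.U0_Nm hx
    have h2 := (Nm U).mul_mem ((Nm U).mul_mem hD.t_Nm h1) ((Nm U).inv_mem hD.t_Nm)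
    have e : t * (t⁻¹ * x * t) * t⁻¹ = x := by group
    rwa [e] at h2
  have htD1 : ∀ v ∈ conjS t U0, ∀ g, v * γ (D1 g) = γ (D1 g) * v := by
    intro v hv g
    rw [mem_conjS] at hv
    have h1 := hD.U0_d1 _ hv g
    have h2 := hD.t_d1 g
    have e : v = t * (t⁻¹ * v * t) * t⁻¹ := by group
    have h3 : t⁻¹ * γ (D1 g) = γ (D1 g) * t⁻¹ := by
      rw [inv_mul_eq_iff_eq_mul, ← mul_assoc, h2, mul_inv_cancel_right]
    rw [e]
    calc t * (t⁻¹ * v * t) * t⁻¹ * γ (D1 g) = t * ((t⁻¹ * v * t) * (t⁻¹ * γ (D1 g))) := by group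
      _ = t * (((t⁻¹ * v * t) * γ (D1 g)) * t⁻¹) := by rw [h3]; group
      _ = (t * γ (D1 g)) * (t⁻¹ * v * t) * t⁻¹ := by rw [h1]; group
      _ = γ (D1 g) * (t * (t⁻¹ * v * t) * t⁻¹) := by rw [h2]; group
  have hmu : av k (conjS t U0) * av k U = av k U * av k (conjS t U0) :=
    av_comm htU0 (av_mem _)
  have hm1 : ∀ z, i1 z * av k (conjS t U0) = av k (conjS t U0) * i1 z := by
    intro z
    refine mp_rel (fun g => single_comm_av ?_) z
    rw [mem_Nm]
    intro v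
    constructor
    · intro hv
      have : (γ.comp D1) g * v * ((γ.comp D1) g)⁻¹ = v := by
        change γ (D1 g) * v * (γ (D1 g))⁻¹ = v
        rw [← htD1 v hv g, mul_inv_cancel_right]
      rw [this]
      exact hv
    · intro hv
      have h3 := htD1 _ hv g
      have h4 : γ (D1 g) * v * (γ (D1 g))⁻¹ * γ (D1 g) = γ (D1 g) * (γ (D1 g) * v * (γ (D1 g))⁻¹) := h3
      rw [inv_mul_cancel_right] at h4
      have h5 := mul_left_cancel h4
      have h6 : v = γ (D1 g) * v * (γ (D1 g))⁻¹ := h5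
      rw [h6]
      exact hv
  have hEm : E * av k (conjS t U0) = av k (conjS t U0) * E := by
    rw [hE]
    calc av k U * i1 ε * av k (conjS t U0) = (av k U * av k (conjS t U0)) * i1 ε := by
          rw [mul_assoc, hm1, mul_assoc]
      _ = av k (conjS t U0) * (av k U * i1 ε) := by rw [← hmu, mul_assoc]
  set W : Subgroup G := conjS (γ sw) (conjS t U0) with hW
  have hsms : o k (γ sw) * av k (conjS t U0) * o k (γ sw) = av k W := by
    have h := single_mul_av (k := k) (conjS t U0) (γ sw)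
    have h' : o k (γ sw) * av k (conjS t U0) = av k W * o k (γ sw) := h
    rw [h', mul_assoc, o_mul, sw_sq]
    exact mul_one _
  have h1 : T * X' * T = E * av k W * EB * E := txt_half hc hEm hsms hX' hT
  -- `Z`
  set Z : MonoidAlgebra k G := av k W * EB * E with hZ
  have hWN : W ≤ Nm (conjS (γ sw) U) := by
    intro x hx
    rw [mem_Nm_conjS]
    rw [hW, mem_conjS] at hx
    exact htU0 hx
  have hWub : av k W * av k (conjS (γ sw) U) = av k (conjS (γ sw) U) * av k W :=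
    av_comm hWN (av_mem _)
  have hWi2 : ∀ z, i2 z * av k W = av k W * i2 z := by
    intro z
    have hs2 : ∀ z, o k (γ sw) * i1 z * o k (γ sw) = i2 z := by
      intro z
      have h1s : i1 z * o k (γ sw) = o k (γ sw) * i2 z := by
        refine mp_rel (fun g => ?_) z
        rw [MonoidAlgebra.single_mul_single, MonoidAlgebra.single_mul_single]
        congr 1
        change γ (D1 g) * γ sw = γ sw * γ (D2 g)
        rw [← map_mul, ← map_mul, D1_mul_sw]
      rw [mul_assoc, h1s, ← mul_assoc, hc.ss, one_mul]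
    rw [← hs2 z, ← hsms]
    calc o k (γ sw) * i1 z * o k (γ sw) * (o k (γ sw) * av k (conjS t U0) * o k (γ sw))
        = o k (γ sw) * i1 z * (o k (γ sw) * o k (γ sw)) * av k (conjS t U0) * o k (γ sw) := by
          simp only [mul_assoc]
      _ = o k (γ sw) * (i1 z * av k (conjS t U0)) * o k (γ sw) := by
          rw [hc.ss, mul_one]; simp only [mul_assoc]
      _ = o k (γ sw) * av k (conjS t U0) * (o k (γ sw) * o k (γ sw)) * i1 z * o k (γ sw) := by
          rw [hm1, hc.ss, mul_one]; simp only [mul_assoc]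
      _ = _ := by simp only [mul_assoc]
  have hZub : ∀ v ∈ conjS (γ sw) U, o k v * Z = Z := by
    intro v hv
    rw [hZ, hc.EB1]
    calc o k v * (av k W * (av k (conjS (γ sw) U) * i2 ε) * E)
        = o k v * (av k W * av k (conjS (γ sw) U)) * i2 ε * E := by simp only [mul_assoc]
      _ = (o k v * av k (conjS (γ sw) U)) * av k W * i2 ε * E := by
          rw [hWub]; simp only [mul_assoc]
      _ = (av k (conjS (γ sw) U) * av k W) * i2 ε * E := by
          rw [av_left _ hv]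
      _ = _ := by rw [← hWub]; simp only [mul_assoc]
  have hZi2 : Z = i2 ε * Z := by
    rw [hZ, hc.EB2]
    calc av k W * (i2 ε * av k (conjS (γ sw) U)) * E
        = av k W * ((i2 ε * i2 ε) * av k (conjS (γ sw) U)) * E := by rw [hc.ii]
      _ = (av k W * i2 ε) * (i2 ε * av k (conjS (γ sw) U)) * E := by simp only [mul_assoc]
      _ = _ := by rw [← hWi2]; simp only [mul_assoc]
  -- the left side of the relation
  have hkill : ∀ y : A →ₗ[F] A, y ≠ 0 → E * o k (t⁻¹ * γ (lo y) * t) * Z = 0 := by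
    intro y hy0
    have hu' : ∀ x, av k U * o k (cjh γ t⁻¹ (up x)) = av k U := by
      intro x
      refine av_right U ?_
      rw [cjh_apply]
      exact (mem_Nm.mp ((Nm U).inv_mem hD.t_Nm) (γ (up x))).mp (hD.up_mem x)
    have hZ' : ∀ x, o k (cjh γ t⁻¹ (up x)) * Z = Z := by
      intro x
      refine hZub _ ?_
      rw [cjh_apply, inv_inv]
      exact hD.x_mem x
    have hD1 : (cjh γ t⁻¹).comp D1 = γ.comp D1 := by
      ext g
      change t⁻¹ * γ (D1 g) * t⁻¹⁻¹ = γ (D1 g)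
      rw [inv_inv, mul_assoc, ← hD.t_d1, ← mul_assoc, inv_mul_cancel, one_mul]
    have hui : ∀ z, mp ((cjh γ t⁻¹).comp D1) z * av k U = av k U * mp ((cjh γ t⁻¹).comp D1) z := by
      intro z
      rw [hD1]
      exact mp_rel (fun g => single_comm_av (hD.d1 g)) z
    have hE' : E = av k U * mp ((cjh γ t⁻¹).comp D1) ε := by rw [hD1, hE]; rfl
    have e1 : t⁻¹ * γ (lo y) * t = cjh γ t⁻¹ (lo y) := by rw [cjh_apply, inv_inv]
    rw [e1, hE']
    by_cases hyi : Function.Injective y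
    · let y' : A ≃ₗ[F] A := LinearEquiv.ofInjectiveEndo y hyi
      have ey : y = (y' : A →ₗ[F] A) := by
        ext v
        rfl
      rw [ey]
      refine full_zero (cjh γ t⁻¹) hu' hZ' hui hZi2 ?_ ?_ y'
      · intro g
        have h2 : o k ((cjh γ t⁻¹) (D1 g)) = o k ((γ.comp D1) g) := by
          rw [← hD1]; rfl
        rw [h2]
        have h3 := i1_comm_i2 γ (MonoidAlgebra.single g 1) ε
        rw [mp_single] at h3
        exact h3
      · intro g
        have h4 : ∀ z, mp ((cjh γ t⁻¹).comp D2) z = o k t⁻¹ * i2 z * o k t := by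
          intro z
          have h5 : mp ((cjh γ t⁻¹).comp D2) z * o k t⁻¹ = o k t⁻¹ * i2 z := by
            refine mp_rel (fun g => ?_) z
            rw [MonoidAlgebra.single_mul_single, MonoidAlgebra.single_mul_single]
            congr 1
            change t⁻¹ * γ (D2 g) * t⁻¹⁻¹ * t⁻¹ = t⁻¹ * γ (D2 g)
            rw [inv_inv, mul_assoc, mul_inv_cancel, mul_one]
          rw [← h5, mul_assoc, o_inv_mul, mul_one]
        have h6 : o k ((cjh γ t⁻¹) (D2 g)) = o k t⁻¹ * o k (γ (D2 g)) * o k t := by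
          rw [o_mul, o_mul, cjh_apply, inv_inv]
        rw [h4, h6]
        calc o k t⁻¹ * i2 ε * o k t * (o k t⁻¹ * o k (γ (D2 g)) * o k t) * i2 ε
            = o k t⁻¹ * i2 ε * (o k t * o k t⁻¹) * o k (γ (D2 g)) * o k t * i2 ε := by
              simp only [mul_assoc]
          _ = o k t⁻¹ * (i2 ε * o k (γ (D2 g)) * o k t * i2 ε) := by
              rw [o_mul_inv, mul_one]; simp only [mul_assoc]
          _ = 0 := by rw [hnsd, mul_zero]
    · exact mid_zero (cjh γ t⁻¹) hcusp hu' hZ' hui hy0 hyi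
  -- the right side of the relation
  have hLoB : LoS γ 1 ≤ conjS (γ sw) U := by
    rintro _ ⟨y, rfl⟩
    rw [mem_conjS]
    have e3 : γ (lo y) * γ sw = γ sw * γ (up y) := by
      rw [← map_mul, ← map_mul]
      congr 1
    have e : (γ sw)⁻¹ * (1 * γ (lo y) * 1⁻¹) * γ sw = γ (up y) := by
      calc (γ sw)⁻¹ * (1 * γ (lo y) * 1⁻¹) * γ sw = (γ sw)⁻¹ * (γ (lo y) * γ sw) := by group
        _ = γ (up y) := by rw [e3]; group
    rw [e]
    exact hD.up_mem y
  have hfacB : ∀ u ∈ conjS (γ sw) U, ∃ a ∈ LoS γ 1, ∃ v ∈ U0, ∃ c ∈ UpS γ t⁻¹, u = a * v * c := by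
    intro u hu
    obtain ⟨y, v, hv, x, rfl⟩ := hD.fac u hu
    exact ⟨γ (lo y), ⟨y, by group⟩, v, hv, t⁻¹ * γ (up x) * t, ⟨x, by group⟩, rfl⟩
  have hXU0 : ∀ c ∈ UpS γ t⁻¹, ∀ v ∈ U0, c * v = v * c := by
    rintro _ ⟨x, rfl⟩ v hv
    rw [inv_inv]
    exact hD.x_U0 x v hv
  have hEBE : EB * E = av k (LoS γ 1) * av k U0 * (i2 ε * E) := by
    rw [hc.EB1, mul_assoc]
    exact fac_left (cardU _) (cardU _) (cardU _) hfacB hD.U0_le hLoB hXU0 (x_EE hD hc rfl)
  -- `st = γ sw * t`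
  have hUm : conjS (γ sw * t * γ sw) U = conjS (γ sw * t) (conjS (γ sw) U) := by
    ext x
    rw [mem_conjS, mem_conjS, mem_conjS]
    have e : (γ sw * t * γ sw)⁻¹ * x * (γ sw * t * γ sw) =
        (γ sw)⁻¹ * ((γ sw * t)⁻¹ * x * (γ sw * t)) * γ sw := by group
    rw [e]
  have hconj : ∀ u ∈ conjS (γ sw * t * γ sw) U, ∃ y, ∃ w ∈ W, ∃ x, u =
      (t⁻¹ * γ (lo y) * t) * w * γ (lo x) := by
    intro u hu
    rw [hUm, mem_conjS] at hu
    obtain ⟨y, v, hv, x, hx⟩ := hD.fac _ hu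
    obtain ⟨y', hy'⟩ := hD.t_lo y
    refine ⟨y', (γ sw * t) * v * (γ sw * t)⁻¹, ?_, x, ?_⟩
    · rw [hW, mem_conjS, mem_conjS]
      have e : t⁻¹ * ((γ sw)⁻¹ * (γ sw * t * v * (γ sw * t)⁻¹) * γ sw) * t = v := by group
      rw [e]
      exact hv
    · have e3 : γ sw * γ (up x) * (γ sw)⁻¹ = γ (lo x) := by
        rw [sw_inv, ← map_mul, ← map_mul]
        congr 1
      rw [← hy', ← e3]
      calc u = (γ sw * t) * ((γ sw * t)⁻¹ * u * (γ sw * t)) * (γ sw * t)⁻¹ := by group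
        _ = (γ sw * t) * (γ (lo y) * v * (t⁻¹ * γ (up x) * t)) * (γ sw * t)⁻¹ := by rw [hx]
        _ = _ := by group
  have hWle : W ≤ conjS (γ sw * t * γ sw) U := by
    intro w hw
    rw [hUm, mem_conjS]
    refine hD.U0_le ?_
    rw [hW, mem_conjS, mem_conjS] at hw
    have e : (γ sw * t)⁻¹ * w * (γ sw * t) = t⁻¹ * ((γ sw)⁻¹ * w * γ sw) * t := by group
    rw [e]
    exact hw
  have hLoU : LoS γ 1 ≤ conjS (γ sw * t * γ sw) U := by
    rintro _ ⟨x, rfl⟩
    rw [hUm, mem_conjS]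
    have e3 : (γ sw)⁻¹ * γ (lo x) * γ sw = γ (up x) := by
      rw [sw_inv, ← map_mul, ← map_mul]
      congr 1
    have e : (γ sw * t)⁻¹ * (1 * γ (lo x) * 1⁻¹) * (γ sw * t) = t⁻¹ * γ (up x) * t := by
      rw [← e3]; group
    rw [e]
    exact hD.x_mem x
  have hLoW : ∀ c ∈ LoS γ 1, ∀ v ∈ W, c * v = v * c := by
    rintro _ ⟨x, rfl⟩ v hv
    rw [hW, mem_conjS, mem_conjS] at hv
    have h := hD.x_U0 x _ hv
    have e3 : γ (lo x) = γ sw * γ (up x) * (γ sw)⁻¹ := by
      rw [sw_inv, ← map_mul, ← map_mul]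
      congr 1
    have e4 : (1 : G) * γ (lo x) * 1⁻¹ = γ sw * t * (t⁻¹ * γ (up x) * t) * (γ sw * t)⁻¹ := by
      rw [e3]; group
    have e5 : v = γ sw * t * (t⁻¹ * ((γ sw)⁻¹ * v * γ sw) * t) * (γ sw * t)⁻¹ := by group
    rw [e4]
    calc γ sw * t * (t⁻¹ * γ (up x) * t) * (γ sw * t)⁻¹ * v
        = γ sw * t * ((t⁻¹ * γ (up x) * t) * (t⁻¹ * ((γ sw)⁻¹ * v * γ sw) * t)) *
          (γ sw * t)⁻¹ := by group
      _ = γ sw * t * ((t⁻¹ * ((γ sw)⁻¹ * v * γ sw) * t) * (t⁻¹ * γ (up x) * t)) *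
          (γ sw * t)⁻¹ := by rw [h]
      _ = v * (γ sw * t * (t⁻¹ * γ (up x) * t) * (γ sw * t)⁻¹) := by group
  have hinjlo : ∀ y y' : A →ₗ[F] A, γ (lo y) = γ (lo y') → y = y' := by
    intro y y' h2
    have h3 : lo y = lo y' := hγ h2
    apply LinearMap.ext
    intro v
    have h4 := congrArg (fun g : (A × A) ≃ₗ[F] (A × A) => (g (v, 0)).2) h3
    change (0 : A) + y v = 0 + y' v at h4
    rwa [zero_add, zero_add] at h4
  have hH3 : LoS γ t⁻¹ ≤ conjS (γ sw * t * γ sw) U := by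
    choose f hf using hD.t_lo
    have hfi : Function.Injective f := by
      intro y y' h
      apply hinjlo
      have h1 := hf y
      rw [h, ← hf y'] at h1
      exact mul_left_cancel (mul_right_cancel (mul_left_cancel (mul_right_cancel h1)))
    have hfs : Function.Surjective f := Finite.injective_iff_surjective.mp hfi
    rintro _ ⟨y, rfl⟩
    obtain ⟨y0, rfl⟩ := hfs y
    rw [inv_inv, ← hf y0, hUm, mem_conjS]
    have e : (γ sw * t)⁻¹ * (γ sw * (t * γ (lo y0) * t⁻¹) * (γ sw)⁻¹) * (γ sw * t) =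
        1 * γ (lo y0) * 1⁻¹ := by group
    rw [e]
    exact hLoB ⟨y0, rfl⟩
  have hfin : av k (conjS (γ sw * t * γ sw) U) * (EB * E) =
      av k (LoS γ t⁻¹) * av k W * (EB * E) := by
    refine fac_left (H2 := LoS γ 1) (cardU _) (cardU _) (cardU _) ?_ hWle hH3 hLoW ?_
    · intro u hu
      obtain ⟨y, w, hw, x, rfl⟩ := hconj u hu
      exact ⟨t⁻¹ * γ (lo y) * t, ⟨y, by group⟩, w, hw, γ (lo x), ⟨x, by group⟩, rfl⟩
    · intro c hcm
      rw [hc.EB1, ← mul_assoc, ← mul_assoc, av_left _ (hLoB hcm)]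
  have hmain : X * E0 = E * av k (LoS γ t⁻¹) * Z := by
    have h2 : av k (conjS (γ sw * t * γ sw) U) * (av k U0 * (i2 ε * E)) =
        av k (conjS (γ sw * t * γ sw) U) * (EB * E) := by
      rw [hEBE]
      calc av k (conjS (γ sw * t * γ sw) U) * (av k U0 * (i2 ε * E))
          = (av k (conjS (γ sw * t * γ sw) U) * av k (LoS γ 1)) * (av k U0 * (i2 ε * E)) := by
            rw [av_le_right (cardU _) hLoU]
        _ = _ := by simp only [mul_assoc]
    calc X * E0 = E * av k (conjS (γ sw * t * γ sw) U) * (E * E0) := by rw [hX, mul_assoc]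
      _ = E * av k (conjS (γ sw * t * γ sw) U) * (E0 * E) := by rw [hc.EE0]
      _ = E * (av k (conjS (γ sw * t * γ sw) U) * (av k U0 * (i2 ε * E))) := by
          rw [hE0]; simp only [mul_assoc]
      _ = E * (av k (LoS γ t⁻¹) * av k W * (EB * E)) := by rw [h2, hfin]
      _ = _ := by rw [hZ]; simp only [mul_assoc]
  -- the average over `LoS`
  have hav : (Nat.card (A →ₗ[F] A) : k) • (E * av k (LoS γ t⁻¹) * Z) = E * Z := by
    let e : (A →ₗ[F] A) ≃ LoS γ t⁻¹ := Equiv.ofBijective (fun y => ⟨t⁻¹ * γ (lo y) * t⁻¹⁻¹, ⟨y, rfl⟩⟩)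
      ⟨fun y y' h => by
        have h2 : γ (lo y) = γ (lo y') := by
          have h3 := congrArg Subtype.val h
          have h4 : t⁻¹ * γ (lo y) * t⁻¹⁻¹ = t⁻¹ * γ (lo y') * t⁻¹⁻¹ := h3
          exact mul_left_cancel (mul_right_cancel h4)
        have h3 : lo y = lo y' := hγ h2
        apply LinearMap.ext
        intro v
        have h4 := congrArg (fun g : (A × A) ≃ₗ[F] (A × A) => (g (v, 0)).2) h3
        change (0 : A) + y v = 0 + y' v at h4
        rwa [zero_add, zero_add] at h4, fun ⟨g, y, hy⟩ => ⟨y, Subtype.ext hy.symm⟩⟩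
    letI := Fintype.ofFinite (LoS γ t⁻¹)
    rw [av_def, ← Nat.card_congr e, mul_smul_comm, smul_mul_assoc, smul_smul,
      mul_inv_cancel₀ (by
        have : Nat.card (A →ₗ[F] A) ≠ 0 := Nat.card_pos.ne'
        exact_mod_cast this), one_smul, Finset.mul_sum, Finset.sum_mul]
    rw [← Fintype.sum_equiv e (fun y => E * o k (t⁻¹ * γ (lo y) * t) * Z)
      (fun g : LoS γ t⁻¹ => E * o k (g : G) * Z) (fun y => by
        change _ = E * o k (t⁻¹ * γ (lo y) * t⁻¹⁻¹) * Z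
        rw [inv_inv])]
    rw [Finset.sum_eq_single (0 : A →ₗ[F] A)]
    · have e2 : t⁻¹ * γ (lo (0 : A →ₗ[F] A)) * t = 1 := by
        rw [lo_zero, map_one]; group
      rw [e2, o_one, mul_one]
    · intro y _ hy
      exact hkill y hy
    · intro h
      exact absurd (Finset.mem_univ _) h
  rw [hmain, hav, h1, hZ]
  simp only [mul_assoc]

end Nsd

end Vale.Agent.P180.H568.XT
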