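import Vale.Agent.P180.H568.XD
import Vale.Agent.P180.H6.HermG

/-!
P180: isometry towers: Schur for two primitive idempotents; the operator `X` of one level:
scalars, diagonalisability, the square.
-/

set_option linter.all false

namespace Vale.Agent.P180.H568.XT

open Vale.Agent.P180 Vale.Agent.P180.H768.Gd Vale.Agent.P180.R2.H799 Vale.Agent.P180.R2.H799.BN
open Vale.Agent.P180.H19.Atwo

universe u

section Schur

variable {k : Type u} [Field k] {H : Type} [Group H] [Finite H]

theorem coeff_comm (x y : MonoidAlgebra k H) : (x * y).coeff 1 = (y * x).coeff 1 := by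
  letI := Fintype.ofFinite H
  exact coeff_one_comm x y

theorem exists_coeff {u : MonoidAlgebra k H} (hu : u ≠ 0) : ∃ g : H, (u * o k g).coeff 1 ≠ 0 := by
  have h1 : ∃ g, u.coeff g ≠ 0 := by
    by_contra h
    push Not at h
    apply hu
    ext g
    exact h g
  obtain ⟨g, hg⟩ := h1
  refine ⟨g⁻¹, ?_⟩
  unfold o
  rw [MonoidAlgebra.mul_single_apply, mul_one, inv_inv, one_mul]
  exact hg

/-- the dual element -/
theorem exists_dual' {e f u : MonoidAlgebra k H} (hf : ∀ z, ∃ c : k, f * z * f = c • f)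
    (he : ∀ z, ∃ c : k, e * z * e = c • e) (hee : e * e = e) (hff : f * f = f)
    (hfu : f * u = u) (hue : u * e = u) (hu : u ≠ 0) :
    ∃ w : MonoidAlgebra k H, ∃ a : k, a ≠ 0 ∧ e * w = w ∧ w * f = w ∧ u * w = a • f ∧
      w * u = a • e := by
  obtain ⟨g, hg⟩ := exists_coeff hu
  obtain ⟨a, ha⟩ := hf (u * o k g)
  have huw : u * (e * o k g * f) = a • f := by
    calc u * (e * o k g * f) = (u * e) * o k g * f := by simp only [mul_assoc]
      _ = f * (u * o k g) * f := by rw [hue, ← mul_assoc f u, hfu]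
      _ = a • f := ha
  have ha0 : a ≠ 0 := by
    intro h0
    rw [h0, zero_smul] at huw
    apply hg
    have h1 : (u * (e * o k g * f)).coeff 1 = (u * o k g).coeff 1 := by
      calc (u * (e * o k g * f)).coeff 1 = (((u * e) * o k g) * f).coeff 1 := by
            simp only [mul_assoc]
        _ = (f * ((u * e) * o k g)).coeff 1 := coeff_comm _ _
        _ = (u * o k g).coeff 1 := by rw [hue, ← mul_assoc, hfu]
    rw [← h1, huw]
    rfl
  obtain ⟨b, hb⟩ := he (o k g * f * u)
  have hwu : (e * o k g * f) * u = b • e := by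
    calc (e * o k g * f) * u = e * (o k g * f * u) * e := by
          conv_lhs => rw [← hue]
          simp only [mul_assoc]
      _ = b • e := hb
  have hab : a = b := by
    have h1 : a • u = b • u := by
      calc a • u = (a • f) * u := by rw [smul_mul_assoc, hfu]
        _ = u * ((e * o k g * f) * u) := by rw [← huw, mul_assoc]
        _ = b • u := by rw [hwu, mul_smul_comm, hue]
    by_contra hne
    have h2 : (a - b) • u = 0 := by rw [sub_smul, h1, sub_self]
    rcases smul_eq_zero.mp h2 with h3 | h3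
    · exact hne (sub_eq_zero.mp h3)
    · exact hu h3
  subst hab
  refine ⟨e * o k g * f, a, ha0, ?_, ?_, huw, hwu⟩
  · rw [← mul_assoc, ← mul_assoc, hee]
  · rw [mul_assoc, hff]

/-- **Schur**: the space between two primitive idempotents is at most one dimensional. -/
theorem schur2 {e f u v : MonoidAlgebra k H} (hf : ∀ z, ∃ c : k, f * z * f = c • f)
    (he : ∀ z, ∃ c : k, e * z * e = c • e) (hee : e * e = e) (hff : f * f = f)
    (hfu : f * u = u) (hue : u * e = u) (hu : u ≠ 0) (hfv : f * v = v) (hve : v * e = v) :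
    ∃ c : k, v = c • u := by
  obtain ⟨w, a, ha, hew, hwf, huw, hwu⟩ := exists_dual' hf he hee hff hfu hue hu
  obtain ⟨b, hb⟩ := he (w * v)
  have h1 : w * v = b • e := by
    rw [← hb]
    calc w * v = (e * w) * (v * e) := by rw [hew, hve]
      _ = e * (w * v) * e := by simp only [mul_assoc]
  refine ⟨a⁻¹ * b, ?_⟩
  calc v = a⁻¹ • ((a • f) * v) := by
        rw [smul_mul_assoc, hfv, smul_smul, inv_mul_cancel₀ ha, one_smul]
    _ = a⁻¹ • (u * (w * v)) := by rw [← huw, mul_assoc]
    _ = (a⁻¹ * b) • u := by rw [h1, mul_smul_comm, hue, smul_smul]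

/-- products of nonzero elements between two primitive idempotents -/
theorem mul_ne {e f u v : MonoidAlgebra k H} (hf : ∀ z, ∃ c : k, f * z * f = c • f)
    (he : ∀ z, ∃ c : k, e * z * e = c • e) (hee : e * e = e) (hff : f * f = f)
    (hfu : f * u = u) (hue : u * e = u) (hu : u ≠ 0) (hev : e * v = v) (hvf : v * f = v)
    (hv : v ≠ 0) (he0 : e ≠ 0) : v * u ≠ 0 := by
  obtain ⟨w, a, ha, hew, hwf, huw, hwu⟩ := exists_dual' hf he hee hff hfu hue hu
  have hw : w ≠ 0 := by
    rintro rfl
    rw [zero_mul] at hwu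
    rcases smul_eq_zero.mp hwu.symm with h | h
    · exact ha h
    · exact he0 h
  obtain ⟨c, hc⟩ := schur2 he hf hff hee hew hwf hw hev hvf
  have hc0 : c ≠ 0 := by
    rintro rfl
    rw [zero_smul] at hc
    exact hv hc
  rw [hc, smul_mul_assoc, hwu, smul_smul]
  exact smul_ne_zero (mul_ne_zero hc0 ha) he0

end Schur

section Level

variable {k : Type u} [Field k] [CharZero k] {H G : Type} [Group H] [Finite H] [Group G]
  [Finite G]

/-- The data of one level: `d` the general linear group, `U` the radical, `t` the swap. -/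
structure LD (d : H →* G) (U : Subgroup G) (t : G) : Prop where
  d_Nm : ∀ h, d h ∈ Nm U
  td : ∀ h, ∃ h', t * d h * t⁻¹ = d h'
  td' : ∀ h, ∃ h', t⁻¹ * d h * t = d h'
  tt : ∃ h, t * t = d h

variable {d : H →* G} {U : Subgroup G} {t : G} {ε : MonoidAlgebra k H}

/-- the conjugate idempotent -/
theorem exists_conj_mp (h : ∀ h, ∃ h', t⁻¹ * d h * t = d h') (x : MonoidAlgebra k H) :
    ∃ y : MonoidAlgebra k H, o k t⁻¹ * mp d x * o k t = mp d y := by
  induction x using MonoidAlgebra.induction_linear with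
  | zero => exact ⟨0, by rw [map_zero, mul_zero, zero_mul]⟩
  | add x y hx hy =>
    obtain ⟨x', hx'⟩ := hx
    obtain ⟨y', hy'⟩ := hy
    exact ⟨x' + y', by rw [map_add, map_add, mul_add, add_mul, hx', hy']⟩
  | single g r =>
    obtain ⟨g', hg'⟩ := h g
    refine ⟨MonoidAlgebra.single g' r, ?_⟩
    rw [mp_single, mp_single, MonoidAlgebra.single_mul_single, MonoidAlgebra.single_mul_single,
      hg', one_mul, mul_one]

/-- primitive in the group algebra of the image -/
theorem prim_mp (hp : ∀ z, ∃ c : k, ε * z * ε = c • ε) (x : MonoidAlgebra k H) :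
    ∃ c : k, mp d ε * mp d x * mp d ε = c • mp d ε := by
  obtain ⟨c, hc⟩ := hp x
  exact ⟨c, by rw [← map_mul, ← map_mul, hc, map_smul]⟩

theorem mp_injective (hd : Function.Injective d) : Function.Injective (mp (k := k) d) := by
  intro x y h
  exact MonoidAlgebra.mapDomain_injective hd h

/-- **the scalars**: `ε t d(h) ε = c ε t ε` -/
theorem exists_scal (hd : Function.Injective d) (hε : ε * ε = ε)
    (hp : ∀ z, ∃ c : k, ε * z * ε = c • ε) (hL : LD d U t)
    (hsd : mp d ε * o k t * mp d ε ≠ 0) (h : H) :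
    ∃ c : k, mp d ε * o k (t * d h) * mp d ε = c • (mp d ε * o k t * mp d ε) := by
  obtain ⟨f, hf⟩ := exists_conj_mp (k := k) hL.td' ε
  have hts : o k t * o k t⁻¹ = (1 : MonoidAlgebra k G) := o_mul_inv t
  have hst : o k t⁻¹ * o k t = (1 : MonoidAlgebra k G) := o_inv_mul t
  have hεt : mp d ε * o k t = o k t * mp d f := by
    rw [← hf]
    calc mp d ε * o k t = (o k t * o k t⁻¹) * mp d ε * o k t := by rw [hts, one_mul]
      _ = _ := by simp only [mul_assoc]
  have hfε : mp d f = o k t⁻¹ * mp d ε * o k t := hf.symm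
  have hff : f * f = f := by
    apply mp_injective (k := k) hd
    rw [map_mul, hfε]
    calc o k t⁻¹ * mp d ε * o k t * (o k t⁻¹ * mp d ε * o k t)
        = o k t⁻¹ * mp d ε * (o k t * o k t⁻¹) * mp d ε * o k t := by simp only [mul_assoc]
      _ = o k t⁻¹ * (mp d ε * mp d ε) * o k t := by rw [hts, mul_one]; simp only [mul_assoc]
      _ = _ := by rw [← map_mul, hε]
  have hfp : ∀ z, ∃ c : k, f * z * f = c • f := by
    intro z
    have htd'' : ∀ h, ∃ h', (t⁻¹)⁻¹ * d h * t⁻¹ = d h' := by
      intro h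
      rw [inv_inv]
      exact hL.td h
    obtain ⟨z', hz'⟩ := exists_conj_mp (k := k) htd'' z
    rw [inv_inv] at hz'
    obtain ⟨c, hc⟩ := hp z'
    refine ⟨c, mp_injective (k := k) hd ?_⟩
    rw [map_mul, map_mul, map_smul, hfε]
    calc o k t⁻¹ * mp d ε * o k t * mp d z * (o k t⁻¹ * mp d ε * o k t)
        = o k t⁻¹ * (mp d ε * (o k t * mp d z * o k t⁻¹) * mp d ε) * o k t := by
          simp only [mul_assoc]
      _ = o k t⁻¹ * (c • mp d ε) * o k t := by rw [hz', ← map_mul, ← map_mul, hc, map_smul]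
      _ = _ := by simp only [mul_smul_comm, smul_mul_assoc]
  have hu : f * ε ≠ 0 := by
    intro h0
    apply hsd
    rw [hεt, mul_assoc, ← map_mul, h0, map_zero, mul_zero]
  obtain ⟨c, hc⟩ := schur2 (u := f * ε) (v := f * MonoidAlgebra.single h 1 * ε) hfp hp hε hff
    (by rw [← mul_assoc, hff]) (by rw [mul_assoc, hε]) hu (by rw [← mul_assoc, ← mul_assoc, hff])
    (by rw [mul_assoc, hε])
  refine ⟨c, ?_⟩
  calc mp d ε * o k (t * d h) * mp d ε = (mp d ε * o k t) * o k (d h) * mp d ε := by
        rw [← o_mul]; simp only [mul_assoc]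
    _ = o k t * mp d (f * MonoidAlgebra.single h 1 * ε) := by
        rw [hεt, map_mul, map_mul, mp_single]; simp only [mul_assoc]
    _ = c • (o k t * mp d (f * ε)) := by rw [hc, map_smul, mul_smul_comm]
    _ = _ := by rw [map_mul, ← mul_assoc, ← hεt]

/-- the idempotent of a level -/
noncomputable def EL (d : H →* G) (U : Subgroup G) (ε : MonoidAlgebra k H) : MonoidAlgebra k G :=
  av k U * mp d ε

theorem EL_comm (hL : LD d U t) (z : MonoidAlgebra k H) : mp d z * av k U = av k U * mp d z :=
  mp_rel (fun g => single_comm_av (hL.d_Nm g)) z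

theorem EL_eq (hL : LD d U t) : EL d U ε = mp d ε * av k U := (EL_comm hL ε).symm

theorem EL_mid (hL : LD d U t) (g : G) :
    EL d U ε * o k g * EL d U ε = av k U * (mp d ε * o k g * mp d ε) * av k U := by
  have h1 : EL d U ε * o k g * EL d U ε =
      (av k U * mp d ε) * o k g * (mp d ε * av k U) := by
    rw [← EL_eq hL]; rfl
  rw [h1]
  simp only [mul_assoc]

/-- **the scalars of the level** -/
theorem EL_scal (hd : Function.Injective d) (hε : ε * ε = ε)
    (hp : ∀ z, ∃ c : k, ε * z * ε = c • ε) (hL : LD d U t)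
    (hsd : mp d ε * o k t * mp d ε ≠ 0) (h : H) :
    ∃ c : k, EL d U ε * o k (t * d h) * EL d U ε = c • (EL d U ε * o k t * EL d U ε) := by
  obtain ⟨c, hc⟩ := exists_scal hd hε hp hL hsd h
  exact ⟨c, by rw [EL_mid hL, EL_mid hL, hc, mul_smul_comm, smul_mul_assoc]⟩

end Level

end Vale.Agent.P180.H568.XT
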