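import Vale.Agent.P180.H568.XE
import Vale.Agent.P180.H568.XB

/-!
P180: isometry towers: the operator `X` of one level is diagonalisable; its square.
-/

set_option linter.all false

namespace Vale.Agent.P180.H568.XT

open Vale.Agent.P180 Vale.Agent.P180.H768.Gd Vale.Agent.P180.R2.H799 Vale.Agent.P180.R2.H799.BN
open Vale.Agent.P180.H19.Atwo Vale.Agent.P180.H6 Polynomial

universe u v

section Diag

variable {k : Type u} [Field k] [CharZero k] {H G : Type} [Group H] [Finite H] [Group G]
  [Finite G] {d : H →* G} {U : Subgroup G} {t : G} {ε : MonoidAlgebra k H} {σ : k →+* k}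

theorem stG_EL (hL : LD d U t) (hs : stG σ ε = ε) : stG σ (EL d U ε) = EL d U ε := by
  unfold EL
  rw [stG_mul, stG_av, stG_mp, hs, EL_comm hL]

theorem stG_o (g : G) : stG σ (o k g) = o k g⁻¹ := by
  unfold o
  rw [stG_single, map_one]

/-- self-dual case -/
theorem diag_sd [IsAlgClosed k] (hσ : IsSg σ) (hd : Function.Injective d) (hε : ε * ε = ε)
    (hp : ∀ z, ∃ c : k, ε * z * ε = c • ε) (hs : stG σ ε = ε) (hL : LD d U t)
    (hsd : mp d ε * o k t * mp d ε ≠ 0) :
    ∃ L : Finset k, aeval (EL d U ε * o k t * EL d U ε) (∏ l ∈ L, (X - C l)) = 0 := by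
  obtain ⟨h, hh⟩ := hL.tt
  obtain ⟨c, hc⟩ := EL_scal hd hε hp hL hsd h⁻¹
  have e : t * d h⁻¹ = t⁻¹ := by
    rw [map_inv, ← hh, mul_inv_rev, ← mul_assoc, mul_inv_cancel, one_mul]
  rw [e] at hc
  haveI : FiniteDimensional k (MonoidAlgebra k G) := by
    haveI := Fintype.ofFinite G
    infer_instance
  refine (pstar G hσ).diag (c := c) ?_
  change stG σ (EL d U ε * o k t * EL d U ε) = _
  rw [stG_mul, stG_mul, stG_EL hL hs, stG_o, ← mul_assoc]
  exact hc

/-- the other case -/
theorem diag_nsd [IsAlgClosed k] (hσ : IsSg σ) (hs : stG σ ε = ε) (hL : LD d U t)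
    (V : Subgroup G) :
    ∃ L : Finset k, aeval (EL d U ε * av k V * EL d U ε) (∏ l ∈ L, (X - C l)) = 0 := by
  haveI : FiniteDimensional k (MonoidAlgebra k G) := by
    haveI := Fintype.ofFinite G
    infer_instance
  refine (pstar G hσ).diag (c := 1) ?_
  change stG σ (EL d U ε * av k V * EL d U ε) = _
  rw [stG_mul, stG_mul, stG_EL hL hs, stG_av, one_smul, mul_assoc]

end Diag

section Map

variable {k : Type u} [Field k] [CharZero k] {K : Type v} [Field K] [CharZero K] (ι : k →+* K)
  {H G : Type} [Group H] [Finite H] [Group G] [Finite G] {d : H →* G} {U : Subgroup G} {t : G}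
  {ε : MonoidAlgebra k H} {σ : k →+* k}

theorem mc_EL : mc G ι (EL d U ε) = EL d U (mc H ι ε) := by
  unfold EL
  rw [map_mul, mc_av, mc_mp]

theorem mc_o (g : G) : mc G ι (o k g) = o K g := by
  unfold o
  rw [mc_single, map_one]

/-- **`X` is diagonalisable, self-dual case** -/
theorem X_diag_sd [IsAlgClosed k] (hσ : IsSg σ) (hd : Function.Injective d) (hε : ε * ε = ε)
    (hp : ∀ z, ∃ c : k, ε * z * ε = c • ε) (hs : stG σ ε = ε) (hL : LD d U t)
    (hsd : mp d (mc H ι ε) * o K t * mp d (mc H ι ε) ≠ 0) :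
    ∃ L : Finset K, aeval (EL d U (mc H ι ε) * o K t * EL d U (mc H ι ε))
      (∏ l ∈ L, (X - C l)) = 0 := by
  have hsd' : mp d ε * o k t * mp d ε ≠ 0 := by
    intro h0
    apply hsd
    rw [← mc_mp, ← mc_o ι t, ← map_mul, ← map_mul, h0, map_zero]
  have h := diag_map ι (mc G ι) (fun c a => mc_smul ι c a) (diag_sd hσ hd hε hp hs hL hsd')
  rw [map_mul, map_mul, mc_EL, mc_o] at h
  exact h

/-- **`X` is diagonalisable, the other case** -/
theorem X_diag_nsd [IsAlgClosed k] (hσ : IsSg σ) (hs : stG σ ε = ε) (hL : LD d U t)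
    (V : Subgroup G) :
    ∃ L : Finset K, aeval (EL d U (mc H ι ε) * av K V * EL d U (mc H ι ε))
      (∏ l ∈ L, (X - C l)) = 0 := by
  have h := diag_map ι (mc G ι) (fun c a => mc_smul ι c a) (diag_nsd (k := k) hσ hs hL V)
  rw [map_mul, map_mul, mc_EL, mc_av] at h
  exact h

end Map

section Sq

variable {k : Type u} [Field k] [CharZero k] {H G : Type} [Group H] [Finite H] [Group G]
  [Finite G] {d : H →* G} {U : Subgroup G} {t : G} {ε : MonoidAlgebra k H}

/-- `ε t ε t ε = κ ε` with `κ ≠ 0` -/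
theorem exists_sq0 (hd : Function.Injective d) (hε : ε * ε = ε)
    (hp : ∀ z, ∃ c : k, ε * z * ε = c • ε) (hL : LD d U t)
    (hsd : mp d ε * o k t * mp d ε ≠ 0) :
    ∃ κ : k, κ ≠ 0 ∧ mp d ε * o k t * mp d ε * o k t * mp d ε = κ • mp d ε := by
  obtain ⟨f, hf⟩ := exists_conj_mp (k := k) hL.td' ε
  have hts : o k t * o k t⁻¹ = (1 : MonoidAlgebra k G) := o_mul_inv t
  have hst : o k t⁻¹ * o k t = (1 : MonoidAlgebra k G) := o_inv_mul t
  have hεt : mp d ε * o k t = o k t * mp d f := by
    rw [← hf]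
    calc mp d ε * o k t = (o k t * o k t⁻¹) * mp d ε * o k t := by rw [hts, one_mul]
      _ = _ := by simp only [mul_assoc]
  have hfε : mp d f = o k t⁻¹ * mp d ε * o k t := hf.symm
  have hff : f * f = f := by
    apply mp_injective (k := k) hd
    rw [map_mul, hfε]
    calc o k t⁻¹ * mp d ε * o k t * (o k t⁻¹ * mp d ε * o k t)
        = o k t⁻¹ * mp d ε * (o k t * o k t⁻¹) * mp d ε * o k t := by simp only [mul_assoc]
      _ = o k t⁻¹ * (mp d ε * mp d ε) * o k t := by rw [hts, mul_one]; simp only [mul_assoc]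
      _ = _ := by rw [← map_mul, hε]
  have htd'' : ∀ h, ∃ h', (t⁻¹)⁻¹ * d h * t⁻¹ = d h' := by
    intro h
    rw [inv_inv]
    exact hL.td h
  have hfp : ∀ z, ∃ c : k, f * z * f = c • f := by
    intro z
    obtain ⟨z', hz'⟩ := exists_conj_mp (k := k) htd'' z
    rw [inv_inv] at hz'
    obtain ⟨c, hc⟩ := hp z'
    refine ⟨c, mp_injective (k := k) hd ?_⟩
    rw [map_mul, map_mul, map_smul, hfε]
    calc o k t⁻¹ * mp d ε * o k t * mp d z * (o k t⁻¹ * mp d ε * o k t)
        = o k t⁻¹ * (mp d ε * (o k t * mp d z * o k t⁻¹) * mp d ε) * o k t := by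
          simp only [mul_assoc]
      _ = o k t⁻¹ * (c • mp d ε) * o k t := by rw [hz', ← map_mul, ← map_mul, hc, map_smul]
      _ = _ := by simp only [mul_smul_comm, smul_mul_assoc]
  have hu : f * ε ≠ 0 := by
    intro h0
    apply hsd
    rw [hεt, mul_assoc, ← map_mul, h0, map_zero, mul_zero]
  -- `t ε t = g h` with `g = t ε t⁻¹`, `h = t²`
  obtain ⟨h, hh⟩ := hL.tt
  obtain ⟨g, hg⟩ := exists_conj_mp (k := k) htd'' ε
  rw [inv_inv] at hg
  have htεt : o k t * mp d ε * o k t = mp d (g * MonoidAlgebra.single h 1) := by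
    have e2 : MonoidAlgebra.single (t * t) (1 : k) = o k t * o k t := (o_mul t t).symm
    rw [map_mul, mp_single, ← hg, ← hh, e2]
    calc o k t * mp d ε * o k t = o k t * mp d ε * (o k t⁻¹ * o k t) * o k t := by
          rw [hst, mul_one]
      _ = _ := by simp only [mul_assoc]
  obtain ⟨κ, hκ⟩ := hp (g * MonoidAlgebra.single h 1)
  have h1 : mp d ε * o k t * mp d ε * o k t * mp d ε = κ • mp d ε := by
    calc mp d ε * o k t * mp d ε * o k t * mp d ε
        = mp d ε * (o k t * mp d ε * o k t) * mp d ε := by simp only [mul_assoc]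
      _ = κ • mp d ε := by rw [htεt, ← map_mul, ← map_mul, hκ, map_smul]
  refine ⟨κ, ?_, h1⟩
  -- nonvanishing: `(ε v f) (f ε)` with `v = g h`
  have hε0 : ε ≠ 0 := by
    rintro rfl
    exact hu (mul_zero f)
  have hv : ε * (g * MonoidAlgebra.single h 1) = ε * (g * MonoidAlgebra.single h 1) * f := by
    apply mp_injective (k := k) hd
    have e3 : mp d (ε * (g * MonoidAlgebra.single h 1)) = mp d ε * (o k t * mp d ε * o k t) := by
      rw [map_mul, htεt]
    rw [map_mul (mp d) (ε * (g * MonoidAlgebra.single h 1)) f, e3, hfε]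
    calc mp d ε * (o k t * mp d ε * o k t) = mp d ε * (o k t * (mp d ε * mp d ε) * o k t) := by
          rw [← map_mul, hε]
      _ = mp d ε * (o k t * mp d ε * (o k t * o k t⁻¹) * mp d ε * o k t) := by
          rw [hts, mul_one]; simp only [mul_assoc]
      _ = _ := by simp only [mul_assoc]
  have hv0 : ε * (g * MonoidAlgebra.single h 1) * f ≠ 0 := by
    rw [← hv]
    intro h0
    apply hsd
    have h2 : mp d ε * (o k t * mp d ε * o k t) = 0 := by
      rw [htεt, ← map_mul, h0, map_zero]
    calc mp d ε * o k t * mp d ε = mp d ε * (o k t * mp d ε * o k t) * o k t⁻¹ := by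
          calc mp d ε * o k t * mp d ε = mp d ε * o k t * mp d ε * (o k t * o k t⁻¹) := by
                rw [hts, mul_one]
            _ = _ := by simp only [mul_assoc]
      _ = 0 := by rw [h2, zero_mul]
  have hne := mul_ne (u := f * ε) (v := ε * (g * MonoidAlgebra.single h 1) * f) hfp hp hε hff
    (by rw [← mul_assoc, hff]) (by rw [mul_assoc, hε]) hu (by rw [← mul_assoc, ← mul_assoc, hε])
    (by rw [mul_assoc, hff]) hv0 hε0
  intro hκ0
  apply hne
  have h3 : ε * (g * MonoidAlgebra.single h 1) * f * (f * ε) =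
      ε * (g * MonoidAlgebra.single h 1) * ε := by
    rw [← mul_assoc, mul_assoc _ f f, hff, ← hv]
  rw [h3, hκ, hκ0, zero_smul]

/-- **the square of `X`** -/
theorem exists_sq (hd : Function.Injective d) (hε : ε * ε = ε)
    (hp : ∀ z, ∃ c : k, ε * z * ε = c • ε) (hL : LD d U t)
    (hsd : mp d ε * o k t * mp d ε ≠ 0) :
    ∃ κ : k, κ ≠ 0 ∧ EL d U ε * o k t * EL d U ε * (EL d U ε * o k t * EL d U ε) =
      κ • (EL d U ε * av k (conjS t U) * EL d U ε) := by
  obtain ⟨κ, hκ0, hκ⟩ := exists_sq0 hd hε hp hL hsd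
  refine ⟨κ, hκ0, ?_⟩
  have huu : av k U * av k U = av k U := av_idem (cardU U)
  have hc : mp d ε * av k U = av k U * mp d ε := EL_comm hL ε
  have hee : mp d ε * mp d ε = mp d ε := by rw [← map_mul, hε]
  have htu : o k t * av k U = av k (conjS t U) * o k t := single_mul_av U t
  have hcm : ∀ z, mp d z * av k (conjS t U) = av k (conjS t U) * mp d z := by
    intro z
    refine mp_rel (fun h => single_comm_av ?_) z
    rw [mem_Nm_conjS]
    obtain ⟨h', hh'⟩ := hL.td' h
    rw [hh']
    exact hL.d_Nm h'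
  have h1 : EL d U ε * o k t * EL d U ε = av k U * (mp d ε * o k t * mp d ε) * av k U :=
    EL_mid hL t
  have h2 : EL d U ε * av k (conjS t U) * EL d U ε =
      av k U * (mp d ε * av k (conjS t U)) * av k U := by
    have h3 : EL d U ε * av k (conjS t U) * EL d U ε =
        (av k U * mp d ε) * av k (conjS t U) * (mp d ε * av k U) := by
      rw [← EL_eq hL]; rfl
    rw [h3]
    calc (av k U * mp d ε) * av k (conjS t U) * (mp d ε * av k U)
        = av k U * (mp d ε * (av k (conjS t U) * mp d ε)) * av k U := by simp only [mul_assoc]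
      _ = av k U * ((mp d ε * mp d ε) * av k (conjS t U)) * av k U := by
          rw [← hcm]; simp only [mul_assoc]
      _ = _ := by rw [hee]
  rw [h1, h2]
  calc av k U * (mp d ε * o k t * mp d ε) * av k U *
        (av k U * (mp d ε * o k t * mp d ε) * av k U)
      = av k U * (mp d ε * o k t * mp d ε) * (av k U * av k U) *
        (mp d ε * o k t * mp d ε) * av k U := by simp only [mul_assoc]
    _ = av k U * mp d ε * o k t * (mp d ε * av k U) * mp d ε * o k t * mp d ε * av k U := by
        rw [huu]; simp only [mul_assoc]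
    _ = av k U * mp d ε * (o k t * av k U) * (mp d ε * mp d ε) * o k t * mp d ε * av k U := by
        rw [hc]; simp only [mul_assoc]
    _ = av k U * (mp d ε * av k (conjS t U)) * o k t * mp d ε * o k t * mp d ε * av k U := by
        rw [htu, hee]; simp only [mul_assoc]
    _ = av k U * av k (conjS t U) * (mp d ε * o k t * mp d ε * o k t * mp d ε) * av k U := by
        rw [hcm]; simp only [mul_assoc]
    _ = κ • (av k U * (mp d ε * av k (conjS t U)) * av k U) := by
        rw [hκ, hcm]
        simp only [mul_smul_comm, smul_mul_assoc, mul_assoc]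

end Sq

end Vale.Agent.P180.H568.XT
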