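import Vale.Agent.P180.H568.XF

/-!
P180: isometry towers: `X` is invertible in the corner.
-/

set_option linter.all false

namespace Vale.Agent.P180.H568.XT

open Vale.Agent.P180 Vale.Agent.P180.H768.Gd Vale.Agent.P180.R2.H799 Vale.Agent.P180.R2.H799.BN

universe u v

section Ring

variable {K : Type*} [Field K] {A : Type*} [Ring A] [Algebra K A]

theorem inv_of_inj [FiniteDimensional K A] {E X : A} (hEE : E * E = E) (hEX : E * X = X)
    (hXE : X * E = X) (hinj : ∀ z, E * z = z → X * z = 0 → z = 0) : ∃ y, y * X = E := by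
  let V : Submodule K A :=
    { carrier := {z | E * z = z}
      add_mem' := by
        intro a b ha hb
        change E * (a + b) = a + b
        rw [mul_add]
        exact congrArg₂ (· + ·) ha hb
      zero_mem' := mul_zero E
      smul_mem' := by
        intro c a ha
        change E * (c • a) = c • a
        rw [mul_smul_comm]
        exact congrArg (c • ·) ha }
  let L : V →ₗ[K] V :=
    { toFun := fun z => ⟨X * z.1, by
        change E * (X * z.1) = X * z.1
        rw [← mul_assoc, hEX]⟩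
      map_add' := fun a b => Subtype.ext (mul_add X a.1 b.1)
      map_smul' := fun c a => Subtype.ext (mul_smul_comm c X a.1) }
  have hL : Function.Injective L := by
    rw [← LinearMap.ker_eq_bot, LinearMap.ker_eq_bot']
    intro z hz
    have h1 : X * z.1 = 0 := congrArg Subtype.val hz
    exact Subtype.ext (hinj z.1 z.2 h1)
  obtain ⟨z, hz⟩ := (LinearMap.injective_iff_surjective.mp hL) ⟨E, hEE⟩
  have hz1 : X * z.1 = E := congrArg Subtype.val hz
  refine ⟨z.1 * E, ?_⟩
  have h2 : z.1 * E * X - E = 0 := by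
    apply hinj
    · rw [mul_sub, ← mul_assoc, ← mul_assoc, z.2, hEE]
    · rw [mul_sub, ← mul_assoc, ← mul_assoc, hz1, hEE, hEX, hXE, sub_self]
  exact sub_eq_zero.mp h2

theorem kill {E X E0 X' y' T z : A} {a b c : K} (hb : b ≠ 0) (hEE : E * E = E)
    (hE0E0 : E0 * E0 = E0) (hEE0 : E * E0 = E0 * E) (hET : E * E0 * T = T)
    (hTT : T * T = a • T + b • (E * E0)) (hTXT : T * X' * T = c • (X * E0))
    (hE0X' : E0 * X' = X') (hEX' : E * X' = X' * E) (hyX : y' * X' = E0)
    (hz : E * z = z) (hz0 : E0 * z = z) (hXz : X * z = 0) : z = 0 := by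
  have hET1 : E * T = T := by
    calc E * T = (E * E) * E0 * T := by
          conv_lhs => rw [← hET]
          simp only [mul_assoc]
      _ = T := by rw [hEE, hET]
  have hET0 : E0 * T = T := by
    calc E0 * T = E0 * (E * E0 * T) := by rw [hET]
      _ = (E0 * E) * E0 * T := by simp only [mul_assoc]
      _ = E * (E0 * E0) * T := by rw [← hEE0]; simp only [mul_assoc]
      _ = T := by rw [hE0E0, hET]
  have h1 : T * (X' * (T * z)) = 0 := by
    calc T * (X' * (T * z)) = (T * X' * T) * z := by simp only [mul_assoc]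
      _ = c • (X * (E0 * z)) := by rw [hTXT, smul_mul_assoc, mul_assoc]
      _ = 0 := by rw [hz0, hXz, smul_zero]
  have h2 : X' * (T * z) = 0 := by
    have h3 : T * (T * (X' * (T * z))) = 0 := by rw [h1, mul_zero]
    rw [← mul_assoc, hTT, add_mul, smul_mul_assoc, smul_mul_assoc, h1, smul_zero, zero_add] at h3
    have h4 := (smul_eq_zero.mp h3).resolve_left hb
    calc X' * (T * z) = X' * ((E * T) * z) := by rw [hET1]
      _ = (X' * E) * (T * z) := by simp only [mul_assoc]
      _ = E * (E0 * X') * (T * z) := by rw [hE0X', hEX']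
      _ = E * E0 * (X' * (T * z)) := by simp only [mul_assoc]
      _ = 0 := h4
  have h5 : T * z = 0 := by
    calc T * z = (E0 * T) * z := by rw [hET0]
      _ = y' * (X' * (T * z)) := by rw [← hyX]; simp only [mul_assoc]
      _ = 0 := by rw [h2, mul_zero]
  have h6 : T * (T * z) = 0 := by rw [h5, mul_zero]
  rw [← mul_assoc, hTT, add_mul, smul_mul_assoc, smul_mul_assoc, h5, smul_zero, zero_add,
    mul_assoc, hz0, hz] at h6
  exact (smul_eq_zero.mp h6).resolve_left hb

end Ring

section Grp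

variable {k : Type u} [Field k] [CharZero k] {G : Type} [Group G] [Finite G]

/-- the expansion of `E av(V) z` -/
theorem eq_zero_of_mack {G' V : Subgroup G} {E X T w z : MonoidAlgebra k G} {κ : k} (hκ : κ ≠ 0)
    (hw : w * X = κ • (E * av k V * E))
    (hXc : ∀ g ∈ G', X * o k g = o k g * X)
    (hm : ∀ n ∈ V, n ≠ 1 → E * o k n * E = 0 ∨
      (∃ c : k, ∃ g' ∈ G', E * o k n * E = c • (X * o k g')) ∨
      ∃ g₁ ∈ G', ∃ g₂ ∈ G', E * o k n * E = o k g₁ * T * o k g₂)
    (hz : E * z = z) (hXz : X * z = 0) (hT : ∀ g ∈ G', T * (o k g * z) = 0) : z = 0 := by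
  classical
  letI := Fintype.ofFinite V
  have h1 : ∀ n ∈ V, n ≠ 1 → E * o k n * z = 0 := by
    intro n hn hn1
    have h2 : E * o k n * z = (E * o k n * E) * z := by
      conv_lhs => rw [← hz]
      simp only [mul_assoc]
    rw [h2]
    rcases hm n hn hn1 with h | ⟨c, g', hg', h⟩ | ⟨g₁, hg₁, g₂, hg₂, h⟩
    · rw [h, zero_mul]
    · rw [h, hXc g' hg', smul_mul_assoc, mul_assoc, hXz, mul_zero, smul_zero]
    · rw [h, mul_assoc, mul_assoc, hT g₂ hg₂, mul_zero]
  have h3 : E * av k V * z = ((Nat.card V : ℕ) : k)⁻¹ • z := by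
    rw [av_def, mul_smul_comm, smul_mul_assoc, Finset.mul_sum, Finset.sum_mul,
      Finset.sum_eq_single (1 : V)]
    · change _ • (E * o k (1 : G) * z) = _
      rw [o_one, mul_one, hz]
    · intro v _ hv
      exact h1 v v.2 fun h => hv (Subtype.ext h)
    · intro h
      exact absurd (Finset.mem_univ _) h
  have h4 : w * (X * z) = 0 := by rw [hXz, mul_zero]
  rw [← mul_assoc, hw, smul_mul_assoc, mul_assoc, hz, h3, smul_smul] at h4
  refine (smul_eq_zero.mp h4).resolve_left (mul_ne_zero hκ (inv_ne_zero ?_))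
  have : Nat.card V ≠ 0 := Nat.card_pos.ne'
  exact_mod_cast this

/-- **`X` is invertible: bottom level** -/
theorem X_inv_zero {G' V : Subgroup G} {E X w : MonoidAlgebra k G} {κ : k} (hκ : κ ≠ 0)
    (hw : w * X = κ • (E * av k V * E)) (hEE : E * E = E) (hEX : E * X = X) (hXE : X * E = X)
    (hXc : ∀ g ∈ G', X * o k g = o k g * X)
    (hm : ∀ n ∈ V, n ≠ 1 → E * o k n * E = 0 ∨
      ∃ c : k, ∃ g' ∈ G', E * o k n * E = c • (X * o k g')) : ∃ y, y * X = E := by
  haveI : FiniteDimensional k (MonoidAlgebra k G) := by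
    haveI := Fintype.ofFinite G
    infer_instance
  refine inv_of_inj (K := k) hEE hEX hXE fun z hz hXz => ?_
  refine eq_zero_of_mack (T := 0) hκ hw hXc (fun n hn hn1 => ?_) hz hXz (fun g _ => zero_mul _)
  rcases hm n hn hn1 with h | h
  · exact Or.inl h
  · exact Or.inr (Or.inl h)

/-- **`X` is invertible: the step** -/
theorem X_inv_succ {G' V : Subgroup G} {E X E0 X' T w : MonoidAlgebra k G} {κ a b c : k}
    (hκ : κ ≠ 0) (hb : b ≠ 0) (hw : w * X = κ • (E * av k V * E)) (hEE : E * E = E)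
    (hEX : E * X = X) (hXE : X * E = X)
    (hXc : ∀ g ∈ G', X * o k g = o k g * X) (hEc : ∀ g ∈ G', E * o k g = o k g * E)
    (hE0 : E0 ∈ SubAlg k G') (hX' : X' ∈ SubAlg k G')
    (hE0E0 : E0 * E0 = E0) (hET : E * E0 * T = T) (hTE : T * (E * E0) = T)
    (hTT : T * T = a • T + b • (E * E0)) (hTXT : T * X' * T = c • (X * E0))
    (hE0X' : E0 * X' = X') (hyX : ∃ y', y' * X' = E0)
    (hm : ∀ n ∈ V, n ≠ 1 → E * o k n * E = 0 ∨
      (∃ c : k, ∃ g' ∈ G', E * o k n * E = c • (X * o k g')) ∨
      ∃ g₁ ∈ G', ∃ g₂ ∈ G', E * o k n * E = o k g₁ * T * o k g₂) : ∃ y, y * X = E := by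
  haveI : FiniteDimensional k (MonoidAlgebra k G) := by
    haveI := Fintype.ofFinite G
    infer_instance
  obtain ⟨y', hy'⟩ := hyX
  -- commutation with the group algebra of `G'`
  have hcomm : ∀ {Z : MonoidAlgebra k G}, (∀ g ∈ G', Z * o k g = o k g * Z) →
      ∀ x ∈ SubAlg k G', Z * x = x * Z := by
    intro Z hZ x hx
    symm
    refine commute_of_mem hx fun g hg => ?_
    rw [cj_eq]
    have h1 : o k g * Z * o k g⁻¹ = Z := by
      rw [← hZ g hg, mul_assoc, o_mul_inv, mul_one]
    exact h1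
  refine inv_of_inj (K := k) hEE hEX hXE fun z hz hXz => ?_
  refine eq_zero_of_mack hκ hw hXc hm hz hXz fun g hg => ?_
  -- `E0 g z = 0`
  have h1 : E0 * (o k g * z) = 0 := by
    refine kill (E := E) (X := X) (E0 := E0) (X' := X') (y' := y') (T := T) (a := a) (b := b)
      (c := c) hb hEE hE0E0 (hcomm hEc E0 hE0) hET hTT hTXT hE0X' (hcomm hEc X' hX') hy' ?_ ?_ ?_
    · rw [← mul_assoc, hcomm hEc E0 hE0, mul_assoc, ← mul_assoc E, hEc g hg, mul_assoc, hz]
    · rw [← mul_assoc, hE0E0]
    · rw [← mul_assoc, hcomm hXc E0 hE0, mul_assoc, ← mul_assoc X, hXc g hg, mul_assoc, hXz,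
        mul_zero, mul_zero]
  calc T * (o k g * z) = (T * (E * E0)) * (o k g * z) := by rw [hTE]
    _ = T * E * (E0 * (o k g * z)) := by simp only [mul_assoc]
    _ = 0 := by rw [h1, mul_zero]

end Grp

end Vale.Agent.P180.H568.XT
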