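import Vale.Agent.P180.H568.XG
import Vale.Agent.P180.H19.AtwoH
import Vale.Agent.P180.H6.TowA
import Vale.Agent.P180.H386.PosG

/-!
P180: isometry towers: the group theory of one level of a frame, for the element `X`.
-/

set_option linter.all false

namespace Vale.Agent.P180.H568.XT

open Vale.Agent.P180 Vale.Agent.P180.R2.H799 Vale.Agent.P180.R2.H799.BN
open Vale.Agent.P180.H19.Atwo Vale.Agent.P180.R2.H854 Vale.Agent.P180.H393.Fm

universe u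

section Lev

variable {K E : Type} [Field K] [AddCommGroup E] [Module K E] {Φ : HForm K E} {ι : Type}
  [Fintype ι] [DecidableEq ι]

/-- the inverse adjoint -/
def adG (θ : K →+* K) (hθ : ∀ c, θ (θ c) = c) (g : (ι → K) ≃ₗ[K] (ι → K)) :
    (ι → K) ≃ₗ[K] (ι → K) :=
  LinearEquiv.ofLinear (adjL θ g) (adjL θ g⁻¹)
    (by
      apply LinearMap.ext
      intro v
      change adjL θ g (adjL θ g⁻¹ v) = v
      rw [← adjL_mul hθ, mul_inv_cancel, adjL_one hθ])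
    (by
      apply LinearMap.ext
      intro v
      change adjL θ g⁻¹ (adjL θ g v) = v
      rw [← adjL_mul hθ, inv_mul_cancel, adjL_one hθ])

theorem adG_apply {θ : K →+* K} (hθ : ∀ c, θ (θ c) = c) (g : (ι → K) ≃ₗ[K] (ι → K)) (a : ι → K) :
    adG θ hθ g a = adjL θ g a := rfl

theorem adG_adG {θ : K →+* K} (hθ : ∀ c, θ (θ c) = c) (g : (ι → K) ≃ₗ[K] (ι → K)) (a : ι → K) :
    adjL θ (adG θ hθ g) a = g a := by
  apply hh_ext_right hθ
  intro b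
  rw [hh_adjL' hθ]
  change hh θ (adjL θ g⁻¹ b) a = _
  rw [hh_symm hθ a, hh_adjL' hθ, inv_inv, ← hh_symm hθ]

variable (P : Hyp Φ ι)

theorem tt_gl (g : (ι → K) ≃ₗ[K] (ι → K)) : P.tt * P.gl g = P.gl (adG Φ.θ Φ.θθ g) * P.tt := by
  refine Frame.ext_hyp P (fun a => ?_) (fun a => ?_) fun v h1 h2 => ?_
  · rw [LinearEquiv.mul_apply, LinearEquiv.mul_apply, P.gl_x, P.tt_x, P.tt_x, P.gl_y, adG_adG]
  · rw [LinearEquiv.mul_apply, LinearEquiv.mul_apply, P.gl_y, P.tt_y, P.tt_y, map_smul, P.gl_x,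
      adG_apply]
  · rw [LinearEquiv.mul_apply, LinearEquiv.mul_apply, P.gl_w g h1 h2, P.tt_w h1 h2,
      P.gl_w _ h1 h2]

theorem gl_tt (g : (ι → K) ≃ₗ[K] (ι → K)) : P.gl g * P.tt = P.tt * P.gl (adG Φ.θ Φ.θθ g) := by
  rw [tt_gl]
  congr 2
  apply LinearEquiv.ext
  intro a
  exact (adG_adG Φ.θθ g a).symm

theorem exists_tt_sq : ∃ z, P.tt * P.tt = P.gl z := by
  have hε : Φ.ε ≠ 0 := by
    intro h0
    have h1 := Φ.εε
    rw [h0, zero_mul] at h1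
    exact zero_ne_one h1
  refine ⟨LinearEquiv.smulOfNeZero K (ι → K) Φ.ε hε, ?_⟩
  refine Frame.ext_hyp P (fun a => ?_) (fun a => ?_) fun v h1 h2 => ?_
  · rw [LinearEquiv.mul_apply, P.tt_x, P.tt_y, P.gl_x]
    change _ = P.x (Φ.ε • a)
    rw [map_smul]
  · have e : adjL Φ.θ (LinearEquiv.smulOfNeZero K (ι → K) Φ.ε hε) a = Φ.ε • a := by
      apply hh_ext_right Φ.θθ
      intro b
      obtain ⟨c, rfl⟩ := (LinearEquiv.smulOfNeZero K (ι → K) Φ.ε hε).surjective b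
      rw [hh_adjL Φ.θθ]
      change _ = hh Φ.θ (Φ.ε • c) (Φ.ε • a)
      rw [hh_smul_left, hh_smul_right, ← mul_assoc, Φ.εε, one_mul]
    rw [LinearEquiv.mul_apply, P.tt_y, map_smul, P.tt_x, P.gl_y, e, map_smul]
  · rw [LinearEquiv.mul_apply, P.tt_w h1 h2, P.tt_w h1 h2, P.gl_w _ h1 h2]

/-- **the conjugate radical moves the subspace** -/
theorem eq_one_of_map {u : E ≃ₗ[K] E} (hu : u ∈ P.UU) (hy : ∀ b, ∃ c, u (P.y b) = P.y c) :
    u = 1 := by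
  obtain ⟨hI, hx, hw⟩ := P.mem_UU.mp hu
  have h1 : ∀ b, u (P.y b) = P.y b := by
    intro b
    obtain ⟨c, hc⟩ := hy b
    have h2 := P.py_of_fix hI hx (P.y b)
    rw [hc, P.py_y, P.py_y] at h2
    rw [hc, h2]
  refine Frame.ext_hyp P (fun a => hx a) (fun a => h1 a) fun v hv1 hv2 => ?_
  obtain ⟨a, ha⟩ := hw v hv2
  have h3 := P.px_of_fix hI h1 v
  have h4 : P.px (u v - v) = 0 := by rw [map_sub, h3, sub_self]
  rw [ha, P.px_x] at h4
  rw [h4, map_zero] at ha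
  exact sub_eq_zero.mp ha

end Lev

section Fra

variable {K E : Type} [Field K] [AddCommGroup E] [Module K E] {Φ : HForm K E} {ι : Type}
  [Fintype ι] [DecidableEq ι] {m : ℕ} (F : Frame Φ ι m) [Finite (E ≃ₗ[K] E)]

/-- conjugation by the swap -/
theorem tau_gl (g0 h : (ι → K) ≃ₗ[K] (ι → K)) {i : ℕ} (hi : i < m) :
    F.tau g0 i * (F.hyp i hi).gl h =
      (F.hyp i hi).gl (adG Φ.θ Φ.θθ (g0 * h * g0⁻¹)) * F.tau g0 i := by
  have h1 : (F.hyp i hi).gl g0 * (F.hyp i hi).gl h =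
      (F.hyp i hi).gl (g0 * h * g0⁻¹) * (F.hyp i hi).gl g0 := by
    rw [← map_mul, ← map_mul, inv_mul_cancel_right]
  rw [F.tau_eq g0 hi, mul_assoc, h1, ← mul_assoc, tt_gl, mul_assoc]

theorem gl_tau (g0 h : (ι → K) ≃ₗ[K] (ι → K)) {i : ℕ} (hi : i < m) :
    (F.hyp i hi).gl h * F.tau g0 i =
      F.tau g0 i * (F.hyp i hi).gl (g0⁻¹ * adG Φ.θ Φ.θθ h * g0) := by
  have h1 : (F.hyp i hi).gl (adG Φ.θ Φ.θθ h) * (F.hyp i hi).gl g0 =
      (F.hyp i hi).gl g0 * (F.hyp i hi).gl (g0⁻¹ * adG Φ.θ Φ.θθ h * g0) := by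
    rw [← map_mul, ← map_mul, mul_assoc, mul_inv_cancel_left]
  rw [F.tau_eq g0 hi, ← mul_assoc, gl_tt, mul_assoc, h1, ← mul_assoc]

/-- the data of one level of a frame -/
theorem ld_frame (g0 : (ι → K) ≃ₗ[K] (ι → K)) {i : ℕ} (hi : i < m) :
    LD (F.hyp i hi).gl (F.U i hi) (F.tau g0 i) where
  d_Nm h := H6.TowF.gl_nm F hi h
  td h := ⟨_, by rw [tau_gl F g0 h hi, mul_inv_cancel_right]⟩
  td' h := ⟨_, by rw [mul_assoc, gl_tau F g0 h hi, inv_mul_cancel_left]⟩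
  tt := by
    obtain ⟨z, hz⟩ := exists_tt_sq (F.hyp i hi)
    refine ⟨z * adG Φ.θ Φ.θθ g0 * g0, ?_⟩
    rw [map_mul, map_mul, ← hz, F.tau_eq g0 hi]
    calc (F.hyp i hi).tt * (F.hyp i hi).gl g0 * ((F.hyp i hi).tt * (F.hyp i hi).gl g0)
        = (F.hyp i hi).tt * ((F.hyp i hi).gl g0 * (F.hyp i hi).tt) * (F.hyp i hi).gl g0 := by
          simp only [mul_assoc]
      _ = _ := by rw [gl_tt]; simp only [mul_assoc]

/-- the conjugate radical -/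
theorem conj_tau (g0 : (ι → K) ≃ₗ[K] (ι → K)) {i : ℕ} (hi : i < m) :
    conjS (F.tau g0 i) (F.U i hi) = F.Um i hi := by
  have h1 : conjS ((F.hyp i hi).gl g0) (F.U i hi) = F.U i hi :=
    conjS_eq_of_mem_Nm (H6.TowF.gl_nm F hi g0)
  have h2 : ∀ {V : Subgroup (E ≃ₗ[K] E)} (a b : E ≃ₗ[K] E), conjS (a * b) V = conjS a (conjS b V) := by
    intro V a b
    ext v
    rw [mem_conjS, mem_conjS, mem_conjS, mul_inv_rev]
    simp only [mul_assoc]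
  rw [F.tau_eq g0 hi, h2, h1]
  rfl

/-- the elements of the opposite radical move the subspace -/
theorem map_ne_of_Um {i : ℕ} (hi : i < m) {n : E ≃ₗ[K] E} (hn : n ∈ F.Um i hi) (h1 : n ≠ 1) :
    (LinearMap.range (F.x i)).map (n : E →ₗ[K] E) ≠ LinearMap.range (F.x i) := by
  intro h
  apply h1
  have h2 := mem_conjS.mp hn
  have h3 : (F.hyp i hi).tt⁻¹ * n * (F.hyp i hi).tt = 1 := by
    refine eq_one_of_map (F.hyp i hi) h2.1 fun b => ?_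
    have h4 : n ((F.hyp i hi).x b) ∈ LinearMap.range (F.x i) := by
      rw [← h]
      exact ⟨_, ⟨b, rfl⟩, rfl⟩
    obtain ⟨c, hc⟩ := h4
    have hε : (F.hyp i hi).tt ((F.hyp i hi).y b) = Φ.ε • (F.hyp i hi).x b := (F.hyp i hi).tt_y b
    refine ⟨c, ?_⟩
    rw [LinearEquiv.mul_apply, LinearEquiv.mul_apply, hε, map_smul, map_smul]
    have h5 : n ((F.hyp i hi).x b) = (F.hyp i hi).x c := hc.symm
    have h6 : (F.hyp i hi).tt⁻¹ ((F.hyp i hi).x c) = Φ.θ Φ.ε • (F.hyp i hi).y c := Pr.ti_x2 c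
    rw [h5, h6, smul_smul, Φ.εε, one_smul]
  have h4 : n = (F.hyp i hi).tt * ((F.hyp i hi).tt⁻¹ * n * (F.hyp i hi).tt) *
      (F.hyp i hi).tt⁻¹ := by group
  rw [h4, h3, mul_one, mul_inv_cancel]

end Fra

section PDm

variable {F A : Type} [Field F] [AddCommGroup A] [Module F A] {G : Type} [Group G]
  {γ : ((A × A) ≃ₗ[F] (A × A)) →* G} {U U0 : Subgroup G} {t : G}

theorem D2_up (g : A ≃ₗ[F] A) (x : A →ₗ[F] A) :
    D2 g * up x * (D2 g)⁻¹ = up (x ∘ₗ (g⁻¹ : A ≃ₗ[F] A).toLinearMap) := by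
  rw [mul_inv_eq_iff_eq_mul]
  apply LinearEquiv.ext
  intro v
  refine Prod.ext ?_ rfl
  change v.1 + x v.2 = v.1 + x (g⁻¹ (g v.2))
  rw [ap_inv]

theorem D2_lo (g : A ≃ₗ[F] A) (x : A →ₗ[F] A) :
    D2 g * lo x * (D2 g)⁻¹ = lo (g.toLinearMap ∘ₗ x) := by
  rw [mul_inv_eq_iff_eq_mul]
  apply LinearEquiv.ext
  intro v
  refine Prod.ext rfl ?_
  change g (v.2 + x v.1) = g v.2 + g (x v.1)
  rw [map_add]

theorem D1_D2 (g h : A ≃ₗ[F] A) : D2 g * D1 h = D1 h * D2 g := by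
  apply LinearEquiv.ext
  intro v
  rfl

/-- **change of the swap** -/
theorem PD.mul_d2 (h : PD γ U U0 t) (ht : ∀ g, ∃ g', t * γ (D2 g) * t⁻¹ = γ (D2 g'))
    (g0 : A ≃ₗ[F] A) : PD γ U U0 (t * γ (D2 g0)) := by
  have hx : ∀ x, ∃ x', (t * γ (D2 g0))⁻¹ * γ (up x) * (t * γ (D2 g0)) =
      t⁻¹ * γ (up x') * t := by
    intro x
    obtain ⟨x', hx'⟩ := h.x_d2 g0⁻¹ x
    refine ⟨x', ?_⟩
    rw [← hx', map_inv, map_inv]
    group
  have hx' : ∀ x', ∃ x, t⁻¹ * γ (up x') * t =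
      (t * γ (D2 g0))⁻¹ * γ (up x) * (t * γ (D2 g0)) := by
    intro x
    obtain ⟨x', hx'⟩ := h.x_d2 g0 x
    refine ⟨x', ?_⟩
    calc t⁻¹ * γ (up x) * t = (γ (D2 g0))⁻¹ *
          (γ (D2 g0) * (t⁻¹ * γ (up x) * t) * (γ (D2 g0))⁻¹) * γ (D2 g0) := by group
      _ = _ := by rw [hx']; group
  refine
    { up_mem := h.up_mem
      d1 := h.d1
      d2 := h.d2
      U0_le := h.U0_le
      U0_Nm := h.U0_Nm
      U0_d1 := h.U0_d1
      d2_U0 := h.d2_U0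
      t_Nm := (Nm U).mul_mem h.t_Nm (h.d2 g0)
      t_d1 := fun g => ?_
      x_mem := fun x => ?_
      x_U0 := fun x v hv => ?_
      x_d2 := fun g x => ?_
      fac := fun u hu => ?_
      t_up := fun y => ?_
      t_lo := fun y => ?_ }
  · rw [mul_assoc, ← map_mul, D1_D2, map_mul, ← mul_assoc, h.t_d1, mul_assoc]
  · obtain ⟨x', hx1⟩ := hx x
    rw [hx1]
    exact h.x_mem x'
  · obtain ⟨x', hx1⟩ := hx x
    rw [hx1]
    exact h.x_U0 x' v hv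
  · obtain ⟨x', hx1⟩ := hx x
    obtain ⟨x2, hx2⟩ := h.x_d2 g x'
    obtain ⟨x3, hx3⟩ := hx' x2
    exact ⟨x3, by rw [hx1, hx2, hx3]⟩
  · obtain ⟨y, v, hv, x, hu'⟩ := h.fac u hu
    obtain ⟨x', hx1⟩ := hx' x
    exact ⟨y, v, hv, x', by rw [hu', hx1]⟩
  · have e : t * γ (D2 g0) * γ (up y) * (t * γ (D2 g0))⁻¹ =
        t * γ (up (y ∘ₗ (g0⁻¹ : A ≃ₗ[F] A).toLinearMap)) * t⁻¹ := by
      rw [← D2_up, map_mul, map_mul, map_inv]
      group
    rw [e]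
    exact h.t_up _
  · have e : t * γ (D2 g0) * γ (lo y) * (t * γ (D2 g0))⁻¹ =
        t * γ (lo (g0.toLinearMap ∘ₗ y)) * t⁻¹ := by
      rw [← D2_lo, map_mul, map_mul, map_inv]
      group
    rw [e]
    obtain ⟨y', hy'⟩ := h.t_lo (g0.toLinearMap ∘ₗ y)
    obtain ⟨g', hg'⟩ := ht g0
    refine ⟨g'.toLinearMap ∘ₗ y', ?_⟩
    rw [hy', ← D2_lo, map_mul, map_mul, map_inv, ← hg']
    group

end PDm

end Vale.Agent.P180.H568.XT
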