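import Vale.Agent.P180.H568.XH

/-!
P180: isometry towers: the fields of the tower of a frame which concern the element `X`.
-/

set_option linter.all false

namespace Vale.Agent.P180.H568.XT

open Vale.Agent.P180 Vale.Agent.P180.H768.Gd Vale.Agent.P180.R2.H799 Vale.Agent.P180.R2.H799.BN
open Vale.Agent.P180.H19.Atwo Vale.Agent.P180.R2.H854 Vale.Agent.P180.H393.Fm

universe u v

section Basic

variable {k : Type u} [Field k] [CharZero k] {K E : Type} [Field K] [AddCommGroup E] [Module K E]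
  {Φ : HForm K E} {ι : Type} [Fintype ι] [DecidableEq ι] {m : ℕ} (F : Frame Φ ι m)
  [Finite (E ≃ₗ[K] E)] [Finite ((ι → K) ≃ₗ[K] (ι → K))]
  {ε : MonoidAlgebra k ((ι → K) ≃ₗ[K] (ι → K))} {g0 : (ι → K) ≃ₗ[K] (ι → K)}

theorem EE_EL {i : ℕ} (hi : i < m) : F.EE ε i = EL (F.hyp i hi).gl (F.U i hi) ε :=
  F.EE_eq ε hi

theorem XX_EL {i : ℕ} (hi : i < m) : F.XX ε g0 i = EL (F.hyp i hi).gl (F.U i hi) ε *
    o k (F.tau g0 i) * EL (F.hyp i hi).gl (F.U i hi) ε := by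
  unfold Frame.XX
  rw [EE_EL F hi]

theorem XN_EL {i : ℕ} (hi : i < m) : F.XN ε i = EL (F.hyp i hi).gl (F.U i hi) ε *
    av k (F.Um i hi) * EL (F.hyp i hi).gl (F.U i hi) ε := by
  rw [F.XN_eq ε hi, EE_EL F hi]

/-- self-dual case: the scalars -/
theorem hX_sd (hε : ε * ε = ε) (hp : ∀ z, ∃ c : k, ε * z * ε = c • ε) {i : ℕ} (hi : i < m)
    (hsd : mp (F.hyp i hi).gl ε * o k (F.tau g0 i) * mp (F.hyp i hi).gl ε ≠ 0)
    (h : (ι → K) ≃ₗ[K] (ι → K)) : ∃ c : k,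
      F.EE ε i * MonoidAlgebra.single ((F.hyp i hi).tt * (F.hyp i hi).gl h) 1 * F.EE ε i =
        c • F.XX ε g0 i := by
  obtain ⟨c, hc⟩ := EL_scal (F.hyp i hi).gl_injective hε hp (ld_frame F g0 hi) hsd (g0⁻¹ * h)
  refine ⟨c, ?_⟩
  have e : F.tau g0 i * (F.hyp i hi).gl (g0⁻¹ * h) = (F.hyp i hi).tt * (F.hyp i hi).gl h := by
    rw [F.tau_eq g0 hi, mul_assoc, ← map_mul, mul_inv_cancel_left]
  rw [e] at hc
  rw [XX_EL F hi, ← hc, EE_EL F hi]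

/-- the other case: zero -/
theorem hX_zero {i : ℕ} (hi : i < m)
    (hn : ∀ z, mp (F.hyp i hi).gl ε * o k ((F.hyp i hi).tt * (F.hyp i hi).gl z) *
      mp (F.hyp i hi).gl ε = 0) (h : (ι → K) ≃ₗ[K] (ι → K)) :
      F.EE ε i * MonoidAlgebra.single ((F.hyp i hi).tt * (F.hyp i hi).gl h) 1 * F.EE ε i = 0 := by
  have h1 := EL_mid (ε := ε) (ld_frame F (1 : (ι → K) ≃ₗ[K] (ι → K)) hi)
    ((F.hyp i hi).tt * (F.hyp i hi).gl h)
  rw [hn h, mul_zero, zero_mul] at h1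
  rw [EE_EL F hi]
  exact h1

theorem hX_nsd {i : ℕ} (hi : i < m)
    (hn : ∀ z, mp (F.hyp i hi).gl ε * o k ((F.hyp i hi).tt * (F.hyp i hi).gl z) *
      mp (F.hyp i hi).gl ε = 0) (h : (ι → K) ≃ₗ[K] (ι → K)) : ∃ c : k,
      F.EE ε i * MonoidAlgebra.single ((F.hyp i hi).tt * (F.hyp i hi).gl h) 1 * F.EE ε i =
        c • F.XN ε i :=
  ⟨0, by rw [hX_zero F hi hn h, zero_smul]⟩

end Basic

section Diag

variable {k0 : Type u} [Field k0] [CharZero k0] [IsAlgClosed k0] {σ : k0 →+* k0}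
  {k : Type v} [Field k] [CharZero k] (j : k0 →+* k)
  {K E : Type} [Field K] [AddCommGroup E] [Module K E]
  {Φ : HForm K E} {ι : Type} [Fintype ι] [DecidableEq ι] {m : ℕ} (F : Frame Φ ι m)
  [Finite (E ≃ₗ[K] E)] [Finite ((ι → K) ≃ₗ[K] (ι → K))]
  {ε : MonoidAlgebra k0 ((ι → K) ≃ₗ[K] (ι → K))} {g0 : (ι → K) ≃ₗ[K] (ι → K)}

open Polynomial in
/-- **`X` is diagonalisable, self-dual case** -/
theorem X_diag_frame_sd (hσ : H6.IsSg σ) (hε : ε * ε = ε)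
    (hp : ∀ z, ∃ c : k0, ε * z * ε = c • ε) (hs : H6.stG σ ε = ε) {i : ℕ} (hi : i < m)
    (hsd : mp (F.hyp i hi).gl (H6.mc _ j ε) * o k (F.tau g0 i) * mp (F.hyp i hi).gl (H6.mc _ j ε) ≠ 0) :
    ∃ L : Finset k, aeval (F.XX (H6.mc _ j ε) g0 i) (∏ l ∈ L, (X - C l)) = 0 := by
  rw [XX_EL F hi]
  exact X_diag_sd j hσ (F.hyp i hi).gl_injective hε hp hs (ld_frame F g0 hi) hsd

open Polynomial in
/-- **`X` is diagonalisable, the other case** -/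
theorem X_diag_frame_nsd (hσ : H6.IsSg σ) (hs : H6.stG σ ε = ε) {i : ℕ} (hi : i < m) :
    ∃ L : Finset k, aeval (F.XN (H6.mc _ j ε) i) (∏ l ∈ L, (X - C l)) = 0 := by
  rw [XN_EL F hi]
  exact X_diag_nsd j hσ hs (ld_frame F (1 : (ι → K) ≃ₗ[K] (ι → K)) hi) _

end Diag

section Txt

variable {k : Type u} [Field k] [CharZero k] {K E : Type} [Field K] [Finite K] [AddCommGroup E]
  [Module K E] {Φ : HForm K E} {ι : Type} [Fintype ι] [DecidableEq ι] [Nonempty ι] {m : ℕ}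
  (F : Frame Φ ι m) [Finite (E ≃ₗ[K] E)] [Finite ((ι → K) ≃ₗ[K] (ι → K))]
  {ε : MonoidAlgebra k ((ι → K) ≃ₗ[K] (ι → K))} {g0 : (ι → K) ≃ₗ[K] (ι → K)}

theorem comp_D1 (i : ℕ) (hi : i + 1 < m) :
    ((F.hyp2 i hi).gl.comp H19.Atwo.cj).comp D1 = (F.hyp (i + 1) hi).gl := by
  ext g : 1
  exact gl_D1 (pr_frame F i hi).hx (pr_frame F i hi).hy g

theorem comp_D2 (i : ℕ) (hi : i + 1 < m) :
    ((F.hyp2 i hi).gl.comp H19.Atwo.cj).comp D2 = (F.hyp i (Nat.lt_of_succ_lt hi)).gl := by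
  ext g : 1
  exact gl_D2 (pr_frame F i hi).hx (pr_frame F i hi).hy g

/-- **the field `TXT`, self-dual case** -/
theorem txt_frame_sd (hε : ε * ε = ε) {i : ℕ} (hi : i + 1 < m) :
    F.TT ε i * F.XX ε g0 i * F.TT ε i = (1 : k) • (F.XX ε g0 (i + 1) * F.EE ε i) := by
  classical
  letI := Fintype.ofFinite ((ι → K) ≃ₗ[K] (ι → K))
  haveI : Finite (ι → K) := inferInstance
  haveI : Finite ((ι → K) →ₗ[K] (ι → K)) := Finite.of_injective _ DFunLike.coe_injective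
  letI := Fintype.ofFinite ((ι → K) →ₗ[K] (ι → K))
  have h0 : i < m := Nat.lt_of_succ_lt hi
  have hD1 := comp_D1 F i hi
  have hD2 := comp_D2 F i hi
  have hPD := (pd_frame F i hi).mul_d2 (fun g => by
    refine ⟨adG Φ.θ Φ.θθ g, ?_⟩
    have e1 := DFunLike.congr_fun hD2 g
    have e2 := DFunLike.congr_fun hD2 (adG Φ.θ Φ.θθ g)
    change ((F.hyp2 i hi).gl.comp H19.Atwo.cj) (D2 g) = _ at e1
    change ((F.hyp2 i hi).gl.comp H19.Atwo.cj) (D2 (adG Φ.θ Φ.θθ g)) = _ at e2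
    rw [e1, e2, tt_gl, mul_inv_cancel_right]) g0
  have e3 : ((F.hyp2 i hi).gl.comp H19.Atwo.cj) (D2 g0) = (F.hyp i h0).gl g0 := DFunLike.congr_fun hD2 g0
  rw [e3, ← F.tau_eq g0 h0] at hPD
  rw [one_smul]
  refine txt_sd hε hPD (F.EE_eq ε hi |>.trans ?_) ((F.EE_eq ε h0).trans ?_) ?_ ?_ ?_
  · unfold H19.Atwo.EA
    rw [hD1]
  · rw [hD2]
  · rw [F.TT_eq ε hi, s_eq]
  · rw [← s_eq, F.s_tau g0 hi]
    rfl
  · rfl

/-- **the field `TXT`, the other case** -/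
theorem txt_frame_nsd (hε : ε * ε = ε)
    (hc : ∀ A1 : Submodule K (ι → K), A1 ≠ ⊥ → A1 ≠ ⊤ → ε * av k (Rad A1) = 0)
    {i : ℕ} (hi : i + 1 < m)
    (hn : ∀ z, mp (F.hyp i (Nat.lt_of_succ_lt hi)).gl ε *
      o k ((F.hyp i (Nat.lt_of_succ_lt hi)).gl z) * o k (F.hyp i (Nat.lt_of_succ_lt hi)).tt *
        mp (F.hyp i (Nat.lt_of_succ_lt hi)).gl ε = 0) :
    F.TT ε i * F.XN ε i * F.TT ε i =
      (Nat.card ((ι → K) →ₗ[K] (ι → K)) : k) • (F.XN ε (i + 1) * F.EE ε i) := by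
  classical
  letI := Fintype.ofFinite ((ι → K) ≃ₗ[K] (ι → K))
  haveI : Finite (ι → K) := inferInstance
  haveI : Finite ((ι → K) →ₗ[K] (ι → K)) := Finite.of_injective _ DFunLike.coe_injective
  letI := Fintype.ofFinite ((ι → K) →ₗ[K] (ι → K))
  have h0 : i < m := Nat.lt_of_succ_lt hi
  have hD1 := comp_D1 F i hi
  have hD2 := comp_D2 F i hi
  have hγ : Function.Injective ((F.hyp2 i hi).gl.comp H19.Atwo.cj) := by
    refine (F.hyp2 i hi).gl_injective.comp ?_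
    intro g g' h
    apply LinearEquiv.ext
    intro v
    apply ee.injective
    have h1 := LinearEquiv.congr_fun h (ee v)
    rwa [cj_ee, cj_ee] at h1
  refine txt_nsd hε hc hγ (pd_frame F i hi) (fun g => ?_) (F.EE_eq ε hi |>.trans ?_)
    ((F.EE_eq ε h0).trans ?_) ?_ ?_ ?_
  · have e1 := DFunLike.congr_fun hD2 g
    change ((F.hyp2 i hi).gl.comp H19.Atwo.cj) (D2 g) = _ at e1
    rw [hD2, e1]
    exact hn g
  · unfold H19.Atwo.EA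
    rw [hD1]
  · rw [hD2]
  · rw [F.TT_eq ε hi, s_eq]
  · rw [← s_eq, F.s_tt hi, F.XN_eq ε hi]
    rfl
  · rw [F.XN_eq ε h0]
    rfl

end Txt

section Inv

open Vale.Agent.P180.H354.Fm Vale.Agent.P180.H386.Fm Module

variable {k : Type u} [Field k] [CharZero k] {K E : Type} [Field K] [Finite K] [AddCommGroup E]
  [Module K E] [FiniteDimensional K E] {Φ : HForm K E} {ι : Type} [Fintype ι] [DecidableEq ι]
  [Nonempty ι] {m : ℕ} (F : Frame Φ ι m) [Finite (E ≃ₗ[K] E)] [Finite ((ι → K) ≃ₗ[K] (ι → K))]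
  {ε : MonoidAlgebra k ((ι → K) ≃ₗ[K] (ι → K))} {g0 : (ι → K) ≃ₗ[K] (ι → K)}

/-- **`X` is invertible**, from the square of `X` and the scalars: all levels. -/
theorem X_inv_of (hT : Φ.Tr) (hε : ε * ε = ε)
    (hp : ∀ z, ∃ c : k, ε * z * ε = c • ε)
    (hc : ∀ A1 : Submodule K (ι → K), A1 ≠ ⊥ → A1 ≠ ⊤ → ε * av k (Rad A1) = 0)
    (hmax : ∀ S : Submodule K E, S ≤ WF F 0 →
      (∀ x ∈ S, ∀ y ∈ S, Φ.B x y = 0) → finrank K S ≠ Fintype.card ι)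
    {X : ℕ → MonoidAlgebra k (E ≃ₗ[K] E)} {a b c : ℕ → k}
    (hX : ∀ i (hi : i < m), ∀ h, ∃ c : k, F.EE ε i *
      MonoidAlgebra.single ((F.hyp i hi).tt * (F.hyp i hi).gl h) 1 * F.EE ε i = c • X i)
    (hXm : ∀ i < m, X i ∈ SubAlg k (F.H (i + 1)))
    (hXc : ∀ i < m, ∀ g ∈ F.H i,
      X i * MonoidAlgebra.single g 1 = MonoidAlgebra.single g 1 * X i)
    (hEX : ∀ i < m, F.EE ε i * X i = X i) (hXE : ∀ i < m, X i * F.EE ε i = X i)
    (hw : ∀ i (hi : i < m), ∃ w : MonoidAlgebra k (E ≃ₗ[K] E), ∃ κ : k, κ ≠ 0 ∧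
      w * X i = κ • (F.EE ε i * av k (F.Um i hi) * F.EE ε i))
    (hb : ∀ i, i + 1 < m → b i ≠ 0)
    (hET : ∀ i, i + 1 < m → F.EE ε (i + 1) * F.EE ε i * F.TT ε i = F.TT ε i)
    (hTE : ∀ i, i + 1 < m → F.TT ε i * (F.EE ε (i + 1) * F.EE ε i) = F.TT ε i)
    (hTT : ∀ i, i + 1 < m → F.TT ε i * F.TT ε i =
      a i • F.TT ε i + b i • (F.EE ε (i + 1) * F.EE ε i))
    (hTXT : ∀ i, i + 1 < m → F.TT ε i * X i * F.TT ε i = c i • (X (i + 1) * F.EE ε i)) :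
    ∀ i < m, ∃ y, y * X i = F.EE ε i := by
  have hp' : ∀ h, ∃ c : k, ε * MonoidAlgebra.single h 1 * ε = c • ε := fun h => hp _
  intro i
  induction i with
  | zero =>
    intro h0
    obtain ⟨w, κ, hκ, hwX⟩ := hw 0 h0
    refine X_inv_zero (G' := F.H 0) hκ hwX (H6.TowF.EE_idem F hε h0) (hEX 0 h0) (hXE 0 h0)
      (hXc 0 h0) fun n hn hn1 => ?_
    have hne := map_ne_of_Um F h0 hn hn1
    have hnH : n ∈ F.H 1 := H6.TowF.Um_le F h0 hn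
    rcases mack0 F hT hε hp' hc h0 hmax hnH with ⟨h, -⟩ | ⟨-, h | ⟨h, g', hg', h1⟩⟩
    · exact absurd h hne
    · exact Or.inl h
    · obtain ⟨c1, hc1⟩ := hX 0 h0 h
      exact Or.inr ⟨c1, g', hg', by rw [h1, hc1, smul_mul_assoc]⟩
  | succ i ih =>
    intro hi
    have h0 : i < m := Nat.lt_of_succ_lt hi
    obtain ⟨w, κ, hκ, hwX⟩ := hw (i + 1) hi
    refine X_inv_succ (G' := F.H (i + 1)) hκ (hb i hi) hwX (H6.TowF.EE_idem F hε hi)
      (hEX _ hi) (hXE _ hi) (hXc _ hi) (fun g hg => ?_) (H6.TowF.EE_mem F h0) (hXm i h0)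
      (H6.TowF.EE_idem F hε h0) (hET i hi) (hTE i hi) (hTT i hi) (hTXT i hi) (hEX i h0)
      (ih h0) fun n hn hn1 => ?_
    · exact H6.TowF.EE_comm F hi _ (single_mem_SubAlg hg 1)
    have hne := map_ne_of_Um F hi hn hn1
    have hnH : n ∈ F.H (i + 2) := H6.TowF.Um_le F hi hn
    rcases mackS F hT hε hp' hc hi hnH with ⟨h, -⟩ | ⟨-, h | ⟨h, g', hg', h1⟩ | h1⟩
    · exact absurd h hne
    · exact Or.inl h
    · obtain ⟨c1, hc1⟩ := hX (i + 1) hi h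
      exact Or.inr (Or.inl ⟨c1, g', hg', by rw [h1, hc1, smul_mul_assoc]⟩)
    · exact Or.inr (Or.inr h1)

/-- the first factor, self-dual case -/
theorem hw_sd (hε : ε * ε = ε) (hp : ∀ z, ∃ c : k, ε * z * ε = c • ε) {i : ℕ} (hi : i < m)
    (hsd : mp (F.hyp i hi).gl ε * o k (F.tau g0 i) * mp (F.hyp i hi).gl ε ≠ 0) :
    ∃ w : MonoidAlgebra k (E ≃ₗ[K] E), ∃ κ : k, κ ≠ 0 ∧
      w * F.XX ε g0 i = κ • (F.EE ε i * av k (F.Um i hi) * F.EE ε i) := by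
  obtain ⟨κ, hκ, h⟩ := exists_sq (F.hyp i hi).gl_injective hε hp (ld_frame F g0 hi) hsd
  refine ⟨F.XX ε g0 i, κ, hκ, ?_⟩
  rw [XX_EL F hi, EE_EL F hi, h, conj_tau]

/-- the first factor, the other case -/
theorem hw_nsd {i : ℕ} (hi : i < m) : ∃ w : MonoidAlgebra k (E ≃ₗ[K] E), ∃ κ : k, κ ≠ 0 ∧
      w * F.XN ε i = κ • (F.EE ε i * av k (F.Um i hi) * F.EE ε i) :=
  ⟨1, 1, one_ne_zero, by rw [one_mul, one_smul, F.XN_eq ε hi]⟩

end Inv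

end Vale.Agent.P180.H568.XT
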